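import Vale.Agent.P200.Poly

/-!
Regular sequences of homogeneous forms: permutability and Hilbert functions.
-/

noncomputable section

namespace Vale.Agent.P200

open MvPolynomial

variable {σ ι K : Type*} [Field K]

/-- Each member is a non-zero-divisor modulo the preceding ones. -/
def IsRegSeq {c : ℕ} (f : Fin c → MvPolynomial σ K) : Prop :=
  ∀ i g, g * f i ∈ Ideal.span (f '' Set.Iio i) → g ∈ Ideal.span (f '' Set.Iio i)

/-- Each member is a non-zero-divisor modulo any set of other members. -/
def StrongReg {R : Type*} [CommRing R] (f : ι → MvPolynomial σ R) : Prop :=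
  ∀ (S : Set ι) t, t ∉ S → ∀ g, g * f t ∈ Ideal.span (f '' S) → g ∈ Ideal.span (f '' S)

theorem StrongReg.comp {R : Type*} [CommRing R] {κ : Type*} {f : ι → MvPolynomial σ R}
    (hf : StrongReg f) (e : κ → ι) (he : Function.Injective e) : StrongReg (f ∘ e) := by
  intro S t ht g hg
  rw [Set.image_comp] at hg ⊢
  exact hf _ _ (fun h => ht (he.mem_set_image.1 h)) g hg

theorem StrongReg.isRegSeq {c : ℕ} {f : Fin c → MvPolynomial σ K} (hf : StrongReg f) :
    IsRegSeq f :=
  fun i g hg => hf _ i (lt_irrefl i) g hg

theorem homogeneousComponent_mul_homog (g : MvPolynomial σ K) {z : MvPolynomial σ K} {e : ℕ}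
    (hz : z.IsHomogeneous e) (d : ℕ) :
    homogeneousComponent d (g * z) = if e ≤ d then homogeneousComponent (d - e) g * z else 0 := by
  induction g using MvPolynomial.induction_on' with
  | monomial a r =>
    have hm : (monomial a r * z).IsHomogeneous (a.degree + e) :=
      (isHomogeneous_monomial r rfl).mul hz
    rw [homogeneousComponent_of_mem hm, homogeneousComponent_of_mem (isHomogeneous_monomial r rfl)]
    by_cases h : e ≤ d
    · rw [if_pos h]
      by_cases h2 : d = a.degree + e
      · rw [if_pos h2, if_pos (by omega)]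
      · rw [if_neg h2, if_neg (by omega), zero_mul]
    · rw [if_neg h, if_neg (by omega)]
  | add p q hp hq =>
    rw [add_mul, map_add, hp, hq]
    split_ifs with h
    · rw [map_add, add_mul]
    · rw [add_zero]

theorem mem_of_homogeneousComponent {I : Ideal (MvPolynomial σ K)} {p : MvPolynomial σ K}
    (h : ∀ d, homogeneousComponent d p ∈ I) : p ∈ I := by
  rw [← sum_homogeneousComponent p]
  exact Submodule.sum_mem _ (fun d _ => h d)

theorem isHomIdeal_image {f : ι → MvPolynomial σ K} {deg : ι → ℕ}
    (hf : ∀ i, (f i).IsHomogeneous (deg i)) (S : Set ι) : IsHomIdeal (Ideal.span (f '' S)) :=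
  isHomIdeal_span _ (by rintro _ ⟨i, _, rfl⟩; exact ⟨deg i, hf i⟩)

theorem reg_descend {J : Ideal (MvPolynomial σ K)} (hJ : IsHomIdeal J) {u z : MvPolynomial σ K}
    {e e' : ℕ} (he : 0 < e) (hu : u.IsHomogeneous e) (hz : z.IsHomogeneous e')
    (hu' : ∀ g, g * u ∈ J → g ∈ J)
    (hz' : ∀ g, g * z ∈ Ideal.span {u} ⊔ J → g ∈ Ideal.span {u} ⊔ J) :
    ∀ g, g * z ∈ J → g ∈ J := by
  suffices H : ∀ d g, g.IsHomogeneous d → g * z ∈ J → g ∈ J by
    intro g hg
    refine mem_of_homogeneousComponent fun d =>
      H d _ (homogeneousComponent_isHomogeneous d g) ?_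
    have := hJ _ hg (d + e')
    rwa [homogeneousComponent_mul_homog g hz, if_pos (Nat.le_add_left _ _),
      Nat.add_sub_cancel] at this
  intro d
  induction d using Nat.strong_induction_on with
  | _ d ih =>
    intro g hg hgz
    obtain ⟨a, ha, j, hj, haj⟩ := Submodule.mem_sup.1 (hz' g (Submodule.mem_sup_right hgz))
    obtain ⟨a', rfl⟩ := Ideal.mem_span_singleton'.1 ha
    have h1 := congrArg (homogeneousComponent d) haj
    rw [map_add, homogeneousComponent_eq_self hg, homogeneousComponent_mul_homog a' hu] at h1
    by_cases hde : e ≤ d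
    · rw [if_pos hde] at h1
      set b := homogeneousComponent (d - e) a'
      have h2 : b * z * u ∈ J := by
        have : b * z * u = g * z - homogeneousComponent d j * z := by rw [← h1]; ring
        rw [this]
        exact J.sub_mem hgz (J.mul_mem_right z (hJ _ hj d))
      have h3 : b ∈ J := ih (d - e) (by omega) b (homogeneousComponent_isHomogeneous _ _) (hu' _ h2)
      rw [← h1]
      exact J.add_mem (J.mul_mem_right u h3) (hJ _ hj d)
    · rw [if_neg hde, zero_add] at h1
      rw [← h1]; exact hJ _ hj d

theorem strongReg_of_isRegSeq : ∀ {c : ℕ} (f : Fin c → MvPolynomial σ K) (deg : Fin c → ℕ),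
    (∀ i, 0 < deg i) → (∀ i, (f i).IsHomogeneous (deg i)) → IsRegSeq f → StrongReg f := by
  intro c
  induction c with
  | zero => intro f deg _ _ _ S t; exact Fin.elim0 t
  | succ c ih =>
    intro f deg hpos hhom hreg
    set f' : Fin c → MvPolynomial σ K := f ∘ Fin.castSucc with hf'
    have hreg' : IsRegSeq f' := by
      intro i g hg
      have e : f' '' Set.Iio i = f '' Set.Iio i.castSucc := by
        rw [hf', Set.image_comp, Fin.image_castSucc_Iio]
      rw [e] at hg ⊢
      exact hreg i.castSucc g hg
    have hs' : StrongReg f' := ih f' (deg ∘ Fin.castSucc) (fun i => hpos _) (fun i => hhom _) hreg'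
    have hlast : ∀ S : Set (Fin c), ∀ g, g * f (Fin.last c) ∈ Ideal.span (f' '' S) →
        g ∈ Ideal.span (f' '' S) := by
      suffices H : ∀ T : Finset (Fin c), ∀ g, g * f (Fin.last c) ∈ Ideal.span (f' '' (↑T)ᶜ) →
          g ∈ Ideal.span (f' '' (↑T)ᶜ) by
        intro S
        classical
        have h := H (Finset.univ.filter (· ∉ S))
        have e : (↑(Finset.univ.filter (· ∉ S)) : Set (Fin c))ᶜ = S := by ext i; simp
        rwa [e] at h
      intro T
      induction T using Finset.induction with
      | empty =>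
        intro g hg
        have e : f' '' (↑(∅ : Finset (Fin c)))ᶜ = f '' Set.Iio (Fin.last c) := by
          rw [hf', Set.image_comp]
          congr 1
          ext j
          simp only [Finset.coe_empty, Set.compl_empty, Set.image_univ, Set.mem_range, Set.mem_Iio]
          constructor
          · rintro ⟨i, rfl⟩; exact Fin.castSucc_lt_last i
          · intro hj; exact ⟨j.castPred (Fin.ne_of_lt hj), Fin.castSucc_castPred _ _⟩
        rw [e] at hg ⊢
        exact hreg _ g hg
      | insert u T hu hT =>
        have e : f' '' (↑T)ᶜ = insert (f' u) (f' '' (↑(insert u T))ᶜ) := by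
          rw [← Set.image_insert_eq]
          congr 1
          ext i
          by_cases h : i = u <;> simp [h, hu]
        refine reg_descend (isHomIdeal_image (deg := deg ∘ Fin.castSucc) (fun i => hhom _) _)
          (hpos u.castSucc) (hhom u.castSucc) (hhom (Fin.last c)) (hs' _ u (by simp)) ?_
        have e' : Ideal.span {f u.castSucc} ⊔ Ideal.span (f' '' (↑(insert u T))ᶜ)
            = Ideal.span (f' '' (↑T)ᶜ) := by
          rw [e, ← Ideal.span_insert]; rfl
        intro g hg
        exact e'.ge (hT g (e'.le hg))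
    intro S t ht g hg
    by_cases hl : Fin.last c ∈ S
    · obtain ⟨t', rfl⟩ : ∃ t', t = Fin.castSucc t' :=
        ⟨t.castPred (fun h => ht (h ▸ hl)), (Fin.castSucc_castPred _ _).symm⟩
      set S' := Fin.castSucc ⁻¹' S
      have e : f '' S = insert (f (Fin.last c)) (f' '' S') := by
        rw [hf', Set.image_comp, ← Set.image_insert_eq]
        congr 1
        ext i
        refine Fin.lastCases (by simp [hl]) (fun j => ?_) i
        simp [S', Fin.castSucc_ne_last]
      rw [e, Ideal.mem_span_insert] at hg ⊢
      obtain ⟨b, s, hs, hb⟩ := hg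
      have hb2 : b * f (Fin.last c) ∈ Ideal.span (f' '' insert t' S') := by
        rw [Set.image_insert_eq, Ideal.mem_span_insert]
        exact ⟨g, -s, neg_mem hs, by
          show b * f (Fin.last c) = g * f t'.castSucc + -s
          rw [hb]; ring⟩
      have hb3 := hlast _ b hb2
      rw [Set.image_insert_eq, Ideal.mem_span_insert] at hb3
      obtain ⟨a, s', hs'', ha⟩ := hb3
      refine ⟨a, g - a * f (Fin.last c), ?_, by ring⟩
      refine hs' S' t' ht _ ?_
      have : (g - a * f (Fin.last c)) * f' t' = s + s' * f (Fin.last c) := by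
        show (g - a * f (Fin.last c)) * f t'.castSucc = _
        rw [sub_mul, hb, ha]
        show _ - a * f (Fin.last c) * f t'.castSucc = _
        simp only [hf', Function.comp_apply]; ring
      rw [this]
      exact Ideal.add_mem _ hs (Ideal.mul_mem_right _ _ hs'')
    · have e : f '' S = f' '' (Fin.castSucc ⁻¹' S) := by
        rw [hf', Set.image_comp]
        congr 1
        ext i
        refine Fin.lastCases (by simp [hl, Fin.castSucc_ne_last]) (fun j => ?_) i
        simp
      rw [e] at hg ⊢
      refine Fin.lastCases (fun _ hg => hlast _ g hg) (fun t' ht hg => hs' _ t' ht g hg) t ht hg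

/-! ### Hilbert functions -/

/-- The degree `d` part of an ideal. -/
def piece (I : Ideal (MvPolynomial σ K)) (d : ℕ) : Submodule K (MvPolynomial σ K) :=
  I.restrictScalars K ⊓ homogeneousSubmodule σ K d

theorem mem_piece {I : Ideal (MvPolynomial σ K)} {d : ℕ} {p : MvPolynomial σ K} :
    p ∈ piece I d ↔ p ∈ I ∧ p.IsHomogeneous d := Iff.rfl

theorem piece_mono {I I' : Ideal (MvPolynomial σ K)} (h : I ≤ I') (d : ℕ) :
    piece I d ≤ piece I' d := fun _ hp => ⟨h hp.1, hp.2⟩

instance homogeneous_finite [Finite σ] (d : ℕ) :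
    FiniteDimensional K (homogeneousSubmodule σ K d) :=
  Module.Finite.iff_fg.2 (homogeneousSubmodule_fg σ K d)

instance piece_finite [Finite σ] (I : Ideal (MvPolynomial σ K)) (d : ℕ) :
    FiniteDimensional K (piece I d) :=
  Submodule.finiteDimensional_of_le inf_le_right

theorem finrank_homogeneous (n d : ℕ) :
    Module.finrank K (homogeneousSubmodule (Fin n) K d) = n.multichoose d := by
  classical
  have hset : {a : Fin n →₀ ℕ | a.degree = d} =
      (Finset.univ.finsuppAntidiag d : Finset (Fin n →₀ ℕ)) := by
    ext a; simp [Finsupp.degree_eq_sum]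
  have e : homogeneousSubmodule (Fin n) K d =
      restrictSupport K {a : Fin n →₀ ℕ | a.degree = d} := by
    rw [homogeneousSubmodule_eq_finsupp_supported]; rfl
  rw [e, Module.finrank_eq_nat_card_basis (basisRestrictSupport K _), hset,
    Nat.card_coe_set_eq, Set.ncard_coe_finset, Finset.card_finsuppAntidiag_nat_eq_multichoose,
    Finset.card_univ, Fintype.card_fin]

theorem finrank_quotPiece_add [Finite σ] (I : Ideal (MvPolynomial σ K)) (d : ℕ) :
    Module.finrank K (quotPiece I d) + Module.finrank K (piece I d) =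
      Module.finrank K (homogeneousSubmodule σ K d) := by
  set L := (Ideal.Quotient.mkₐ K I).toLinearMap ∘ₗ (homogeneousSubmodule σ K d).subtype
  have h1 : LinearMap.range L = quotPiece I d := by
    rw [LinearMap.range_comp, Submodule.range_subtype]; rfl
  have h2 : (LinearMap.ker L).map (homogeneousSubmodule σ K d).subtype = piece I d := by
    ext p
    constructor
    · rintro ⟨q, hq, rfl⟩
      exact ⟨Ideal.Quotient.eq_zero_iff_mem.1 hq, q.2⟩
    · rintro ⟨hp, hp'⟩
      exact ⟨⟨p, hp'⟩, Ideal.Quotient.eq_zero_iff_mem.2 hp, rfl⟩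
  rw [← L.finrank_range_add_finrank_ker, h1, ← h2, Submodule.finrank_map_subtype_eq]

/-- The Hilbert series coefficients of the ring. -/
def hilb0 (n : ℕ) : PowerSeries ℤ := PowerSeries.mk fun d => (n.multichoose d : ℤ)

theorem hilb0_mul (n : ℕ) : hilb0 n * (1 - PowerSeries.X) ^ n = 1 := by
  induction n with
  | zero =>
    ext d
    cases d <;> simp [hilb0]
  | succ n ih =>
    have : hilb0 (n + 1) * (1 - PowerSeries.X) = hilb0 n := by
      rw [mul_sub, mul_one]
      ext d
      cases d with
      | zero => simp [hilb0]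
      | succ d =>
        simp [hilb0, Nat.multichoose_succ_succ, PowerSeries.coeff_succ_mul_X]
    rw [pow_succ', ← mul_assoc, this, ih]

theorem coeff_one_add_X_pow (n : ℕ) : ∀ d, PowerSeries.coeff d ((1 + PowerSeries.X) ^ n : PowerSeries ℤ)
    = (n.choose d : ℤ) := by
  induction n with
  | zero => intro d; cases d <;> simp
  | succ n ih =>
    intro d
    rw [pow_succ, mul_add, mul_one, map_add, ih]
    cases d with
    | zero => simp
    | succ d =>
      rw [PowerSeries.coeff_succ_mul_X, ih, Nat.choose_succ_succ]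
      push_cast; ring

theorem hilbert_regular {n : ℕ} {f : ι → MvPolynomial (Fin n) K}
    (hf : ∀ i, (f i).IsHomogeneous 2) (hne : ∀ i, f i ≠ 0) (hreg : StrongReg f) (S : Finset ι) :
    ∀ d, ((n.multichoose d : ℤ) - Module.finrank K (piece (Ideal.span (f '' S)) d)) =
      PowerSeries.coeff d (hilb0 n * (1 - PowerSeries.X ^ 2) ^ S.card) := by
  classical
  induction S using Finset.induction with
  | empty =>
    intro d
    have : piece (Ideal.span (f '' ((∅ : Finset ι) : Set ι))) d = ⊥ := by
      simp [piece]
    rw [this, finrank_bot]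
    simp [hilb0]
  | insert u S hu ih =>
    intro d
    set J := Ideal.span (f '' (S : Set ι))
    have hJ : IsHomIdeal J := isHomIdeal_image (deg := fun _ => 2) hf _
    have hJ' : Ideal.span (f '' ((insert u S : Finset ι) : Set ι)) = Ideal.span {f u} ⊔ J := by
      rw [Finset.coe_insert, Set.image_insert_eq, Ideal.span_insert]
    rw [hJ', Finset.card_insert_of_notMem hu, pow_succ, ← mul_assoc]
    set H := hilb0 n * (1 - PowerSeries.X ^ 2) ^ S.card
    by_cases hd : 2 ≤ d
    · obtain ⟨r, rfl⟩ : ∃ r, d = r + 2 := ⟨d - 2, by omega⟩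
      let mu : MvPolynomial (Fin n) K →ₗ[K] MvPolynomial (Fin n) K := LinearMap.mulRight K (f u)
      have hinj : Function.Injective mu := fun p q h => mul_right_cancel₀ (hne u) h
      have h1 : piece (Ideal.span {f u} ⊔ J) (r + 2) =
          piece J (r + 2) ⊔ (homogeneousSubmodule (Fin n) K r).map mu := by
        apply le_antisymm
        · rintro p ⟨hp, hp'⟩
          obtain ⟨a, ha, j, hj, rfl⟩ := Submodule.mem_sup.1 hp
          obtain ⟨a', rfl⟩ := Ideal.mem_span_singleton'.1 ha
          rw [← homogeneousComponent_eq_self hp', map_add, homogeneousComponent_mul_homog a' (hf u),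
            if_pos (by omega), Nat.add_sub_cancel]
          exact Submodule.add_mem _
            (Submodule.mem_sup_right ⟨_, homogeneousComponent_isHomogeneous _ _, rfl⟩)
            (Submodule.mem_sup_left ⟨hJ _ hj _, homogeneousComponent_isHomogeneous _ _⟩)
        · refine sup_le (piece_mono le_sup_right _) ?_
          rintro _ ⟨a, ha, rfl⟩
          exact ⟨Submodule.mem_sup_left (Ideal.mem_span_singleton'.2 ⟨a, rfl⟩), ha.mul (hf u)⟩
      have h2 : piece J (r + 2) ⊓ (homogeneousSubmodule (Fin n) K r).map mu =
          (piece J r).map mu := by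
        apply le_antisymm
        · rintro _ ⟨hp, a, ha, rfl⟩
          exact ⟨a, ⟨hreg _ u (by simpa using hu) a hp.1, ha⟩, rfl⟩
        · rintro _ ⟨a, ha, rfl⟩
          exact ⟨⟨J.mul_mem_right _ ha.1, ha.2.mul (hf u)⟩, a, ha.2, rfl⟩
      have : FiniteDimensional K ((homogeneousSubmodule (Fin n) K r).map mu) :=
        Module.Finite.map _ _
      have h3 := Submodule.finrank_sup_add_finrank_inf_eq (piece J (r + 2))
        ((homogeneousSubmodule (Fin n) K r).map mu)
      rw [← h1, h2] at h3
      have e1 := (Submodule.equivMapOfInjective mu hinj (piece J r)).finrank_eq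
      have e2 := (Submodule.equivMapOfInjective mu hinj (homogeneousSubmodule (Fin n) K r)).finrank_eq
      rw [finrank_homogeneous] at e2
      have hsplit : PowerSeries.coeff (r + 2) (H * (1 - PowerSeries.X ^ 2)) =
          PowerSeries.coeff (r + 2) H - PowerSeries.coeff r H := by
        rw [mul_sub, mul_one, map_sub, PowerSeries.coeff_mul_X_pow]
      rw [hsplit, ← ih, ← ih]
      omega
    · have h1 : piece (Ideal.span {f u} ⊔ J) d = piece J d := by
        refine le_antisymm ?_ (piece_mono le_sup_right _)
        rintro p ⟨hp, hp'⟩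
        obtain ⟨a, ha, j, hj, rfl⟩ := Submodule.mem_sup.1 hp
        obtain ⟨a', rfl⟩ := Ideal.mem_span_singleton'.1 ha
        rw [← homogeneousComponent_eq_self hp', map_add, homogeneousComponent_mul_homog a' (hf u),
          if_neg hd, zero_add]
        exact ⟨hJ _ hj _, homogeneousComponent_isHomogeneous _ _⟩
      rw [h1, ih, mul_sub, mul_one, map_sub, PowerSeries.coeff_mul_X_pow', if_neg hd, sub_zero]

theorem finrank_quotPiece_full {n : ℕ} {f : ι → MvPolynomial (Fin n) K} [Fintype ι]
    (hcard : Fintype.card ι = n)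
    (hf : ∀ i, (f i).IsHomogeneous 2) (hne : ∀ i, f i ≠ 0) (hreg : StrongReg f) (d : ℕ) :
    Module.finrank K (quotPiece (Ideal.span (Set.range f)) d) = n.choose d := by
  have h := hilbert_regular hf hne hreg Finset.univ d
  rw [Finset.coe_univ, Set.image_univ, Finset.card_univ, hcard,
    show (1 - PowerSeries.X ^ 2 : PowerSeries ℤ) = (1 - PowerSeries.X) * (1 + PowerSeries.X) by ring,
    mul_pow, ← mul_assoc, hilb0_mul, one_mul, coeff_one_add_X_pow] at h
  have h2 := finrank_quotPiece_add (Ideal.span (Set.range f)) d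
  rw [finrank_homogeneous] at h2
  omega

theorem finite_quot {n : ℕ} (I : Ideal (MvPolynomial (Fin n) K)) (hI : IsHomIdeal I) (b : ℕ)
    (hb : ∀ d, b < d → quotPiece I d = ⊥) : FiniteDimensional K (MvPolynomial (Fin n) K ⧸ I) := by
  have h : (⊤ : Submodule K (MvPolynomial (Fin n) K ⧸ I)) ≤
      ⨆ d : Fin (b + 1), quotPiece I d := by
    intro a _
    obtain ⟨D, hD⟩ := sum_quotProj I hI a
    rw [hD]
    refine Submodule.sum_mem _ fun d _ => ?_
    by_cases h : d < b + 1
    · exact Submodule.mem_iSup_of_mem (⟨d, h⟩ : Fin (b + 1)) (quotProj_mem I hI d a)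
    · have := quotProj_mem I hI d a
      rw [hb d (by omega), Submodule.mem_bot] at this
      rw [this]; exact zero_mem _
  have : FiniteDimensional K (⨆ d : Fin (b + 1), quotPiece I d : Submodule K _) := inferInstance
  rw [top_le_iff.1 h] at this
  exact Module.Finite.equiv Submodule.topEquiv

theorem homogeneous_le_span_prod (d : ℕ) :
    homogeneousSubmodule σ K d ≤
      Submodule.span K (Set.range fun v : Fin d → σ => ∏ i, (X (v i) : MvPolynomial σ K)) := by
  rw [← homogeneousSubmodule_one_pow]
  induction d with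
  | zero =>
    rw [pow_zero, Submodule.one_eq_span]
    exact Submodule.span_mono (by rintro _ rfl; exact ⟨Fin.elim0, by simp⟩)
  | succ d ih =>
    rw [pow_succ, homogeneousSubmodule_one_eq_span_X]
    rw [homogeneousSubmodule_one_eq_span_X] at ih
    refine le_trans (mul_le_mul' ih le_rfl) ?_
    rw [Submodule.span_mul_span]
    refine Submodule.span_mono ?_
    rintro _ ⟨_, ⟨v, rfl⟩, _, ⟨j, rfl⟩, rfl⟩
    exact ⟨Fin.snoc v j, by simp [Fin.prod_univ_castSucc]⟩

end Vale.Agent.P200
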