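import Vale.Agent.P200.Ext

/-!
Copies of a regular system in disjoint sets of variables.
-/

noncomputable section

namespace Vale.Agent.P200

open MvPolynomial

variable {β σ ι K : Type*} [Field K]

/-- The member `t` in the block of variables `i`. -/
def blockSys (f : ι → MvPolynomial σ K) (p : β × ι) : MvPolynomial (β × σ) K :=
  rename (Prod.mk p.1) (f p.2)

theorem StrongReg.block {f : ι → MvPolynomial σ K} (hf : StrongReg f) :
    StrongReg (blockSys (β := β) f) := by
  classical
  rintro S ⟨i, t⟩ ht g hg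
  set J' : Ideal (MvPolynomial (β × σ) K) := Ideal.span (blockSys f '' {p ∈ S | p.1 ≠ i})
  set J : Ideal (MvPolynomial (β × σ) K) := Ideal.span (blockSys f '' S)
  have hle : J' ≤ J := Ideal.span_mono (Set.image_mono fun p hp => hp.1)
  let R := MvPolynomial (β × σ) K ⧸ J'
  let E : MvPolynomial (β × σ) K →ₐ[K] MvPolynomial σ R :=
    aeval fun q => if q.1 = i then X q.2 else C (Ideal.Quotient.mk J' (X q))
  let Bk : MvPolynomial σ R →ₐ[K] MvPolynomial (β × σ) K ⧸ J :=
    aevalTower (Ideal.Quotient.factorₐ K hle) fun v => Ideal.Quotient.mk J (X (i, v))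
  have hBE : Bk.comp E = Ideal.Quotient.mkₐ K J := by
    ext q
    rcases q with ⟨k, v⟩
    by_cases h : k = i
    · subst h
      simp [E, Bk]
    · simp [E, Bk, h]
      rfl
  have hEi : ∀ s, E (blockSys f (i, s)) = map (algebraMap K R) (f s) := by
    intro s
    have : E.comp (rename (Prod.mk i)) =
        (aeval (fun v => (X v : MvPolynomial σ R)) : MvPolynomial σ K →ₐ[K] MvPolynomial σ R) := by
      ext v; simp [E]
    rw [blockSys]
    refine (AlgHom.congr_fun this (f s)).trans ?_
    induction f s using MvPolynomial.induction_on with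
    | C r => simp [IsScalarTower.algebraMap_apply K R (MvPolynomial σ R)]
    | add p q hp hq => simp [map_add, hp, hq]
    | mul_X p v hp => simp [map_mul, hp]
  have hEo : ∀ p ∈ S, p.1 ≠ i → E (blockSys f p) = 0 := by
    rintro ⟨k, s⟩ hp hk
    have : E.comp (rename (Prod.mk k)) =
        (IsScalarTower.toAlgHom K R (MvPolynomial σ R)).comp
          ((Ideal.Quotient.mkₐ K J').comp (rename (Prod.mk k))) := by
      ext v; simp [E, hk, MvPolynomial.algebraMap_eq]
    rw [blockSys]
    refine (AlgHom.congr_fun this (f s)).trans ?_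
    have h0 : Ideal.Quotient.mk J' (rename (Prod.mk k) (f s)) = 0 :=
      Ideal.Quotient.eq_zero_iff_mem.2 (Ideal.subset_span ⟨(k, s), ⟨hp, hk⟩, rfl⟩)
    simp [h0]
  set T : Set ι := {s | (i, s) ∈ S}
  have hEJ : J.map E.toRingHom ≤ Ideal.span ((fun s => map (algebraMap K R) (f s)) '' T) := by
    rw [Ideal.map_span, Ideal.span_le]
    rintro _ ⟨_, ⟨⟨k, s⟩, hp, rfl⟩, rfl⟩
    by_cases hk : k = i
    · subst hk
      show E (blockSys f (k, s)) ∈ _
      rw [hEi]; exact Ideal.subset_span ⟨s, hp, rfl⟩
    · show E (blockSys f (k, s)) ∈ _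
      rw [hEo _ hp hk]; exact zero_mem _
  have h1 : E g * map (algebraMap K R) (f t) ∈
      Ideal.span ((fun s => map (algebraMap K R) (f s)) '' T) := by
    rw [← hEi, ← map_mul]
    exact hEJ (Ideal.mem_map_of_mem E.toRingHom hg)
  have h2 := hf.extend (R := R) T t ht _ h1
  have h3 : ∀ x ∈ Ideal.span ((fun s => map (algebraMap K R) (f s)) '' T), Bk x = 0 := by
    intro x hx
    induction hx using Submodule.span_induction with
    | mem x hx =>
      obtain ⟨s, hs, rfl⟩ := hx
      show Bk (map (algebraMap K R) (f s)) = 0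
      rw [← hEi s]
      refine (AlgHom.congr_fun hBE _).trans ?_
      exact Ideal.Quotient.eq_zero_iff_mem.2 (Ideal.subset_span ⟨(i, s), hs, rfl⟩)
    | zero => simp
    | add x y _ _ hx hy => simp [hx, hy]
    | smul a x _ hx => simp [hx]
  have h4 := h3 _ h2
  rw [← AlgHom.comp_apply, hBE] at h4
  exact Ideal.Quotient.eq_zero_iff_mem.1 h4

end Vale.Agent.P200
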