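import Mathlib

/-!
Upper shadows in products of chains: initial segments of the lexicographic order have the
smallest shadow (the theorem of Clements and Lindstrom), by compression.
-/

noncomputable section

namespace Vale.Agent.P200.CL

variable {n : ℕ} {κ : Fin n → ℕ} {d : ℕ}

/-- Exponent vectors of degree `d` with prescribed strict bounds. -/
def box (κ : Fin n → ℕ) (d : ℕ) : Finset (Fin n → ℕ) :=
  (Finset.univ.piAntidiag d).filter fun a => ∀ i, a i < κ i

theorem mem_box {a : Fin n → ℕ} : a ∈ box κ d ↔ ∑ i, a i = d ∧ ∀ i, a i < κ i := by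
  simp [box]

/-- lexicographically greater -/
def gtL (a b : Fin n → ℕ) : Prop := ∃ i, (∀ j < i, a j = b j) ∧ b i < a i

theorem gtL_iff {a b : Fin n → ℕ} : gtL a b ↔ toLex b < toLex a := by
  constructor
  · rintro ⟨i, h, h'⟩; exact ⟨i, fun j hj => (h j hj).symm, h'⟩
  · rintro ⟨i, h, h'⟩; exact ⟨i, fun j hj => (h j hj).symm, h'⟩

theorem gtL.trans {a b c : Fin n → ℕ} (h : gtL a b) (h' : gtL b c) : gtL a c :=
  gtL_iff.2 ((gtL_iff.1 h').trans (gtL_iff.1 h))

theorem gtL_irrefl (a : Fin n → ℕ) : ¬ gtL a a := fun h => lt_irrefl _ (gtL_iff.1 h)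

theorem gtL_total {a b : Fin n → ℕ} (h : a ≠ b) : gtL a b ∨ gtL b a := by
  rcases lt_or_gt_of_ne (fun e : toLex a = toLex b => h (toLex.injective e)) with h' | h'
  · exact Or.inr (gtL_iff.2 h')
  · exact Or.inl (gtL_iff.2 h')

/-- initial segment of the lexicographic order -/
def IsSeg (κ : Fin n → ℕ) (d : ℕ) (A : Finset (Fin n → ℕ)) : Prop :=
  A ⊆ box κ d ∧ ∀ a ∈ A, ∀ b ∈ box κ d, gtL b a → b ∈ A

theorem IsSeg.subset_of_card_le {A B : Finset (Fin n → ℕ)} (hA : IsSeg κ d A)
    (hB : IsSeg κ d B) (h : A.card ≤ B.card) : A ⊆ B := by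
  by_contra hne
  obtain ⟨a, haA, haB⟩ := Finset.not_subset.1 hne
  have hBA : B ⊆ A.erase a := by
    intro b hb
    have hne' : b ≠ a := fun e => haB (e ▸ hb)
    refine Finset.mem_erase.2 ⟨hne', ?_⟩
    rcases gtL_total hne' with h' | h'
    · exact hA.2 a haA b (hB.1 hb) h'
    · exact absurd (hB.2 b hb a (hA.1 haA) h') haB
  have := Finset.card_le_card hBA
  rw [Finset.card_erase_of_mem haA] at this
  have : 0 < A.card := Finset.card_pos.2 ⟨a, haA⟩
  omega

theorem exists_seg (κ : Fin n → ℕ) (d : ℕ) : ∀ m ≤ (box κ d).card,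
    ∃ L, IsSeg κ d L ∧ L.card = m := by
  intro m
  induction m with
  | zero =>
    intro _
    exact ⟨∅, ⟨Finset.empty_subset _, fun a ha => absurd ha (Finset.notMem_empty a)⟩, rfl⟩
  | succ m ih =>
    intro hm
    obtain ⟨L, hL, hLc⟩ := ih (Nat.le_of_succ_le hm)
    have hne : (box κ d \ L).Nonempty := by
      rw [← Finset.card_pos, Finset.card_sdiff_of_subset hL.1]; omega
    obtain ⟨a, ha, hmax⟩ := Finset.exists_max_image _ (fun a => toLex a) hne
    rw [Finset.mem_sdiff] at ha
    refine ⟨insert a L, ⟨Finset.insert_subset ha.1 hL.1, fun c hc b hb hbc => ?_⟩, ?_⟩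
    · rcases Finset.mem_insert.1 hc with rfl | hc
      · by_contra hbn
        rw [Finset.mem_insert, not_or] at hbn
        exact absurd (gtL_iff.1 hbc) (not_lt.2 (hmax b (Finset.mem_sdiff.2 ⟨hb, hbn.2⟩)))
      · exact Finset.mem_insert_of_mem (hL.2 c hc b hb hbc)
    · rw [Finset.card_insert_of_notMem ha.2, hLc]

/-- upper shadow -/
def sh (κ : Fin n → ℕ) (d : ℕ) (A : Finset (Fin n → ℕ)) : Finset (Fin n → ℕ) :=
  (box κ (d + 1)).filter fun b => ∃ i, 0 < b i ∧ b - Pi.single i 1 ∈ A

theorem mem_sh {A : Finset (Fin n → ℕ)} {b : Fin n → ℕ} :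
    b ∈ sh κ d A ↔ b ∈ box κ (d + 1) ∧ ∃ i, 0 < b i ∧ b - Pi.single i 1 ∈ A := by
  simp [sh]

theorem sh_mono {A B : Finset (Fin n → ℕ)} (h : A ⊆ B) : sh κ d A ⊆ sh κ d B := by
  intro b hb
  obtain ⟨h1, i, h2, h3⟩ := mem_sh.1 hb
  exact mem_sh.2 ⟨h1, i, h2, h h3⟩

theorem sum_sub_single {b : Fin n → ℕ} {i : Fin n} (hi : 0 < b i) :
    ∑ j, (b - Pi.single i 1 : Fin n → ℕ) j + 1 = ∑ j, b j := by
  rw [← Finset.add_sum_erase _ _ (Finset.mem_univ i), ← Finset.add_sum_erase _ b (Finset.mem_univ i),
    Finset.sum_congr rfl (g := b) (fun j hj => by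
      simp [Pi.sub_apply, Pi.single_eq_of_ne (Finset.ne_of_mem_erase hj)])]
  have : (Finset.univ.erase i).sum b = ∑ j ∈ Finset.univ.erase i, b j := rfl
  simp [Pi.sub_apply]
  omega

theorem sub_single_mem {b : Fin n → ℕ} {i : Fin n} (hb : b ∈ box κ (d + 1)) (hi : 0 < b i) :
    b - Pi.single i 1 ∈ box κ d := by
  rw [mem_box] at hb ⊢
  refine ⟨?_, fun j => lt_of_le_of_lt ?_ (hb.2 j)⟩
  · have := sum_sub_single hi; omega
  · simp [Pi.sub_apply]

theorem single_sub_apply {b : Fin n → ℕ} (i j : Fin n) :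
    (b - Pi.single i 1 : Fin n → ℕ) j = if j = i then b j - 1 else b j := by
  by_cases h : j = i
  · subst h; simp
  · simp [h]

/-- The shadow of a segment is a segment. -/
theorem IsSeg.sh {A : Finset (Fin n → ℕ)} (hA : IsSeg κ d A) :
    IsSeg κ (d + 1) (CL.sh κ d A) := by
  refine ⟨Finset.filter_subset _ _, fun b hb b' hb' hgt => ?_⟩
  obtain ⟨hbB, i, hi, hiA⟩ := mem_sh.1 hb
  obtain ⟨p, hp, hpl⟩ := hgt
  have hne : (Finset.univ.filter fun j => 0 < b' j).Nonempty := ⟨p, by simp; omega⟩
  set l := (Finset.univ.filter fun j => 0 < b' j).max' hne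
  have hl : 0 < b' l := (Finset.mem_filter.1 (Finset.max'_mem _ hne)).2
  have hpl' : p ≤ l := Finset.le_max' _ _ (by simp; omega)
  refine mem_sh.2 ⟨hb', l, hl, ?_⟩
  have hmem := sub_single_mem hb' hl
  by_cases heq : b' - Pi.single l 1 = b - Pi.single i 1
  · rw [heq]; exact hiA
  refine hA.2 _ hiA _ hmem ?_
  rcases gtL_total heq with h | ⟨q, hq, hql⟩
  · exact h
  exfalso
  rw [single_sub_apply, single_sub_apply] at hql
  rcases lt_trichotomy q p with h1 | h1 | h1
  · have := hp q h1
    have : q ≠ l := ne_of_lt (lt_of_lt_of_le h1 hpl')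
    rw [if_neg this] at hql
    split_ifs at hql <;> omega
  · subst h1
    split_ifs at hql <;> omega
  · -- the earlier coordinate `p` must agree
    have e := hq p h1
    rw [single_sub_apply, single_sub_apply] at e
    have hle : p = l := by
      by_contra hne'
      rw [if_neg hne'] at e
      split_ifs at e <;> omega
    rw [if_pos hle] at e
    have hip : p ≠ i := by
      intro h'
      rw [if_pos h'] at e
      have : 0 < b p := by rw [h']; exact hi
      omega
    rw [if_neg hip] at e
    have hzero : ∀ j, p < j → b' j = 0 := by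
      intro j hj
      by_contra hj0
      have : j ≤ l := Finset.le_max' _ _ (by simp; omega)
      rw [← hle] at this
      exact absurd (lt_of_lt_of_le hj this) (lt_irrefl _)
    have hqi : q ≠ l := by rw [← hle]; exact ne_of_gt h1
    rw [if_neg hqi, hzero q h1] at hql
    -- the two vectors have the same degree
    have hs1 : ∑ j, (b' - Pi.single l 1 : Fin n → ℕ) j = d := (mem_box.1 hmem).1
    have hs2 : ∑ j, (b - Pi.single i 1 : Fin n → ℕ) j = d := (mem_box.1 (hA.1 hiA)).1
    have hlt : ∑ j, (b' - Pi.single l 1 : Fin n → ℕ) j < ∑ j, (b - Pi.single i 1 : Fin n → ℕ) j := by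
      refine Finset.sum_lt_sum (fun j _ => ?_) ⟨q, Finset.mem_univ q, ?_⟩
      · rw [single_sub_apply, single_sub_apply]
        rcases lt_trichotomy j p with h2 | h2 | h2
        · have := hq j (h2.trans h1)
          rw [single_sub_apply, single_sub_apply] at this
          omega
        · subst h2; rw [if_neg hip, ← hle, if_pos rfl]; omega
        · rw [hzero j h2]; split_ifs <;> omega
      · rw [single_sub_apply, single_sub_apply, if_neg hqi, hzero q h1]
        exact hql
    omega

/-! ### Potential -/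

/-- number of smaller elements -/
def rk (κ : Fin n → ℕ) (d : ℕ) (a : Fin n → ℕ) : ℕ := by
  classical
  exact ((box κ d).filter fun z => gtL a z).card

theorem rk_lt {a b : Fin n → ℕ} (hb : b ∈ box κ d) (h : gtL a b) : rk κ d b < rk κ d a := by
  classical
  refine Finset.card_lt_card ⟨fun z hz => ?_, fun hsub => ?_⟩
  · rw [Finset.mem_filter] at hz ⊢
    exact ⟨hz.1, h.trans hz.2⟩
  · exact gtL_irrefl b (Finset.mem_filter.1 (hsub (Finset.mem_filter.2 ⟨hb, h⟩))).2

theorem sum_rk_lt {S L : Finset (Fin n → ℕ)} (hS : S ⊆ box κ d) (w : (Fin n → ℕ) → ℕ)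
    (hw : ∀ a b, b ∈ box κ d → gtL a b → w b < w a) (hL : IsSeg κ d L) (hcard : S.card = L.card)
    (hne : S ≠ L) : ∑ a ∈ S, w a < ∑ a ∈ L, w a := by
  classical
  have h1 : (L \ S).card = (S \ L).card := Finset.card_sdiff_comm hcard.symm
  have hne' : (S \ L).Nonempty := by
    rw [Finset.sdiff_nonempty]
    exact fun h => hne (Finset.eq_of_subset_of_card_le h hcard.ge)
  have key : ∀ s ∈ S \ L, ∀ l ∈ L \ S, w s < w l := by
    intro s hs l hl
    rw [Finset.mem_sdiff] at hs hl
    refine hw l s (hS hs.1) ?_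
    rcases gtL_total (show l ≠ s from fun e => hl.2 (e ▸ hs.1)) with h | h
    · exact h
    · exact absurd (hL.2 l hl.1 s (hS hs.1) h) hs.2
  let e := Finset.equivOfCardEq h1.symm
  have h2 : ∑ a ∈ S \ L, w a < ∑ a ∈ L \ S, w a := by
    rw [← Finset.sum_coe_sort, ← Finset.sum_coe_sort (L \ S), ← e.sum_comp]
    have : Nonempty {x // x ∈ S \ L} := ⟨⟨_, hne'.choose_spec⟩⟩
    exact Finset.sum_lt_sum_of_nonempty Finset.univ_nonempty
      (fun s _ => key s.1 s.2 (e s).1 (e s).2)
  rw [← Finset.sum_sdiff (Finset.inter_subset_left : S ∩ L ⊆ S),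
    ← Finset.sum_sdiff (Finset.inter_subset_right : S ∩ L ⊆ L), Finset.sdiff_inter_self_left,
    Finset.sdiff_inter_self_right]
  omega

/-! ### Two variables -/

theorem two_vars {κ : Fin 2 → ℕ} (hκ : Monotone κ) {A L : Finset (Fin 2 → ℕ)}
    (hA : A ⊆ box κ d) (hL : IsSeg κ d L) (hcard : A.card = L.card) :
    (sh κ d L).card ≤ (sh κ d A).card := by
  classical
  by_cases hfull : A = box κ d
  · exact Finset.card_le_card (sh_mono (by rw [hfull]; exact hL.1))
  rcases A.eq_empty_or_nonempty with hemp | hne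
  · rw [hemp, Finset.card_empty] at hcard
    rw [Finset.card_eq_zero.1 hcard.symm]
    simp [sh]
  have h01 : κ 0 ≤ κ 1 := hκ (by decide)
  have hmem : ∀ {m : ℕ} {a : Fin 2 → ℕ},
      a ∈ box κ m ↔ a 0 + a 1 = m ∧ a 0 < κ 0 ∧ a 1 < κ 1 := by
    intro m a
    rw [mem_box, Fin.sum_univ_two, Fin.forall_fin_two]
  have hext : ∀ {m : ℕ} {a b : Fin 2 → ℕ}, a ∈ box κ m → b ∈ box κ m → a 0 = b 0 → a = b := by
    intro m a b ha hb h
    obtain ⟨h1, -⟩ := hmem.1 ha
    obtain ⟨h2, -⟩ := hmem.1 hb
    funext j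
    fin_cases j
    · exact h
    · show a 1 = b 1
      omega
  have hinj : ∀ m, Set.InjOn (fun a : Fin 2 → ℕ => a 0) (box κ m : Set (Fin 2 → ℕ)) :=
    fun m a ha b hb h => hext ha hb h
  -- first coordinates
  set SA := A.image fun a => a 0
  set SL := (sh κ d L).image fun a => a 0
  set SB := (sh κ d A).image fun a => a 0
  have hcA : SA.card = A.card := Finset.card_image_of_injOn ((hinj d).mono hA)
  have hcL : SL.card = (sh κ d L).card :=
    Finset.card_image_of_injOn ((hinj (d + 1)).mono (Finset.filter_subset _ _))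
  have hcB : SB.card = (sh κ d A).card :=
    Finset.card_image_of_injOn ((hinj (d + 1)).mono (Finset.filter_subset _ _))
  rw [← hcL, ← hcB]
  have hmemB : ∀ a ∈ A, ∀ t, (t = a 0 ∨ t = a 0 + 1) → t < κ 0 → t ≤ d + 1 → d + 1 - t < κ 1 →
      t ∈ SB := by
    intro a ha t ht h0 hd h1
    obtain ⟨hs, -, -⟩ := hmem.1 (hA ha)
    refine Finset.mem_image.2 ⟨![t, d + 1 - t], mem_sh.2 ⟨hmem.2 ⟨by simp; omega, by simpa using h0,
      by simpa using h1⟩, ?_⟩, rfl⟩
    rcases ht with rfl | rfl
    · refine ⟨1, by simp; omega, ?_⟩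
      convert ha using 1
      funext j; fin_cases j <;> simp <;> omega
    · refine ⟨0, by simp, ?_⟩
      convert ha using 1
      funext j; fin_cases j <;> simp <;> omega
  set hi := min d (κ 0 - 1)
  have hhi : ∀ a ∈ box κ d, a 0 ≤ hi := by
    intro a ha; obtain ⟨h1, h2, -⟩ := hmem.1 ha; omega
  -- the segment is an interval at the top
  have hLint : ∀ a ∈ L, hi + 1 - a 0 ≤ L.card := by
    intro a ha
    obtain ⟨hs, h0, h1⟩ := hmem.1 (hL.1 ha)
    have hsub : (Finset.Icc (a 0) hi).image (fun t => (![t, d - t] : Fin 2 → ℕ)) ⊆ L := by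
      intro b hb
      obtain ⟨t, ht, rfl⟩ := Finset.mem_image.1 hb
      rw [Finset.mem_Icc] at ht
      have hbB : (![t, d - t] : Fin 2 → ℕ) ∈ box κ d :=
        hmem.2 ⟨by simp; omega, by simp; omega, by simp; omega⟩
      rcases eq_or_lt_of_le ht.1 with h | h
      · convert ha using 1
        exact hext hbB (hL.1 ha) (by simp [h])
      · exact hL.2 a ha _ hbB ⟨0, fun j hj => absurd hj (Fin.not_lt_zero j), by simpa using h⟩
    have := Finset.card_le_card hsub
    rwa [Finset.card_image_of_injective _ (fun t t' h => by simpa using congrFun h 0), Nat.card_Icc]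
      at this
  set ε := if hi + 1 < κ 0 ∧ hi + 1 ≤ d + 1 then 1 else 0
  have hup : SL.card ≤ L.card + ε := by
    have hsub : SL ⊆ Finset.Icc (hi + 1 - L.card) (hi + ε) := by
      intro t ht
      obtain ⟨b, hb, rfl⟩ := Finset.mem_image.1 ht
      obtain ⟨hbB, i, hib, hbi⟩ := mem_sh.1 hb
      obtain ⟨hs, h0, -⟩ := hmem.1 hbB
      obtain ⟨-, h0', -⟩ := hmem.1 (hL.1 hbi)
      have h2 := hLint _ hbi
      have h3 := hhi _ (hL.1 hbi)
      rw [single_sub_apply] at h2 h3
      rw [Finset.mem_Icc]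
      simp only [ε]
      split_ifs at h2 h3 ⊢ <;> omega
    have := Finset.card_le_card hsub
    rw [Nat.card_Icc] at this
    omega
  have hdown : A.card + ε ≤ SB.card := by
    rw [← hcA]
    obtain ⟨amax, hamax, hmax⟩ := A.exists_max_image (fun a => a 0) hne
    obtain ⟨hs, hm0, hm1⟩ := hmem.1 (hA hamax)
    by_cases hlow : ∀ a ∈ A, d + 1 - a 0 < κ 1
    · have h1 : SA ⊆ SB := by
        intro t ht
        obtain ⟨a, ha, rfl⟩ := Finset.mem_image.1 ht
        obtain ⟨hs', h0', -⟩ := hmem.1 (hA ha)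
        exact hmemB a ha _ (Or.inl rfl) h0' (by omega) (hlow a ha)
      simp only [ε]
      split_ifs with hε
      · have h2 : amax 0 + 1 ∈ SB := hmemB amax hamax _ (Or.inr rfl)
          (by have := hhi _ (hA hamax); omega) (by omega) (by omega)
        have h3 : amax 0 + 1 ∉ SA := by
          intro h
          obtain ⟨a, ha, hae⟩ := Finset.mem_image.1 h
          have := hmax a ha
          omega
        have := Finset.card_le_card (Finset.insert_subset h2 h1)
        rwa [Finset.card_insert_of_notMem h3] at this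
      · simpa using Finset.card_le_card h1
    · push Not at hlow
      obtain ⟨a0, ha0, hbad⟩ := hlow
      obtain ⟨hs0, h00, h01'⟩ := hmem.1 (hA ha0)
      have hε0 : ε = 0 := if_neg (by omega)
      rw [hε0, Nat.add_zero]
      -- a gap above the lowest point
      have hex : ∃ g, g ∉ SA ∧ a0 0 < g ∧ g < κ 0 ∧ g ≤ d ∧ g - 1 ∈ SA := by
        have hmiss : ∃ z ∈ box κ d, z ∉ A := by
          by_contra h
          push Not at h
          exact hfull (Finset.Subset.antisymm hA h)
        obtain ⟨z, hz, hzA⟩ := hmiss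
        obtain ⟨hsz, hz0, hz1⟩ := hmem.1 hz
        have hzS : z 0 ∉ SA := by
          intro h
          obtain ⟨a, ha, hae⟩ := Finset.mem_image.1 h
          exact hzA (hext (hA ha) hz hae ▸ ha)
        have hlt : a0 0 < z 0 := by
          rcases Nat.lt_trichotomy (a0 0) (z 0) with h | h | h
          · exact h
          · exact absurd (h ▸ Finset.mem_image_of_mem _ ha0) hzS
          · omega
        have hP : ∃ g, a0 0 < g ∧ g ∉ SA := ⟨z 0, hlt, hzS⟩
        obtain ⟨hg1, hg2⟩ := Nat.find_spec hP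
        have hg3 : Nat.find hP ≤ z 0 := Nat.find_min' hP ⟨hlt, hzS⟩
        refine ⟨Nat.find hP, hg2, hg1, by omega, by omega, ?_⟩
        by_contra h
        rcases Nat.lt_or_ge (a0 0) (Nat.find hP - 1) with h' | h'
        · exact Nat.find_min hP (m := Nat.find hP - 1) (by omega) ⟨h', h⟩
        · have : Nat.find hP - 1 = a0 0 := by omega
          exact h (by rw [this]; exact Finset.mem_image_of_mem _ ha0)
      obtain ⟨g, hg, hg0, hgκ, hgd, hgp⟩ := hex
      obtain ⟨ag, hag, hage⟩ := Finset.mem_image.1 hgp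
      have hsub : insert g (SA.erase (a0 0)) ⊆ SB := by
        intro t ht
        rcases Finset.mem_insert.1 ht with rfl | ht
        · exact hmemB ag hag _ (Or.inr (by omega)) hgκ (by omega) (by omega)
        · obtain ⟨hne0, ht⟩ := Finset.mem_erase.1 ht
          obtain ⟨a, ha, rfl⟩ := Finset.mem_image.1 ht
          obtain ⟨hs', h0', h1'⟩ := hmem.1 (hA ha)
          exact hmemB a ha _ (Or.inl rfl) h0' (by omega) (by omega)
      have := Finset.card_le_card hsub
      rw [Finset.card_insert_of_notMem (fun h => hg (Finset.mem_of_mem_erase h)),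
        Finset.card_erase_of_mem (Finset.mem_image_of_mem _ ha0)] at this
      have h2 : 0 < SA.card := Finset.card_pos.2 ⟨_, Finset.mem_image_of_mem _ ha0⟩
      have h3 : (A.image fun a => a 0).card = SA.card := rfl
      omega
  omega

/-! ### Compression -/

section Fibre

variable {m : ℕ} (κ' : Fin (m + 1) → ℕ)

/-- the fibre over a value of one coordinate -/
def fib (A : Finset (Fin (m + 1) → ℕ)) (i : Fin (m + 1)) (b : ℕ) : Finset (Fin m → ℕ) :=
  (A.filter fun a => a i = b).image i.removeNth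

theorem mem_fib {A : Finset (Fin (m + 1) → ℕ)} {i : Fin (m + 1)} {b : ℕ} {z : Fin m → ℕ} :
    z ∈ fib A i b ↔ i.insertNth b z ∈ A := by
  constructor
  · intro h
    obtain ⟨a, ha, rfl⟩ := Finset.mem_image.1 h
    obtain ⟨ha, rfl⟩ := Finset.mem_filter.1 ha
    rwa [Fin.insertNth_self_removeNth]
  · intro h
    exact Finset.mem_image.2 ⟨_, Finset.mem_filter.2 ⟨h, by simp⟩, by simp⟩

theorem insertNth_mem_box {i : Fin (m + 1)} {b e : ℕ} {z : Fin m → ℕ} :
    i.insertNth b z ∈ box κ' e ↔ b < κ' i ∧ b ≤ e ∧ z ∈ box (κ' ∘ i.succAbove) (e - b) := by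
  simp only [mem_box, Fin.sum_univ_succAbove _ i, Fin.forall_iff_succAbove i,
    Fin.insertNth_apply_same, Fin.insertNth_apply_succAbove, Function.comp_apply]
  constructor
  · rintro ⟨h1, h2, h3⟩; exact ⟨h2, by omega, by omega, h3⟩
  · rintro ⟨h1, h2, h3, h4⟩; exact ⟨by omega, h1, h4⟩

theorem gtL_insertNth {i : Fin (m + 1)} {b : ℕ} {z z' : Fin m → ℕ} :
    gtL (i.insertNth b z) (i.insertNth b z') ↔ gtL z z' := by
  constructor
  · rintro ⟨q, hq, hql⟩
    rcases Fin.eq_self_or_eq_succAbove i q with rfl | ⟨j, rfl⟩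
    · simp at hql
    · refine ⟨j, fun k hk => ?_, by simpa using hql⟩
      simpa using hq (i.succAbove k) ((Fin.strictMono_succAbove i) hk)
  · rintro ⟨j, hj, hjl⟩
    refine ⟨i.succAbove j, fun q hq => ?_, by simpa using hjl⟩
    rcases Fin.eq_self_or_eq_succAbove i q with rfl | ⟨k, rfl⟩
    · simp
    · simpa using hj k ((Fin.strictMono_succAbove i).lt_iff_lt.1 hq)

theorem gtL_insertNth_iff {i : Fin (m + 1)} {a c : Fin (m + 1) → ℕ} (h : c i = a i) :
    gtL c a ↔ gtL (i.removeNth c) (i.removeNth a) := by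
  rw [← gtL_insertNth (i := i) (b := a i)]
  conv_rhs => rw [← h, Fin.insertNth_self_removeNth, h, Fin.insertNth_self_removeNth]

theorem card_eq_sum_fib {A : Finset (Fin (m + 1) → ℕ)} {e : ℕ} (hA : A ⊆ box κ' e)
    (i : Fin (m + 1)) (w : (Fin (m + 1) → ℕ) → ℕ) :
    ∑ a ∈ A, w a = ∑ b ∈ Finset.range (e + 1), ∑ z ∈ fib A i b, w (i.insertNth b z) := by
  rw [← Finset.sum_fiberwise_of_maps_to (g := fun a => a i) (t := Finset.range (e + 1))
    (fun a ha => Finset.mem_range.2 (Nat.lt_succ_of_le ?_))]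
  · refine Finset.sum_congr rfl fun b _ => ?_
    rw [fib, Finset.sum_image]
    · refine Finset.sum_congr rfl fun a ha => ?_
      rw [← (Finset.mem_filter.1 ha).2, Fin.insertNth_self_removeNth]
    · intro x hx y hy h
      rw [← Fin.insertNth_self_removeNth i x, ← Fin.insertNth_self_removeNth i y, h,
        (Finset.mem_filter.1 hx).2, (Finset.mem_filter.1 hy).2]
  · rw [← (mem_box.1 (hA ha)).1]
    exact Finset.single_le_sum (f := a) (fun j _ => Nat.zero_le _) (Finset.mem_univ i)

theorem fib_subset {A : Finset (Fin (m + 1) → ℕ)} {e : ℕ} (hA : A ⊆ box κ' e) (i : Fin (m + 1))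
    (b : ℕ) : fib A i b ⊆ box (κ' ∘ i.succAbove) (e - b) := fun _ hz =>
  ((insertNth_mem_box κ').1 (hA (mem_fib.1 hz))).2.2

end Fibre

/-- compressed with respect to every coordinate -/
def Compressed (κ : Fin n → ℕ) (d : ℕ) (A : Finset (Fin n → ℕ)) : Prop :=
  ∀ a ∈ A, ∀ b ∈ box κ d, gtL b a → (∃ i, b i = a i) → b ∈ A

/-- the statement for given bounds -/
def Good (κ : Fin n → ℕ) : Prop :=
  ∀ e (A L : Finset (Fin n → ℕ)), A ⊆ box κ e → IsSeg κ e L → A.card = L.card →
    (sh κ e L).card ≤ (sh κ e A).card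

theorem compress {m : ℕ} {κ : Fin (m + 1) → ℕ} {A : Finset (Fin (m + 1) → ℕ)}
    (hA : A ⊆ box κ d) (hgood : ∀ i : Fin (m + 1), Good (κ ∘ i.succAbove))
    (hnc : ¬ Compressed κ d A) :
    ∃ A', A' ⊆ box κ d ∧ A'.card = A.card ∧ (sh κ d A').card ≤ (sh κ d A).card ∧
      ∑ a ∈ A, rk κ d a < ∑ a ∈ A', rk κ d a := by
  classical
  simp only [Compressed] at hnc
  push Not at hnc
  obtain ⟨a, haA, c, hcB, hgt, ⟨i, hi⟩, hcA⟩ := hnc
  set κi := κ ∘ i.succAbove
  have hsegex : ∀ b, ∃ L, IsSeg κi (d - b) L ∧ L.card = (fib A i b).card := fun b =>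
    exists_seg _ _ _ (Finset.card_le_card (fib_subset κ hA i b))
  choose L hLs hLc using hsegex
  set A' := (box κ d).filter fun z => (i.removeNth z : Fin m → ℕ) ∈ L (z i)
  have hA' : A' ⊆ box κ d := Finset.filter_subset _ _
  have hfib : ∀ b, b ≤ d → b < κ i → fib A' i b = L b := by
    intro b hb hbκ
    ext z
    simp only [mem_fib, A', Finset.mem_filter, Fin.insertNth_apply_same, Fin.removeNth_insertNth]
    exact ⟨fun h => h.2, fun h => ⟨(insertNth_mem_box κ).2 ⟨hbκ, hb, (hLs b).1 h⟩, h⟩⟩
  have hfib0 : ∀ (B : Finset (Fin (m + 1) → ℕ)) e, B ⊆ box κ e → ∀ b, ¬ (b ≤ e ∧ b < κ i) →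
      fib B i b = ∅ := by
    intro B e hB b hb
    refine Finset.eq_empty_of_forall_notMem fun z hz => hb ?_
    obtain ⟨h1, h2, -⟩ := (insertNth_mem_box κ).1 (hB (mem_fib.1 hz))
    exact ⟨h2, h1⟩
  have hcardfib : ∀ b, (fib A' i b).card = (fib A i b).card := by
    intro b
    by_cases hb : b ≤ d ∧ b < κ i
    · rw [hfib b hb.1 hb.2, hLc]
    · rw [hfib0 A' d hA' b hb, hfib0 A d hA b hb]
  have hcard : A'.card = A.card := by
    rw [Finset.card_eq_sum_ones, Finset.card_eq_sum_ones,
      card_eq_sum_fib κ hA' i (fun _ => 1), card_eq_sum_fib κ hA i (fun _ => 1)]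
    refine Finset.sum_congr rfl fun b _ => ?_
    rw [← Finset.card_eq_sum_ones, ← Finset.card_eq_sum_ones, hcardfib b]
  refine ⟨A', hA', hcard, ?_, ?_⟩
  · rw [Finset.card_eq_sum_ones, Finset.card_eq_sum_ones,
      card_eq_sum_fib κ (show sh κ d A' ⊆ box κ (d + 1) from Finset.filter_subset _ _) i (fun _ => 1),
      card_eq_sum_fib κ (show sh κ d A ⊆ box κ (d + 1) from Finset.filter_subset _ _) i (fun _ => 1)]
    refine Finset.sum_le_sum fun b _ => ?_
    rw [← Finset.card_eq_sum_ones, ← Finset.card_eq_sum_ones]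
    by_cases hb : b ≤ d + 1 ∧ b < κ i
    swap
    · have e0 : fib (sh κ d A') i b = ∅ := hfib0 _ _ (Finset.filter_subset _ _) b hb
      rw [e0]; simp
    -- fibres of a shadow
    have hsh : ∀ (B : Finset (Fin (m + 1) → ℕ)) (z : Fin m → ℕ), B ⊆ box κ d →
        (z ∈ fib (sh κ d B) i b ↔ (b ≤ d ∧ z ∈ sh κi (d - b) (fib B i b)) ∨
          (0 < b ∧ z ∈ box κi (d + 1 - b) ∧ z ∈ fib B i (b - 1))) := by
      intro B z hB
      rw [mem_fib, mem_sh, insertNth_mem_box]
      constructor
      · rintro ⟨⟨-, -, hz⟩, q, hq, hqB⟩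
        rcases Fin.eq_self_or_eq_succAbove i q with rfl | ⟨j, rfl⟩
        · simp only [Fin.insertNth_apply_same] at hq
          refine Or.inr ⟨hq, hz, mem_fib.2 ?_⟩
          convert hqB using 1
          funext t
          rcases Fin.eq_self_or_eq_succAbove q t with rfl | ⟨k, rfl⟩
          · simp
          · simp [Fin.succAbove_ne]
        · simp only [Fin.insertNth_apply_succAbove] at hq
          have e : (i.insertNth b z : Fin (m + 1) → ℕ) - Pi.single (i.succAbove j) 1 =
              i.insertNth b (z - Pi.single j 1 : Fin m → ℕ) := by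
            funext t
            rcases Fin.eq_self_or_eq_succAbove i t with rfl | ⟨k, rfl⟩
            · simp [Ne.symm (Fin.succAbove_ne _ j)]
            · simp [Pi.single_apply]
          rw [e] at hqB
          have hbd : b ≤ d := ((insertNth_mem_box κ).1 (hB hqB)).2.1
          refine Or.inl ⟨hbd, mem_sh.2 ⟨?_, j, hq, mem_fib.2 hqB⟩⟩
          rwa [show d - b + 1 = d + 1 - b by omega]
      · rintro (⟨hbd, h⟩ | ⟨hb0, hz, h⟩)
        · obtain ⟨hz, j, hj, hjB⟩ := mem_sh.1 h
          rw [show d - b + 1 = d + 1 - b by omega] at hz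
          refine ⟨⟨hb.2, hb.1, hz⟩, i.succAbove j, by simpa using hj, ?_⟩
          convert mem_fib.1 hjB using 1
          funext t
          rcases Fin.eq_self_or_eq_succAbove i t with rfl | ⟨k, rfl⟩
          · simp [Ne.symm (Fin.succAbove_ne _ j)]
          · simp [Pi.single_apply]
        · refine ⟨⟨hb.2, hb.1, hz⟩, i, by simpa using hb0, ?_⟩
          convert mem_fib.1 h using 1
          funext t
          rcases Fin.eq_self_or_eq_succAbove i t with rfl | ⟨k, rfl⟩
          · simp
          · simp [Fin.succAbove_ne]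
    set P1 := if b ≤ d then sh κi (d - b) (L b) else ∅
    set P2 := if 0 < b then (L (b - 1)).filter (· ∈ box κi (d + 1 - b)) else ∅
    have hsub : fib (sh κ d A') i b ⊆ P1 ∪ P2 := by
      intro z hz
      rcases (hsh A' z hA').1 hz with ⟨h1, h2⟩ | ⟨h1, h2, h3⟩
      · rw [hfib b h1 hb.2] at h2
        exact Finset.mem_union_left _ (by simp [P1, h1, h2])
      · rw [hfib (b - 1) (by omega) (by omega)] at h3
        exact Finset.mem_union_right _ (by simp [P2, h1, h2, h3])
    refine le_trans (Finset.card_le_card hsub) ?_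
    have hP1 : IsSeg κi (d + 1 - b) P1 := by
      by_cases h : b ≤ d
      · simp only [P1, if_pos h]
        have := (hLs b).sh
        rwa [show d - b + 1 = d + 1 - b by omega] at this
      · simp only [P1, if_neg h]
        exact ⟨Finset.empty_subset _, fun x hx => absurd hx (Finset.notMem_empty x)⟩
    have hP2 : IsSeg κi (d + 1 - b) P2 := by
      by_cases h : 0 < b
      · simp only [P2, if_pos h]
        refine ⟨fun x hx => (Finset.mem_filter.1 hx).2, fun x hx y hy hyx => ?_⟩
        obtain ⟨hx1, -⟩ := Finset.mem_filter.1 hx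
        refine Finset.mem_filter.2 ⟨(hLs (b - 1)).2 x hx1 y ?_ hyx, hy⟩
        rwa [show d - (b - 1) = d + 1 - b by omega]
      · simp only [P2, if_neg h]
        exact ⟨Finset.empty_subset _, fun x hx => absurd hx (Finset.notMem_empty x)⟩
    have hc1 : P1.card ≤ (fib (sh κ d A) i b).card := by
      by_cases h : b ≤ d
      · simp only [P1, if_pos h]
        refine le_trans (hgood i _ _ _ (fib_subset κ hA i b) (hLs b) (hLc b).symm) ?_
        exact Finset.card_le_card fun z hz => (hsh A z hA).2 (Or.inl ⟨h, hz⟩)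
      · simp [P1, h]
    have hc2 : P2.card ≤ (fib (sh κ d A) i b).card := by
      by_cases h : 0 < b
      · simp only [P2, if_pos h]
        refine le_trans (Finset.card_filter_le _ _) ?_
        rw [hLc]
        refine Finset.card_le_card fun z hz => (hsh A z hA).2 (Or.inr ⟨h, ?_, hz⟩)
        have := fib_subset κ hA i (b - 1) hz
        rwa [show d - (b - 1) = d + 1 - b by omega] at this
      · simp [P2, h]
    rcases le_total P1.card P2.card with hle | hle
    · rwa [Finset.union_eq_right.2 (hP1.subset_of_card_le hP2 hle)]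
    · rwa [Finset.union_eq_left.2 (hP2.subset_of_card_le hP1 hle)]
  · rw [card_eq_sum_fib κ hA i, card_eq_sum_fib κ hA' i]
    have hmono : ∀ b, b ≤ d → b < κ i → ∀ z z', z' ∈ box κi (d - b) → gtL z z' →
        rk κ d (i.insertNth b z') < rk κ d (i.insertNth b z) := fun b hb hbκ z z' hz' h =>
      rk_lt ((insertNth_mem_box κ).2 ⟨hbκ, hb, hz'⟩) (gtL_insertNth.2 h)
    refine Finset.sum_lt_sum (fun b hb => ?_) ⟨a i, ?_, ?_⟩
    · by_cases hb' : b ≤ d ∧ b < κ i
      · rw [hfib b hb'.1 hb'.2]
        by_cases heq : fib A i b = L b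
        · rw [heq]
        · exact (sum_rk_lt (fib_subset κ hA i b) _ (hmono b hb'.1 hb'.2) (hLs b) (hLc b).symm
            heq).le
      · rw [hfib0 A d hA b hb', hfib0 A' d hA' b hb']
    · exact Finset.mem_range.2 (Nat.lt_succ_of_le (by
        rw [← (mem_box.1 (hA haA)).1]
        exact Finset.single_le_sum (f := a) (fun j _ => Nat.zero_le _) (Finset.mem_univ i)))
    · have haB := hA haA
      have hb1 : a i ≤ d := by
        rw [← (mem_box.1 haB).1]
        exact Finset.single_le_sum (f := a) (fun j _ => Nat.zero_le _) (Finset.mem_univ i)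
      have hb2 : a i < κ i := (mem_box.1 haB).2 i
      rw [hfib _ hb1 hb2]
      refine sum_rk_lt (fib_subset κ hA i _) _ (hmono _ hb1 hb2) (hLs _) (hLc _).symm ?_
      intro heq
      have h1 : i.removeNth a ∈ L (a i) := by
        rw [← heq, mem_fib, Fin.insertNth_self_removeNth]; exact haA
      have h2 : i.removeNth c ∈ box κi (d - a i) := by
        rw [← hi]
        exact ((insertNth_mem_box κ).1 (by rwa [Fin.insertNth_self_removeNth])).2.2
      have h3 := (hLs (a i)).2 _ h1 _ h2 ((gtL_insertNth_iff hi).1 hgt)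
      rw [← heq, mem_fib, ← hi, Fin.insertNth_self_removeNth] at h3
      exact hcA h3

/-! ### The last step -/

theorem sum_two {n : ℕ} (g : Fin n → ℕ) {i j : Fin n} (h : i ≠ j) :
    ∑ k, g k = g i + g j + ∑ k ∈ (Finset.univ.erase i).erase j, g k := by
  rw [← Finset.add_sum_erase _ g (Finset.mem_univ i),
    ← Finset.add_sum_erase _ g (show j ∈ Finset.univ.erase i by simp [Ne.symm h]), Nat.add_assoc]

/-- moving `s` units from one coordinate to another -/
def move (x : Fin n → ℕ) (i j : Fin n) (s : ℕ) : Fin n → ℕ :=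
  Function.update (Function.update x i (x i - s)) j (x j + s)

theorem move_box {x : Fin n → ℕ} (hx : x ∈ box κ d) {i j : Fin n} (hij : i ≠ j) {s : ℕ}
    (hs : s ≤ x i) (hj : x j + s < κ j) : move x i j s ∈ box κ d := by
  rw [mem_box] at hx ⊢
  refine ⟨?_, fun k => ?_⟩
  · have e : ∀ k ∈ (Finset.univ.erase i).erase j, move x i j s k = x k := fun k hk => by
      simp only [Finset.mem_erase] at hk
      simp [move, hk.1, hk.2.1]
    rw [sum_two _ hij, Finset.sum_congr rfl e]
    have hsum := hx.1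
    rw [sum_two _ hij] at hsum
    have : ((Finset.univ.erase i).erase j).sum x = ∑ k ∈ (Finset.univ.erase i).erase j, x k := rfl
    simp [move, hij]
    omega
  · by_cases hkj : k = j
    · subst hkj; simpa [move] using hj
    · by_cases hki : k = i
      · subst hki
        simp only [move, Function.update_of_ne hkj, Function.update_self]
        have := hx.2 k
        omega
      · simpa [move, hkj, hki] using hx.2 k

theorem swap_step {m : ℕ} {κ : Fin (m + 3) → ℕ} (hκ : Monotone κ) {A : Finset (Fin (m + 3) → ℕ)}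
    (hA : A ⊆ box κ d) (hc : Compressed κ d A) (hns : ¬ IsSeg κ d A) :
    ∃ A', A' ⊆ box κ d ∧ A'.card = A.card ∧ (sh κ d A').card ≤ (sh κ d A).card ∧
      ∑ a ∈ A, rk κ d a < ∑ a ∈ A', rk κ d a := by
  classical
  simp only [IsSeg, hA, true_and] at hns
  push Not at hns
  obtain ⟨a₁, ha₁, b₁, hb₁, hgt₁, hb₁A⟩ := hns
  obtain ⟨x, hx, hxmax⟩ := Finset.exists_max_image (box κ d \ A) (fun a => toLex a)
    ⟨b₁, Finset.mem_sdiff.2 ⟨hb₁, hb₁A⟩⟩
  obtain ⟨y, hy, hymin⟩ := A.exists_min_image (fun a => toLex a) ⟨a₁, ha₁⟩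
  rw [Finset.mem_sdiff] at hx
  have hyB := hA hy
  have hxy : gtL x y := by
    rw [gtL_iff]
    exact lt_of_le_of_lt (hymin a₁ ha₁) (lt_of_lt_of_le (gtL_iff.1 hgt₁)
      (hxmax b₁ (Finset.mem_sdiff.2 ⟨hb₁, hb₁A⟩)))
  have hfirst : ∀ z ∈ box κ d, gtL z x → z ∈ A := fun z hz h => by
    by_contra hzA
    exact absurd (gtL_iff.1 h) (not_lt.2 (hxmax z (Finset.mem_sdiff.2 ⟨hz, hzA⟩)))
  have hdiff : ∀ i, x i ≠ y i := fun i h => hx.2 (hc y hy x hx.1 hxy ⟨i, h⟩)
  have hbetween : ∀ u ∈ box κ d, gtL x u → gtL u y → (∃ i, u i = x i) → (∃ i, u i = y i) →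
      False := fun u hu h1 h2 ⟨i, hi⟩ h4 =>
    hx.2 (hc u (hc y hy u hu h2 h4) x hx.1 h1 ⟨i, hi.symm⟩)
  have h00 : y 0 < x 0 := by
    obtain ⟨q, hq, hql⟩ := hxy
    rcases eq_or_ne q 0 with rfl | h
    · exact hql
    · exact absurd (hq 0 (Fin.pos_iff_ne_zero.2 h)) (hdiff 0)
  set l : Fin (m + 3) := Fin.last (m + 2)
  have hl0 : (0 : Fin (m + 3)) ≠ l := by simp [l, Fin.ext_iff]
  have hlast : y l < x l := by
    by_contra hcon
    have hlt : x l < y l := lt_of_le_of_ne (not_lt.1 hcon) (hdiff l)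
    have hyκ := (mem_box.1 hyB).2 l
    by_cases hmid : ∃ k, k ≠ 0 ∧ k ≠ l ∧ y k < x k
    · obtain ⟨k, hk0, hkl, hk⟩ := hmid
      set s := min (x k - y k) (y l - x l)
      have hu := move_box hx.1 hkl (s := s) (by omega) (by omega)
      refine hbetween _ hu ⟨k, fun j hj => ?_, ?_⟩ ⟨0, fun j hj => absurd hj (Fin.not_lt_zero j), ?_⟩
        ⟨0, ?_⟩ ?_
      · have : j < l := lt_of_lt_of_le hj (Fin.le_last k)
        simp [move, ne_of_lt hj, ne_of_lt this]
      · simp only [move, Function.update_of_ne hkl, Function.update_self]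
        omega
      · simpa [move, Ne.symm hk0, hl0] using h00
      · simp [move, Ne.symm hk0, hl0]
      · rcases le_total (x k - y k) (y l - x l) with h | h
        · refine ⟨k, ?_⟩
          simp only [move, Function.update_of_ne hkl, Function.update_self, s]
          omega
        · refine ⟨l, ?_⟩
          simp only [move, Function.update_self, s]
          omega
    · push Not at hmid
      set q : Fin (m + 3) := ⟨1, by omega⟩
      have hq0 : q ≠ 0 := by simp [q, Fin.ext_iff]
      have hql : q ≠ l := by simp [q, l, Fin.ext_iff]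
      have hqlt : x q < y q := lt_of_le_of_ne (hmid q hq0 hql) (hdiff q)
      have hsum : ∑ k, x k = ∑ k, y k := by rw [(mem_box.1 hx.1).1, (mem_box.1 hyB).1]
      rw [sum_two _ hl0, sum_two _ hl0] at hsum
      have hrest : ∑ k ∈ (Finset.univ.erase 0).erase l, x k <
          ∑ k ∈ (Finset.univ.erase 0).erase l, y k := by
        refine Finset.sum_lt_sum (fun k hk => ?_) ⟨q, by simp [hq0, hql], hqlt⟩
        simp only [Finset.mem_erase] at hk
        exact hmid k hk.2.1 hk.1
      set s := y l - x l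
      have hu := move_box hx.1 hl0 (s := s) (by omega) (by omega)
      refine hbetween _ hu ⟨0, fun j hj => absurd hj (Fin.not_lt_zero j), ?_⟩
        ⟨0, fun j hj => absurd hj (Fin.not_lt_zero j), ?_⟩ ⟨q, ?_⟩ ⟨l, ?_⟩
      · simp only [move, Function.update_of_ne hl0, Function.update_self]
        omega
      · simp only [move, Function.update_of_ne hl0, Function.update_self]
        omega
      · simp [move, hq0, hql]
      · simp only [move, Function.update_self, s]
        omega
  set A' := insert x (A.erase y)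
  have hxne : x ∉ A.erase y := fun h => hx.2 (Finset.mem_of_mem_erase h)
  have hA' : A' ⊆ box κ d :=
    Finset.insert_subset hx.1 ((Finset.erase_subset _ _).trans hA)
  have hcard : A'.card = A.card := by
    rw [Finset.card_insert_of_notMem hxne, Finset.card_erase_of_mem hy]
    have : 0 < A.card := Finset.card_pos.2 ⟨y, hy⟩
    omega
  refine ⟨A', hA', hcard, ?_, ?_⟩
  · set bx := x + Pi.single l 1
    set byl := y + Pi.single l 1
    -- the only possible new element
    have hnew : ∀ b ∈ sh κ d A', b ∉ sh κ d (A.erase y) → b ∈ sh κ d A ∧ b ≠ byl ∨ b = bx := by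
      intro b hb hb'
      obtain ⟨hbB, i, hi, hiA⟩ := mem_sh.1 hb
      rcases Finset.mem_insert.1 hiA with hix | hiA'
      · by_cases hil : i = l
        · right
          subst hil
          funext j
          have := congrFun hix j
          rw [single_sub_apply] at this
          by_cases hj : j = l
          · subst hj; simp only [bx, Pi.add_apply, Pi.single_eq_same]; simp at this; omega
          · simp only [bx, Pi.add_apply, Pi.single_eq_of_ne hj]; simp [hj] at this; omega
        · left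
          have hxl : x l = b l := by
            rw [← hix, single_sub_apply, if_neg (Ne.symm hil)]
          have hbl : 0 < b l := by omega
          have hz := sub_single_mem hbB hbl
          have hgtz : gtL (b - Pi.single l 1) x := by
            refine ⟨i, fun j hj => ?_, ?_⟩
            · have : j < l := lt_of_lt_of_le hj (Fin.le_last i)
              rw [← hix, single_sub_apply, single_sub_apply, if_neg (ne_of_lt hj),
                if_neg (ne_of_lt this)]
            · rw [← hix, single_sub_apply, single_sub_apply, if_pos rfl, if_neg hil]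
              omega
          refine ⟨mem_sh.2 ⟨hbB, l, hbl, hfirst _ hz hgtz⟩, fun e => hb' (mem_sh.2 ⟨hbB, l, hbl,
            Finset.mem_erase.2 ⟨fun e' => ?_, hfirst _ hz hgtz⟩⟩)⟩
          rw [e'] at hgtz
          exact gtL_irrefl y (hgtz.trans hxy)
      · exact absurd (mem_sh.2 ⟨hbB, i, hi, hiA'⟩) hb'
    have hnot : byl ∉ sh κ d (A.erase y) := by
      intro h
      obtain ⟨-, i, hi, hiA⟩ := mem_sh.1 h
      obtain ⟨hne, hiA⟩ := Finset.mem_erase.1 hiA
      rcases gtL_total hne with h' | h'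
      · obtain ⟨q, hq, hql⟩ := h'
        rw [single_sub_apply] at hql
        by_cases hil : i = l
        · subst hil
          by_cases hqi : q = l
          · rw [if_pos hqi, hqi] at hql; simp [byl] at hql
          · rw [if_neg hqi] at hql; simp [byl, hqi] at hql
        · by_cases hql' : q = l
          · have := hq i (lt_of_le_of_ne (by rw [hql']; exact Fin.le_last i) (by rw [hql']; exact hil))
            rw [single_sub_apply, if_pos rfl] at this
            simp [byl, hil] at this hi
            omega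
          · split_ifs at hql <;> simp [byl, hql'] at hql <;> omega
      · exact absurd (gtL_iff.1 h') (not_lt.2 (hymin _ hiA))
    by_cases hvalid : bx ∈ box κ (d + 1)
    · have hbylB : byl ∈ box κ (d + 1) := by
        obtain ⟨h1, h2⟩ := mem_box.1 hvalid
        rw [mem_box] at hyB ⊢
        refine ⟨?_, fun j => ?_⟩
        · simp [byl, Finset.sum_add_distrib, hyB.1]
        · by_cases hj : j = l
          · subst hj
            have := h2 l
            simp [bx] at this
            simp [byl]; omega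
          · simpa [byl, hj] using hyB.2 j
      have hbylA : byl ∈ sh κ d A := mem_sh.2 ⟨hbylB, l, by simp [byl], by simpa [byl] using hy⟩
      have hsub : sh κ d A' ⊆ insert bx ((sh κ d A).erase byl) := by
        intro b hb
        by_cases hb' : b ∈ sh κ d (A.erase y)
        · refine Finset.mem_insert_of_mem (Finset.mem_erase.2 ⟨fun e => hnot (e ▸ hb'),
            sh_mono (Finset.erase_subset _ _) hb'⟩)
        · rcases hnew b hb hb' with ⟨h, h'⟩ | h
          · exact Finset.mem_insert_of_mem (Finset.mem_erase.2 ⟨h', h⟩)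
          · exact h ▸ Finset.mem_insert_self _ _
      have := Finset.card_le_card hsub
      have h' := Finset.card_insert_le bx ((sh κ d A).erase byl)
      rw [Finset.card_erase_of_mem hbylA] at h'
      have : 0 < (sh κ d A).card := Finset.card_pos.2 ⟨_, hbylA⟩
      omega
    · refine Finset.card_le_card fun b hb => ?_
      by_cases hb' : b ∈ sh κ d (A.erase y)
      · exact sh_mono (Finset.erase_subset _ _) hb'
      · rcases hnew b hb hb' with ⟨h, -⟩ | h
        · exact h
        · exact absurd (h ▸ (mem_sh.1 hb).1) hvalid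
  · rw [Finset.sum_insert hxne, ← Finset.add_sum_erase _ _ hy]
    have := rk_lt hyB hxy
    omega

theorem isSeg_of_le_one (hn : n ≤ 1) {A : Finset (Fin n → ℕ)} (hA : A ⊆ box κ d) :
    IsSeg κ d A := by
  refine ⟨hA, fun a ha b hb h => ?_⟩
  obtain ⟨i, -, hi⟩ := h
  have h1 := (mem_box.1 (hA ha)).1
  have h2 := (mem_box.1 hb).1
  have : ∀ g : Fin n → ℕ, ∑ j, g j = g i := fun g =>
    Finset.sum_eq_single i (fun j _ hj => absurd (Fin.ext (by omega)) hj) (by simp)
  rw [this] at h1 h2
  omega

/-- The theorem of Clements and Lindstrom for nondecreasing bounds. -/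
theorem clements_lindstrom : ∀ {n : ℕ} {κ : Fin n → ℕ}, Monotone κ → Good κ := by
  classical
  intro n
  induction n with
  | zero =>
    intro κ _ e A L hA hL hcard
    exact Finset.card_le_card (sh_mono (hL.subset_of_card_le
      (isSeg_of_le_one (Nat.zero_le 1) hA) hcard.ge))
  | succ m ih =>
    intro κ hκ e A L hA hL hcard
    let cand := (box κ e).powerset.filter fun B => B.card = A.card ∧
      (sh κ e B).card ≤ (sh κ e A).card
    obtain ⟨B, hB, hBmax⟩ := cand.exists_max_image (fun B => ∑ a ∈ B, rk κ e a)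
      ⟨A, Finset.mem_filter.2 ⟨Finset.mem_powerset.2 hA, rfl, le_rfl⟩⟩
    simp only [cand, Finset.mem_filter, Finset.mem_powerset] at hB hBmax
    obtain ⟨hBb, hBc, hBs⟩ := hB
    by_cases hseg : IsSeg κ e B
    · rw [Finset.eq_of_subset_of_card_le (hL.subset_of_card_le hseg (by omega)) (by omega)]
      exact hBs
    rcases Nat.lt_or_ge m 2 with hm | hm
    · interval_cases m
      · exact absurd (isSeg_of_le_one le_rfl hBb) hseg
      · exact le_trans (two_vars hκ hBb hL (by omega)) hBs
    · obtain ⟨m', rfl⟩ : ∃ m', m = m' + 2 := ⟨m - 2, by omega⟩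
      exfalso
      obtain ⟨B', hB'b, hB'c, hB's, hB'r⟩ : ∃ B', B' ⊆ box κ e ∧ B'.card = B.card ∧
          (sh κ e B').card ≤ (sh κ e B).card ∧ ∑ a ∈ B, rk κ e a < ∑ a ∈ B', rk κ e a := by
        by_cases hcomp : Compressed κ e B
        · exact swap_step hκ hBb hcomp hseg
        · exact compress hBb (fun i => ih (hκ.comp (Fin.strictMono_succAbove i).monotone)) hcomp
      have := hBmax B' ⟨hB'b, by omega, by omega⟩
      omega

end Vale.Agent.P200.CL
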