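import Mathlib

/-!
Recursively defined Clifford operators on functions on the Boolean cube.
-/

noncomputable section

namespace Vale.Agent.P200

/-- the Boolean cube -/
abbrev Cube (N : ℕ) : Type := Fin N → Bool

/-- number of `true` coordinates -/
def wt {N : ℕ} (S : Cube N) : ℕ := ∑ i, (if S i then 1 else 0)

theorem wt_snoc {N : ℕ} (S : Cube N) (b : Bool) :
    wt (Fin.snoc S b : Cube (N + 1)) = wt S + (if b then 1 else 0) := by
  rw [wt, wt, Fin.sum_univ_castSucc]
  simp

variable {R : Type*} [CommRing R]

/-- the half of a vector with prescribed last coordinate -/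
def part {N : ℕ} (b : Bool) : (Cube (N + 1) → R) →ₗ[R] (Cube N → R) :=
  LinearMap.funLeft R R fun S => Fin.snoc S b

/-- gluing two halves -/
def glue {N : ℕ} : ((Cube N → R) × (Cube N → R)) →ₗ[R] (Cube (N + 1) → R) where
  toFun p S := if S (Fin.last N) then p.2 (Fin.init S) else p.1 (Fin.init S)
  map_add' p q := by funext S; by_cases h : S (Fin.last N) <;> simp [h]
  map_smul' c p := by funext S; by_cases h : S (Fin.last N) <;> simp [h]

theorem part_apply {N : ℕ} (b : Bool) (w : Cube (N + 1) → R) (S : Cube N) :
    part b w S = w (Fin.snoc S b) := rfl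

@[simp] theorem glue_snoc {N : ℕ} (p : (Cube N → R) × (Cube N → R)) (S : Cube N) (b : Bool) :
    glue p (Fin.snoc S b) = if b then p.2 S else p.1 S := by
  simp [glue]

@[simp] theorem part_false_glue {N : ℕ} (p : (Cube N → R) × (Cube N → R)) :
    part false (glue p) = p.1 := by
  funext S; simp [part_apply]

@[simp] theorem part_true_glue {N : ℕ} (p : (Cube N → R) × (Cube N → R)) :
    part true (glue p) = p.2 := by
  funext S; simp [part_apply]

theorem ext_parts {N : ℕ} {v w : Cube (N + 1) → R} (h0 : part false v = part false w)
    (h1 : part true v = part true w) : v = w := by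
  funext S
  rw [← Fin.snoc_init_self S]
  cases S (Fin.last N)
  · exact congrFun h0 (Fin.init S)
  · exact congrFun h1 (Fin.init S)

/-- Clifford operators of the upper triangular bilinear form `B`. -/
def clOp : ∀ (N : ℕ), (Fin N → Fin N → R) → Fin N → ((Cube N → R) →ₗ[R] (Cube N → R))
  | 0, _, k => Fin.elim0 k
  | N + 1, B, k =>
    Fin.lastCases
      (glue ∘ₗ ((B (Fin.last N) (Fin.last N) • part true).prod (part false)))
      (fun j => glue ∘ₗ
        (((clOp N fun i i' => B i.castSucc i'.castSucc) j ∘ₗ part false +
            B j.castSucc (Fin.last N) • part true).prod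
          (-((clOp N fun i i' => B i.castSucc i'.castSucc) j ∘ₗ part true)))) k

theorem clOp_last {N : ℕ} (B : Fin (N + 1) → Fin (N + 1) → R) (w : Cube (N + 1) → R) :
    clOp (N + 1) B (Fin.last N) w =
      glue (B (Fin.last N) (Fin.last N) • part true w, part false w) := by
  simp [clOp]

theorem clOp_castSucc {N : ℕ} (B : Fin (N + 1) → Fin (N + 1) → R) (j : Fin N)
    (w : Cube (N + 1) → R) :
    clOp (N + 1) B j.castSucc w =
      glue ((clOp N fun i i' => B i.castSucc i'.castSucc) j (part false w) +
          B j.castSucc (Fin.last N) • part true w,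
        -((clOp N fun i i' => B i.castSucc i'.castSucc) j (part true w))) := by
  simp [clOp]

theorem clOp_sq : ∀ {N : ℕ} (B : Fin N → Fin N → R) (k : Fin N) (w : Cube N → R),
    clOp N B k (clOp N B k w) = B k k • w := by
  intro N
  induction N with
  | zero => intro B k; exact Fin.elim0 k
  | succ N ih =>
    intro B k w
    refine Fin.lastCases ?_ (fun j => ?_) k
    · apply ext_parts <;> simp [clOp_last]
    · apply ext_parts <;> simp [clOp_castSucc, ih]

theorem clOp_anti : ∀ {N : ℕ} (B : Fin N → Fin N → R) (j k : Fin N), j < k →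
    ∀ (w : Cube N → R),
    clOp N B j (clOp N B k w) + clOp N B k (clOp N B j w) = B j k • w := by
  intro N
  induction N with
  | zero => intro B j; exact Fin.elim0 j
  | succ N ih =>
    intro B j k
    refine Fin.lastCases ?_ (fun k' => ?_) k
    · refine Fin.lastCases (fun h => absurd h (lt_irrefl _)) (fun j' _ w => ?_) j
      apply ext_parts
      · simp [clOp_castSucc, clOp_last]
      · simp [clOp_castSucc, clOp_last]
    · refine Fin.lastCases (fun h => absurd h (not_lt.2 (Fin.le_last _))) (fun j' h w => ?_) j
      have h' : j' < k' := by simpa using h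
      have a0 := ih (fun i i' => B i.castSucc i'.castSucc) j' k' h' (part false w)
      have a1 := ih (fun i i' => B i.castSucc i'.castSucc) j' k' h' (part true w)
      apply ext_parts
      · simp [clOp_castSucc, ← a0]; abel
      · simp [clOp_castSucc, ← a1]

theorem clOp_map {R' : Type*} [CommRing R'] (φ : R →+* R') :
    ∀ {N : ℕ} (B : Fin N → Fin N → R) (k : Fin N) (w : Cube N → R),
    clOp N (fun i i' => φ (B i i')) k (fun S => φ (w S)) = fun S => φ (clOp N B k w S) := by
  intro N
  induction N with
  | zero => intro B k; exact Fin.elim0 k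
  | succ N ih =>
    intro B k w
    have hp : ∀ b, part b (fun S => φ (w S)) = fun S => φ (part b w S) := fun b => rfl
    refine Fin.lastCases ?_ (fun j => ?_) k
    · apply ext_parts <;> funext S <;> simp [clOp_last, part_apply, hp]
    · apply ext_parts <;> funext S <;>
        simp [clOp_castSucc, part_apply, hp, ih (fun i i' => B i.castSucc i'.castSucc)] <;> rfl

/-- the vacuum vector -/
def vac (N : ℕ) : Cube N → R := Pi.single (fun _ => false) 1

theorem clOp_single : ∀ {N : ℕ} (B : Fin N → Fin N → R) (k : Fin N) (S : Cube N),
    (∀ i, k ≤ i → S i = false) → ∃ c : R, c * c = 1 ∧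
      clOp N B k (Pi.single S 1) = c • Pi.single (Function.update S k true) 1 := by
  intro N
  induction N with
  | zero => intro B k; exact Fin.elim0 k
  | succ N ih =>
    intro B k S hS
    have hl : S (Fin.last N) = false := hS _ (Fin.le_last _)
    have e : ∀ (T : Cube N) (b b' : Bool), part b' (Pi.single (Fin.snoc T b : Cube (N + 1)) (1 : R))
        = if b' = b then Pi.single T 1 else 0 := by
      intro T b b'
      funext U
      by_cases hb : b' = b
      · subst hb; simp [part_apply, Pi.single_apply, Fin.snoc_inj]
      · simp [part_apply, Pi.single_apply, Fin.snoc_inj, hb]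
    obtain ⟨S', hS'⟩ : ∃ S', S = Fin.snoc S' false := ⟨Fin.init S, by
      conv_lhs => rw [← Fin.snoc_init_self S, hl]⟩
    subst hS'
    refine Fin.lastCases (fun _ => ?_) (fun j hS => ?_) k hS
    · refine ⟨1, one_mul 1, ?_⟩
      rw [Fin.update_snoc_last, clOp_last, one_smul]
      apply ext_parts <;> simp [e]
    · obtain ⟨c, hc, h⟩ := ih (fun i i' => B i.castSucc i'.castSucc) j S' (fun i hi => by
        have := hS i.castSucc (by simpa using hi)
        simpa using this)
      refine ⟨c, hc, ?_⟩
      rw [← Fin.snoc_update (α := fun _ => Bool), clOp_castSucc]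
      apply ext_parts <;> simp [-Fin.snoc_update, e, h]

end Vale.Agent.P200
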