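import Vale.Agent.P200.Euler
import Vale.Agent.P200.ClOp

/-!
Irreducibility of the Clifford operators of the generic member of a regular system of
quadrics, and the resulting division algebra.
-/

noncomputable section

namespace Vale.Agent.P200

open MvPolynomial

variable {K : Type*} [Field K] {N : ℕ}



/-- coefficient form of the generic member -/
def genB (β : Fin N → Fin N → Fin N → K) (k l : Fin N) : MvPolynomial (Fin N) K :=
  ∑ t, (if k = l then β t k k else β t k l + β t l k) • X t

theorem genB_symm (β : Fin N → Fin N → Fin N → K) (k l : Fin N) : genB β k l = genB β l k := by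
  unfold genB
  by_cases h : k = l
  · subst h; rfl
  · simp [h, Ne.symm h, add_comm]

theorem genB_homog (β : Fin N → Fin N → Fin N → K) (k l : Fin N) :
    (genB β k l).IsHomogeneous 1 := by
  refine IsHomogeneous.sum _ _ _ (fun t _ => ?_)
  rw [smul_eq_C_mul]
  simpa using (isHomogeneous_C _ _).mul (isHomogeneous_X K t)

/-- vectors of degree exactly `s` -/
def Homog {n : ℕ} (s : ℕ) (v : Cube n → MvPolynomial (Fin N) K) : Prop :=
  ∀ S d, coeff d (v S) ≠ 0 → wt S + 2 * d.degree = s

theorem homog_smul {n : ℕ} {s : ℕ} {c : MvPolynomial (Fin N) K} (hc : c.IsHomogeneous 1)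
    {v : Cube n → MvPolynomial (Fin N) K} (hv : Homog s v) : Homog (s + 2) (c • v) := by
  intro S d hd
  classical
  rw [Pi.smul_apply, smul_eq_mul, coeff_mul] at hd
  obtain ⟨⟨a, b⟩, hab, h⟩ := Finset.exists_ne_zero_of_sum_ne_zero hd
  rw [Finset.HasAntidiagonal.mem_antidiagonal] at hab
  have ha : a.degree = 1 := by
    by_contra hne
    exact left_ne_zero_of_mul h (hc.coeff_eq_zero hne)
  have hb := hv S b (right_ne_zero_of_mul h)
  simp only at hab ha hb ⊢
  rw [← hab, map_add, ha]; omega

theorem homog_clOp : ∀ {n : ℕ} (B : Fin n → Fin n → MvPolynomial (Fin N) K),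
    (∀ i j, (B i j).IsHomogeneous 1) → ∀ (k : Fin n) (s : ℕ) v, Homog s v →
    Homog (s + 1) (clOp n B k v) := by
  intro n
  induction n with
  | zero => intro B _ k; exact Fin.elim0 k
  | succ n ih =>
    intro B hB k s v hv
    have h0 : Homog s (part false v) := fun S d hd => by
      have := hv (Fin.snoc S false) d hd; simpa [wt_snoc] using this
    have h1 : ∀ S d, coeff d (part true v S) ≠ 0 → wt S + 1 + 2 * d.degree = s := fun S d hd => by
      have := hv (Fin.snoc S true) d hd; simpa [wt_snoc] using this
    intro S d hd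
    obtain ⟨S', b, rfl⟩ : ∃ S' b, S = Fin.snoc S' b :=
      ⟨Fin.init S, S (Fin.last n), (Fin.snoc_init_self S).symm⟩
    rw [wt_snoc]
    have hsm : ∀ c : MvPolynomial (Fin N) K, c.IsHomogeneous 1 →
        coeff d ((c • part true v) S') ≠ 0 → wt S' + 2 * d.degree = s + 1 := by
      intro c hc h
      by_cases hs : 1 ≤ s
      · have := homog_smul (s := s - 1) hc (v := part true v)
          (fun T e he => by have := h1 T e he; omega) S' d h
        omega
      · exfalso
        apply h
        have : part true v S' = 0 := by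
          ext e
          by_contra he
          have := h1 S' e (by simpa using he); omega
        simp [this]
    refine Fin.lastCases (fun hd => ?_) (fun j hd => ?_) k hd
    · rw [clOp_last, glue_snoc] at hd
      cases b
      · simp only [Bool.false_eq_true, if_false] at hd ⊢
        have := hsm _ (hB _ _) hd; omega
      · simp only [if_true] at hd ⊢
        have := h0 S' d hd; omega
    · rw [clOp_castSucc, glue_snoc] at hd
      cases b
      · simp only [Bool.false_eq_true, if_false, Pi.add_apply, coeff_add] at hd ⊢
        by_cases h : coeff d ((clOp n (fun i i' => B i.castSucc i'.castSucc) j)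
            (part false v) S') = 0
        · rw [h, zero_add] at hd
          have := hsm _ (hB _ _) hd; omega
        · have := ih (fun i i' => B i.castSucc i'.castSucc) (fun i i' => hB _ _) j s _ h0 S' d h
          omega
      · simp only [if_true, Pi.neg_apply, coeff_neg, ne_eq, neg_eq_zero] at hd ⊢
        by_cases hs : 1 ≤ s
        · have := ih (fun i i' => B i.castSucc i'.castSucc) (fun i i' => hB _ _) j (s - 1) _
            (fun T e he => by have := h1 T e he; omega) S' d hd
          omega
        · exfalso
          apply hd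
          have : part true v = 0 := by
            funext T
            ext e
            by_contra he
            have := h1 T e (by simpa using he); omega
          simp [this]

/-- the projection to degree `s` -/
def prL (s : ℕ) : (Cube N → MvPolynomial (Fin N) K) →ₗ[K] (Cube N → MvPolynomial (Fin N) K) :=
  LinearMap.pi fun S =>
    (if wt S ≤ s ∧ 2 ∣ (s - wt S) then homogeneousComponent ((s - wt S) / 2) else 0) ∘ₗ
      LinearMap.proj S

theorem coeff_prL (s : ℕ) (v : Cube N → MvPolynomial (Fin N) K) (S : Cube N) (d : Fin N →₀ ℕ) :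
    coeff d (prL s v S) = if wt S + 2 * d.degree = s then coeff d (v S) else 0 := by
  simp only [prL, LinearMap.pi_apply, LinearMap.comp_apply, LinearMap.proj_apply]
  by_cases h : wt S ≤ s ∧ 2 ∣ (s - wt S)
  · rw [if_pos h, coeff_homogeneousComponent]
    obtain ⟨h1, k, hk⟩ := h
    have h3 : d.degree = (s - wt S) / 2 ↔ wt S + 2 * d.degree = s := by omega
    by_cases h4 : wt S + 2 * d.degree = s
    · rw [if_pos (h3.2 h4), if_pos h4]
    · rw [if_neg (fun hh => h4 (h3.1 hh)), if_neg h4]
  · rw [if_neg h, if_neg (fun hh => h ⟨by omega, ⟨d.degree, by omega⟩⟩)]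
    simp

theorem prL_eq_self {s : ℕ} {v : Cube N → MvPolynomial (Fin N) K} (hv : Homog s v) :
    prL s v = v := by
  funext S; ext d
  rw [coeff_prL]
  split_ifs with h
  · rfl
  · by_contra h'; exact h (hv S d (Ne.symm h'))

theorem prL_eq_zero {s t : ℕ} {v : Cube N → MvPolynomial (Fin N) K} (hv : Homog t v) (h : t ≠ s) :
    prL s v = 0 := by
  funext S; ext d
  rw [coeff_prL, Pi.zero_apply, coeff_zero]
  split_ifs with h'
  · by_contra h''; exact h ((hv S d h'').symm.trans h')
  · rfl

theorem homog_prL (s : ℕ) (v : Cube N → MvPolynomial (Fin N) K) : Homog s (prL s v) := by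
  intro S d hd
  rw [coeff_prL] at hd
  by_contra h
  exact hd (if_neg h)

theorem prL_prL (s t : ℕ) (v : Cube N → MvPolynomial (Fin N) K) :
    prL s (prL t v) = if t = s then prL t v else 0 := by
  split_ifs with h
  · subst h; exact prL_eq_self (homog_prL _ _)
  · exact prL_eq_zero (homog_prL _ _) h

theorem prL_bdd (v : Cube N → MvPolynomial (Fin N) K) : ∃ b, ∀ s, b ≤ s → prL s v = 0 := by
  refine ⟨(Finset.univ.sup fun S : Cube N => wt S + 2 * (v S).totalDegree) + 1, fun s hs => ?_⟩
  funext S; ext d
  rw [coeff_prL, Pi.zero_apply, coeff_zero]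
  split_ifs with h
  · by_contra h'
    have h1 : d.degree ≤ (v S).totalDegree := by
      have := le_totalDegree (MvPolynomial.mem_support_iff.2 h')
      rwa [Finsupp.degree_eq_sum, ← Finsupp.sum_fintype d (fun _ e => e) (fun _ => rfl)]
    have h2 : wt S + 2 * (v S).totalDegree ≤
        Finset.univ.sup (fun S : Cube N => wt S + 2 * (v S).totalDegree) :=
      Finset.le_sup (f := fun S : Cube N => wt S + 2 * (v S).totalDegree) (Finset.mem_univ S)
    omega
  · rfl

theorem sum_prL (v : Cube N → MvPolynomial (Fin N) K) (b : ℕ)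
    (hb : ∀ s, b ≤ s → prL s v = 0) : v = ∑ s ∈ Finset.range b, prL s v := by
  funext S; ext d
  rw [Finset.sum_apply, coeff_sum]
  simp only [coeff_prL, Finset.sum_ite_eq, Finset.mem_range]
  split_ifs with h
  · rfl
  · have := congrArg (coeff d) (congrFun (hb (wt S + 2 * d.degree) (not_lt.1 h)) S)
    rw [coeff_prL, if_pos rfl, Pi.zero_apply, coeff_zero] at this
    exact this

theorem prL_map_homog (Φ' : (Cube N → MvPolynomial (Fin N) K) →ₗ[K]
      (Cube N → MvPolynomial (Fin N) K)) (r : ℕ)
    (hΦ : ∀ s v, Homog s v → Homog (s + r) (Φ' v)) (v : Cube N → MvPolynomial (Fin N) K) (s : ℕ) :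
    prL (s + r) (Φ' v) = Φ' (prL s v) ∧ ∀ t < r, prL t (Φ' v) = 0 := by
  obtain ⟨b, hb⟩ := prL_bdd v
  have hb' : ∀ t, max b (s + 1) ≤ t → prL t v = 0 := fun t ht => hb t (le_trans (le_max_left _ _) ht)
  have hv := sum_prL v _ hb'
  constructor
  · conv_lhs => rw [hv, map_sum, map_sum]
    rw [Finset.sum_eq_single s]
    · exact prL_eq_self (hΦ _ _ (homog_prL _ _))
    · intro t _ ht; exact prL_eq_zero (hΦ _ _ (homog_prL _ _)) (by omega)
    · intro h; exact absurd (Finset.mem_range.2 (lt_of_lt_of_le (Nat.lt_succ_self s) (le_max_right _ _))) h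
  · intro t ht
    rw [hv, map_sum, map_sum]
    exact Finset.sum_eq_zero (fun i _ => prL_eq_zero (hΦ _ _ (homog_prL _ _)) (by omega))

/-- vectors of degree at most `s` -/
def leS (s : ℕ) : Submodule K (Cube N → MvPolynomial (Fin N) K) :=
  ⨅ t ∈ Set.Ioi s, LinearMap.ker (prL t)

theorem mem_leS {s : ℕ} {v : Cube N → MvPolynomial (Fin N) K} :
    v ∈ leS s ↔ ∀ S d, coeff d (v S) ≠ 0 → wt S + 2 * d.degree ≤ s := by
  simp only [leS, Submodule.mem_iInf, Set.mem_Ioi, LinearMap.mem_ker]
  constructor
  · intro h S d hd
    by_contra hlt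
    have := congrArg (coeff d) (congrFun (h _ (not_le.1 hlt)) S)
    rw [coeff_prL, if_pos rfl, Pi.zero_apply, coeff_zero] at this
    exact hd this
  · intro h t ht
    funext S; ext d
    rw [coeff_prL, Pi.zero_apply, coeff_zero]
    split_ifs with h'
    · by_contra hne; have := h S d hne; omega
    · rfl

theorem totalDegree_le_of_mem_leS {s : ℕ} {v : Cube N → MvPolynomial (Fin N) K} (hv : v ∈ leS s)
    (S : Cube N) : 2 * (v S).totalDegree ≤ s := by
  suffices (v S).totalDegree ≤ s / 2 by omega
  rw [totalDegree, Finset.sup_le_iff]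
  intro d hd
  have := mem_leS.1 hv S d (MvPolynomial.mem_support_iff.1 hd)
  have e : d.degree = d.sum fun _ e => e := rfl
  rw [← e]; omega

instance leS_finite (s : ℕ) : FiniteDimensional K (leS (K := K) (N := N) s) := by
  let f : leS (K := K) (N := N) s →ₗ[K] (Cube N → restrictTotalDegree (Fin N) K s) :=
    LinearMap.pi fun S => LinearMap.codRestrict _ (LinearMap.proj S ∘ₗ (leS s).subtype)
      (fun v => (mem_restrictTotalDegree _ _ _).2
        (by have := totalDegree_le_of_mem_leS v.2 S; simp only [LinearMap.comp_apply,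
              Submodule.subtype_apply, LinearMap.proj_apply]; omega))
  refine Module.Finite.of_injective f (fun v w h => ?_)
  apply Subtype.ext; funext S
  exact congrArg Subtype.val (congrFun h S)

theorem finrank_restrictTotalDegree (k : ℕ) :
    Module.finrank K (restrictTotalDegree (Fin N) K k) = (k + N).choose N := by
  classical
  have hset : {n : Fin N →₀ ℕ | (n.sum fun _ e => e) ≤ k} =
      ((Finset.range (k + 1)).biUnion fun j => Finset.univ.finsuppAntidiag j :
        Finset (Fin N →₀ ℕ)) := by
    ext n
    simp [Finsupp.sum_fintype]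
  have hb := Module.finrank_eq_nat_card_basis
    (basisRestrictSupport K {n : Fin N →₀ ℕ | (n.sum fun _ e => e) ≤ k})
  refine hb.trans ?_
  rw [hset, Nat.card_coe_set_eq, Set.ncard_coe_finset, Finset.card_biUnion]
  · simp only [Finset.card_finsuppAntidiag_nat_eq_multichoose, Finset.card_univ, Fintype.card_fin]
    rw [Nat.sum_range_multichoose, add_comm k]
  · intro i _ j _ hij
    simp only [Function.onFun, Finset.disjoint_left]
    intro a ha hb'
    rw [Finset.mem_finsuppAntidiag] at ha hb'
    exact hij (ha.1.symm.trans hb'.1)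

theorem smul_mem_leS {s k : ℕ} {v : Cube N → MvPolynomial (Fin N) K} (hv : v ∈ leS s)
    {p : MvPolynomial (Fin N) K} (hp : p.totalDegree ≤ k) : p • v ∈ leS (2 * k + s) := by
  classical
  rw [mem_leS]
  intro S d hd
  rw [Pi.smul_apply, smul_eq_mul, coeff_mul] at hd
  obtain ⟨⟨a, b⟩, hab, h⟩ := Finset.exists_ne_zero_of_sum_ne_zero hd
  rw [Finset.HasAntidiagonal.mem_antidiagonal] at hab
  have h1 : a.degree ≤ k :=
    le_trans (le_totalDegree (MvPolynomial.mem_support_iff.2 (left_ne_zero_of_mul h))) hp
  have h2 := mem_leS.1 hv S b (right_ne_zero_of_mul h)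
  simp only at hab h1 h2 ⊢
  rw [← hab, map_add]; omega

/-- componentwise inclusion into the field of fractions -/
def toFrac : (Cube N → MvPolynomial (Fin N) K) →ₗ[MvPolynomial (Fin N) K]
    (Cube N → FractionRing (MvPolynomial (Fin N) K)) :=
  LinearMap.pi fun S => Algebra.linearMap _ _ ∘ₗ LinearMap.proj S

theorem toFrac_injective : Function.Injective (toFrac (K := K) (N := N)) := by
  intro v w h
  funext S
  exact IsFractionRing.injective (MvPolynomial (Fin N) K) (FractionRing (MvPolynomial (Fin N) K))
    (congrFun h S)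

/-- the operators over the field of fractions -/
def genOp (β : Fin N → Fin N → Fin N → K) (k : Fin N) :
    (Cube N → FractionRing (MvPolynomial (Fin N) K)) →ₗ[FractionRing (MvPolynomial (Fin N) K)]
      (Cube N → FractionRing (MvPolynomial (Fin N) K)) :=
  clOp N (fun i i' => algebraMap _ _ (genB β i i')) k

theorem toFrac_clOp (β : Fin N → Fin N → Fin N → K) (k : Fin N)
    (v : Cube N → MvPolynomial (Fin N) K) :
    toFrac (clOp N (genB β) k v) = genOp β k (toFrac v) :=
  (clOp_map (algebraMap (MvPolynomial (Fin N) K) (FractionRing (MvPolynomial (Fin N) K)))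
    (genB β) k v).symm

theorem card_cube : Fintype.card (Cube N) = 2 ^ N := by simp

theorem irreducible (β : Fin N → Fin N → Fin N → K) (φ : Fin N → MvPolynomial (Fin N) K)
    (hφ : ∀ t, φ t = ∑ k, ∑ l, β t k l • (X k * X l))
    (hhom : ∀ t, (φ t).IsHomogeneous 2)
    (hcolon : ∀ T u, φ T * u ∈ Ideal.span (φ '' {t | t ≠ T}) →
      u ∈ Ideal.span (φ '' {t | t ≠ T}))
    [FiniteDimensional K (MvPolynomial (Fin N) K ⧸ Ideal.span (Set.range φ))]
    (hdim : ∀ j, Module.finrank K (quotPiece (Ideal.span (Set.range φ)) j) = N.choose j)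
    (W : Submodule (FractionRing (MvPolynomial (Fin N) K))
      (Cube N → FractionRing (MvPolynomial (Fin N) K)))
    (hW : ∀ k, ∀ w ∈ W, genOp β k w ∈ W) (hne : W ≠ ⊥) : W = ⊤ := by
  classical
  let MM : Submodule (MvPolynomial (Fin N) K) (Cube N → MvPolynomial (Fin N) K) :=
    (W.restrictScalars (MvPolynomial (Fin N) K)).comap toFrac
  have hMM : ∀ k, ∀ v ∈ MM, clOp N (genB β) k v ∈ MM := fun k v hv => by
    show toFrac _ ∈ W
    rw [toFrac_clOp]; exact hW k _ hv
  let L : ℕ → Submodule K (Cube N → MvPolynomial (Fin N) K) := fun s =>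
    MM.restrictScalars K ⊓ leS s
  let top : ℕ → Submodule K (Cube N → MvPolynomial (Fin N) K) := fun s => (L s).map (prL s)
  have hX : ∀ t : Fin N, ∀ s (v : Cube N → MvPolynomial (Fin N) K), Homog s v →
      Homog (s + 2) ((LinearMap.lsmul (MvPolynomial (Fin N) K) (Cube N → MvPolynomial (Fin N) K) (X t)).restrictScalars K v) :=
    fun t s v hv => homog_smul (isHomogeneous_X K t) hv
  have hE : ∀ k : Fin N, ∀ s (v : Cube N → MvPolynomial (Fin N) K), Homog s v →
      Homog (s + 1) ((clOp N (genB β) k).restrictScalars K v) :=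
    fun k s v hv => homog_clOp _ (genB_homog β) k s v hv
  have top_mul : ∀ t s v, v ∈ top s → (X t : MvPolynomial (Fin N) K) • v ∈ top (s + 2) := by
    rintro t s _ ⟨m, ⟨hm1, hm2⟩, rfl⟩
    refine ⟨(X t : MvPolynomial (Fin N) K) • m, ⟨MM.smul_mem _ hm1, ?_⟩,
      (prL_map_homog ((LinearMap.lsmul (MvPolynomial (Fin N) K) (Cube N → MvPolynomial (Fin N) K) (X t)).restrictScalars K) 2
        (hX t) m s).1⟩
    have := smul_mem_leS hm2 (p := (X t : MvPolynomial (Fin N) K)) (k := 1) (by simp)
    rwa [add_comm] at this
  let Mt : Submodule (MvPolynomial (Fin N) K) (Cube N → MvPolynomial (Fin N) K) :=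
    { carrier := {v | ∀ s, prL s v ∈ top s}
      zero_mem' := fun s => by rw [map_zero]; exact zero_mem _
      add_mem' := fun ha hb s => by rw [map_add]; exact add_mem (ha s) (hb s)
      smul_mem' := by
        intro p
        induction p using MvPolynomial.induction_on with
        | C c =>
          intro v hv s
          rw [← algebraMap_eq, algebraMap_smul, map_smul]
          exact Submodule.smul_mem _ _ (hv s)
        | add p q hp hq =>
          intro v hv s
          rw [add_smul, map_add]; exact add_mem (hp hv s) (hq hv s)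
        | mul_X p t hp =>
          intro v hv s
          rw [mul_comm, mul_smul]
          by_cases hs : 2 ≤ s
          · obtain ⟨r, rfl⟩ : ∃ r, s = r + 2 := ⟨s - 2, by omega⟩
            have h := (prL_map_homog _ 2 (hX t) (p • v) r).1
            simp only [LinearMap.restrictScalars_apply, LinearMap.lsmul_apply] at h
            rw [h]
            exact top_mul t r _ (hp hv r)
          · have h := (prL_map_homog _ 2 (hX t) (p • v) 0).2 s (by omega)
            simp only [LinearMap.restrictScalars_apply, LinearMap.lsmul_apply] at h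
            rw [h]; exact zero_mem _ }
  have hMt : ∀ k, ∀ v ∈ Mt, clOp N (genB β) k v ∈ Mt := by
    intro k v hv s
    cases s with
    | zero => rw [show prL 0 (clOp N (genB β) k v) = 0 from
        (prL_map_homog _ 1 (hE k) v 0).2 0 one_pos]; exact zero_mem _
    | succ s =>
      obtain ⟨m, ⟨hm1, hm2⟩, hm3⟩ := hv s
      refine ⟨clOp N (genB β) k m, ⟨hMM k m hm1, ?_⟩, ?_⟩
      · simp only [SetLike.mem_coe, leS, Submodule.mem_iInf, Set.mem_Ioi, LinearMap.mem_ker] at hm2 ⊢
        intro t ht
        obtain ⟨t', rfl⟩ : ∃ t', t = t' + 1 := ⟨t - 1, by omega⟩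
        have h := (prL_map_homog _ 1 (hE k) m t').1
        simp only [LinearMap.restrictScalars_apply] at h
        rw [h, hm2 t' (by omega), map_zero]
      · have h1 := (prL_map_homog _ 1 (hE k) m s).1
        have h2 := (prL_map_homog _ 1 (hE k) v s).1
        simp only [LinearMap.restrictScalars_apply] at h1 h2
        rw [h1, h2, hm3]
  have top_mem : ∀ s v, v ∈ top s → v ∈ Mt := by
    rintro s _ ⟨m, hm, rfl⟩ t
    rw [prL_prL]
    split_ifs with h
    · exact h ▸ ⟨m, hm, rfl⟩
    · exact zero_mem _
  let pr : ℕ → Mt →ₗ[K] Mt := fun s =>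
    LinearMap.codRestrict (Mt.restrictScalars K) (prL s ∘ₗ (Mt.subtype.restrictScalars K))
      (fun v => top_mem s _ (v.2 s))
  have hrange : ∀ s, (LinearMap.range (pr s)).map (Mt.subtype.restrictScalars K) = top s := by
    intro s
    apply le_antisymm
    · rintro _ ⟨_, ⟨v, rfl⟩, rfl⟩
      exact v.2 s
    · intro v hv
      refine ⟨pr s ⟨v, top_mem s v hv⟩, ⟨_, rfl⟩, ?_⟩
      obtain ⟨m, hm, rfl⟩ := hv
      show prL s (prL s m) = prL s m
      rw [prL_prL, if_pos rfl]
  have htopfd : ∀ s, FiniteDimensional K (top s) := fun s => by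
    have : FiniteDimensional K (L s) := Submodule.finiteDimensional_of_le inf_le_right
    exact Module.Finite.map _ _
  have heq : ∀ s, Module.finrank K (LinearMap.range (pr s)) = Module.finrank K (top s) := by
    intro s
    rw [← hrange s]
    exact (Submodule.equivMapOfInjective _ Subtype.val_injective _).finrank_eq
  let C : CliffMod K N β Mt :=
    { e := fun k => (clOp N (genB β) k).restrict (hMt k)
      sq := fun k m => by
        apply Subtype.ext
        show clOp N (genB β) k (clOp N (genB β) k m.1) = _
        rw [clOp_sq, show genB β k k = ∑ t, β t k k • (X t : MvPolynomial (Fin N) K) by simp [genB],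
          Finset.sum_smul]
        simp
      anti := fun k l hkl m => by
        apply Subtype.ext
        show clOp N (genB β) k (clOp N (genB β) l m.1) + clOp N (genB β) l (clOp N (genB β) k m.1) = _
        have : clOp N (genB β) k (clOp N (genB β) l m.1) +
            clOp N (genB β) l (clOp N (genB β) k m.1) = genB β k l • m.1 := by
          rcases lt_or_gt_of_ne hkl with h | h
          · exact clOp_anti _ k l h _
          · rw [add_comm, genB_symm]; exact clOp_anti _ l k h _
        rw [this, show genB β k l = ∑ t, (β t k l + β t l k) • (X t : MvPolynomial (Fin N) K) by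
          simp [genB, hkl], Finset.sum_smul]
        simp
      pr := pr
      pr_e := fun s k m => Subtype.ext (prL_map_homog _ 1 (hE k) m.1 s).1
      pr_zero := fun k m => Subtype.ext ((prL_map_homog _ 1 (hE k) m.1 0).2 0 one_pos)
      pr_idem := fun s m => Subtype.ext (by
        show prL s (prL s m.1) = prL s m.1
        rw [prL_prL, if_pos rfl])
      pr_bdd := fun m => by
        obtain ⟨b, hb⟩ := prL_bdd m.1
        exact ⟨b, fun s hs => Subtype.ext (hb s hs)⟩
      pr_fin := fun s => by
        have := htopfd s
        have e := Submodule.equivMapOfInjective (Mt.subtype.restrictScalars K) Subtype.val_injective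
          (LinearMap.range (pr s))
        rw [hrange s] at e
        exact Module.Finite.equiv e.symm }
  obtain ⟨s0, hs0⟩ := cliff_euler C φ hφ hhom hcolon hdim
  have hL : ∀ T, (Module.finrank K (L T) : ℤ) =
      ∑ s ∈ Finset.range (T + 1), (Module.finrank K (LinearMap.range (C.pr s)) : ℤ) := by
    intro T
    show _ = ∑ s ∈ Finset.range (T + 1), (Module.finrank K (LinearMap.range (pr s)) : ℤ)
    simp only [heq]
    have hLfd : ∀ s, FiniteDimensional K (L s) :=
      fun s => Submodule.finiteDimensional_of_le inf_le_right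
    have step : ∀ s, Module.finrank K (L s) = Module.finrank K (top s) +
        Module.finrank K (LinearMap.ker ((prL s).comp (L s).subtype)) := by
      intro s
      have h := ((prL s).comp (L s).subtype).finrank_range_add_finrank_ker
      rw [LinearMap.range_comp, Submodule.range_subtype] at h
      exact h.symm
    induction T with
    | zero =>
      have hk : LinearMap.ker ((prL 0).comp (L 0).subtype) = ⊥ := by
        rw [LinearMap.ker_eq_bot']
        intro v hv
        apply Subtype.ext
        funext S; ext d
        by_contra hne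
        simp only [Submodule.coe_zero, Pi.zero_apply, coeff_zero] at hne
        have h1 := mem_leS.1 v.2.2 S d hne
        have h2 := congrArg (coeff d) (congrFun hv S)
        simp only [LinearMap.comp_apply, Submodule.subtype_apply, Pi.zero_apply, coeff_zero,
          coeff_prL, if_pos (Nat.le_zero.1 h1)] at h2
        exact hne h2
      rw [step 0, hk, finrank_bot]; simp
    | succ T ih =>
      rw [Finset.sum_range_succ, ← ih, step (T + 1), add_comm]
      push_cast
      congr 1
      have hker : (LinearMap.ker ((prL (T + 1)).comp (L (T + 1)).subtype)).map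
          (L (T + 1)).subtype = L T := by
        apply le_antisymm
        · rintro _ ⟨v, hv, rfl⟩
          refine ⟨v.2.1, ?_⟩
          simp only [SetLike.mem_coe, leS, Submodule.mem_iInf, Set.mem_Ioi, LinearMap.mem_ker]
          intro t ht
          rcases Nat.lt_or_ge (T + 1) t with h | h
          · have := v.2.2
            simp only [SetLike.mem_coe, leS, Submodule.mem_iInf, Set.mem_Ioi, LinearMap.mem_ker] at this
            exact this t h
          · obtain rfl : t = T + 1 := by omega
            exact hv
        · intro v hv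
          have hv2 := hv.2
          simp only [SetLike.mem_coe, leS, Submodule.mem_iInf, Set.mem_Ioi, LinearMap.mem_ker] at hv2
          refine ⟨⟨v, hv.1, ?_⟩, hv2 (T + 1) (by omega), rfl⟩
          simp only [SetLike.mem_coe, leS, Submodule.mem_iInf, Set.mem_Ioi, LinearMap.mem_ker]
          exact fun t ht => hv2 t (by omega)
      exact_mod_cast hker ▸ (Submodule.equivMapOfInjective _ Subtype.val_injective _).finrank_eq
  set F := FractionRing (MvPolynomial (Fin N) K)
  set ρ := Module.finrank F W
  obtain ⟨P0, hP0, hinj⟩ : ∃ P0 : Finset (Cube N), P0.card = ρ ∧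
      ∀ w ∈ W, (∀ S ∈ P0, w S = 0) → w = 0 := by
    obtain ⟨b, hb⟩ : ∃ b : Set (Cube N), (LinearIndependent F (fun S : b =>
        (LinearMap.proj S.1 : (Cube N → F) →ₗ[F] F).comp W.subtype)) ∧
        Submodule.span F (Set.range fun S : Cube N =>
          (LinearMap.proj S : (Cube N → F) →ₗ[F] F).comp W.subtype) ≤
        Submodule.span F ((fun S : Cube N =>
          (LinearMap.proj S : (Cube N → F) →ₗ[F] F).comp W.subtype) '' b) := by
      obtain ⟨b, -, -, h2, h3⟩ := exists_linearIndepOn_extension (K := F)
        (v := fun S : Cube N => (LinearMap.proj S : (Cube N → F) →ₗ[F] F).comp W.subtype)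
        (s := ∅) (linearIndepOn_empty F _) (Set.empty_subset Set.univ)
      rw [Set.image_univ] at h2
      exact ⟨b, h3, Submodule.span_le.2 h2⟩
    obtain ⟨hb1, hb2⟩ := hb
    have hz : ∀ w ∈ W, (∀ S ∈ b, w S = 0) → w = 0 := by
      intro w hw h
      funext S
      have key : ∀ ξ ∈ Submodule.span F ((fun S : Cube N =>
          (LinearMap.proj S : (Cube N → F) →ₗ[F] F).comp W.subtype) '' b), ξ ⟨w, hw⟩ = 0 := by
        intro ξ hξ
        induction hξ using Submodule.span_induction with
        | mem x hx => obtain ⟨T, hT, rfl⟩ := hx; exact h T hT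
        | zero => rfl
        | add x y _ _ hx hy => simp [hx, hy]
        | smul c x _ hx => simp [hx]
      exact key _ (hb2 (Submodule.subset_span ⟨S, rfl⟩))
    refine ⟨b.toFinset, ?_, fun w hw h => hz w hw (fun S hS => h S (by simpa using hS))⟩
    apply le_antisymm
    · rw [Set.toFinset_card]
      have := hb1.fintype_card_le_finrank
      rwa [show Module.finrank F (W →ₗ[F] F) = ρ from Subspace.dual_finrank_eq] at this
    · rw [Set.toFinset_card]
      let g : W →ₗ[F] (b → F) := LinearMap.pi fun S => (LinearMap.proj S.1).comp W.subtype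
      have : Function.Injective g := by
        rw [← LinearMap.ker_eq_bot, LinearMap.ker_eq_bot']
        exact fun w hw => Subtype.ext (hz w.1 w.2 (fun S hS => congrFun hw ⟨S, hS⟩))
      simpa using LinearMap.finrank_le_finrank_of_injective this
  let bas := Module.finBasis F W
  obtain ⟨den, hden⟩ := IsLocalization.exist_integer_multiples_of_finite
    (nonZeroDivisors (MvPolynomial (Fin N) K))
    (fun x : Fin ρ × Cube N => (bas x.1).1 x.2)
  choose num hnum using hden
  let mv : Fin ρ → (Cube N → MvPolynomial (Fin N) K) := fun i S => num (i, S)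
  have hmv : ∀ i, toFrac (mv i) = (den : MvPolynomial (Fin N) K) • (bas i).1 := fun i => by
    funext S; exact hnum (i, S)
  have hmvM : ∀ i, mv i ∈ MM := fun i => by
    show toFrac (mv i) ∈ W
    rw [hmv, ← algebraMap_smul F]; exact W.smul_mem _ (bas i).2
  let c := Finset.univ.sup fun i => Finset.univ.sup fun S : Cube N => wt S + 2 * (mv i S).totalDegree
  have hmvle : ∀ i, mv i ∈ leS (2 * c) := by
    intro i
    rw [mem_leS]
    intro S d hd
    have h1 : d.degree ≤ (mv i S).totalDegree := le_totalDegree (MvPolynomial.mem_support_iff.2 hd)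
    have h2 : wt S + 2 * (mv i S).totalDegree ≤ c :=
      le_trans (Finset.le_sup (f := fun S : Cube N => wt S + 2 * (mv i S).totalDegree)
        (Finset.mem_univ S))
        (Finset.le_sup (f := fun i => Finset.univ.sup fun S : Cube N =>
          wt S + 2 * (mv i S).totalDegree) (Finset.mem_univ i))
    omega
  have hlow : ∀ k, ρ * (k + N).choose N ≤ Module.finrank K (L (2 * (k + c))) := by
    intro k
    have : FiniteDimensional K (L (2 * (k + c))) := Submodule.finiteDimensional_of_le inf_le_right
    let f : (Fin ρ → restrictTotalDegree (Fin N) K k) →ₗ[K] L (2 * (k + c)) :=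
      LinearMap.codRestrict _
        (∑ i, ((LinearMap.toSpanSingleton (MvPolynomial (Fin N) K) _ (mv i)).restrictScalars K ∘ₗ
          (restrictTotalDegree (Fin N) K k).subtype ∘ₗ LinearMap.proj i))
        (fun p => by
          rw [LinearMap.sum_apply]
          refine Submodule.sum_mem _ (fun i _ => ⟨MM.smul_mem _ (hmvM i), ?_⟩)
          rw [mul_add]
          exact smul_mem_leS (hmvle i) ((mem_restrictTotalDegree _ _ _).1 (p i).2))
    have hf : Function.Injective f := by
      rw [← LinearMap.ker_eq_bot, LinearMap.ker_eq_bot']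
      intro p hp
      have h1 : ∑ i, (p i).1 • mv i = 0 := by simpa [f] using congrArg Subtype.val hp
      have h2 : ∑ i, (algebraMap _ F ((p i).1 * den)) • bas i = 0 := by
        apply Subtype.ext
        have h3 := congrArg toFrac h1
        simp only [map_sum, map_smul, hmv, map_zero, smul_smul] at h3
        simpa only [Submodule.coe_sum, Submodule.coe_smul, Submodule.coe_smul_of_tower, algebraMap_smul, Submodule.coe_zero]
          using h3
      funext i
      have h4 := Fintype.linearIndependent_iff.1 bas.linearIndependent _ h2 i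
      rw [map_eq_zero_iff _ (IsFractionRing.injective _ _), mul_eq_zero] at h4
      exact Subtype.ext (h4.resolve_right (nonZeroDivisors.coe_ne_zero den))
    have := LinearMap.finrank_le_finrank_of_injective hf
    simpa [Module.finrank_pi_fintype, finrank_restrictTotalDegree] using this
  have hup : ∀ k, Module.finrank K (L (2 * k)) ≤ ρ * (k + N).choose N := by
    intro k
    let f : L (2 * k) →ₗ[K] (P0 → restrictTotalDegree (Fin N) K k) :=
      LinearMap.pi fun S => LinearMap.codRestrict _ (LinearMap.proj S.1 ∘ₗ (L (2 * k)).subtype)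
        (fun v => (mem_restrictTotalDegree _ _ _).2 (by
          have := totalDegree_le_of_mem_leS v.2.2 S.1
          simp only [LinearMap.comp_apply, Submodule.subtype_apply, LinearMap.proj_apply]
          omega))
    have hf : Function.Injective f := by
      rw [← LinearMap.ker_eq_bot, LinearMap.ker_eq_bot']
      intro v hv
      apply Subtype.ext
      apply toFrac_injective
      rw [Submodule.coe_zero, map_zero]
      exact hinj _ v.2.1 (fun S hS => by
        have h := congrArg Subtype.val (congrFun hv ⟨S, hS⟩)
        show algebraMap _ _ (v.1 S) = 0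
        simp only [f, LinearMap.pi_apply, LinearMap.codRestrict_apply, LinearMap.comp_apply,
          Submodule.subtype_apply, LinearMap.proj_apply, Pi.zero_apply, ZeroMemClass.coe_zero] at h
        rw [h, map_zero])
    have := LinearMap.finrank_le_finrank_of_injective hf
    simpa [Module.finrank_pi_fintype, finrank_restrictTotalDegree, hP0] using this
  obtain ⟨e, he⟩ := rank_eq N _ (ρ : ℤ) s0 c hs0
    (fun k => by rw [← hL]; exact_mod_cast hup k) (fun k => by rw [← hL]; exact_mod_cast hlow k)
  have hle : ρ ≤ 2 ^ N := by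
    have := Submodule.finrank_le W
    rwa [Module.finrank_pi, card_cube] at this
  have hpos : 0 < ρ := Nat.pos_of_ne_zero (fun h => hne (Submodule.finrank_eq_zero.1 h))
  have h2 : (2 : ℤ) ^ N = ((2 ^ N : ℕ) : ℤ) := by push_cast; ring
  have hρ : ρ = 2 ^ N := by
    rw [h2] at he
    have hA : (0 : ℤ) < ((2 ^ N : ℕ) : ℤ) := by positivity
    have h1 : (0 : ℤ) < e := by
      by_contra hh; push Not at hh
      have : ((2 ^ N : ℕ) : ℤ) * e ≤ 0 := mul_nonpos_of_nonneg_of_nonpos hA.le hh
      omega
    have h3 : ((2 ^ N : ℕ) : ℤ) * 1 ≤ ((2 ^ N : ℕ) : ℤ) * e :=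
      mul_le_mul_of_nonneg_left h1 hA.le
    omega
  exact Submodule.eq_top_of_finrank_eq (by rw [Module.finrank_pi, card_cube]; exact hρ)

/-- the generic Clifford algebra -/
def genCliff (β : Fin N → Fin N → Fin N → K) :
    Subalgebra (FractionRing (MvPolynomial (Fin N) K))
      (Module.End (FractionRing (MvPolynomial (Fin N) K))
        (Cube N → FractionRing (MvPolynomial (Fin N) K))) :=
  Algebra.adjoin _ (Set.range (genOp β))

theorem genOp_sq (β : Fin N → Fin N → Fin N → K) (k : Fin N) :
    genOp β k * genOp β k = algebraMap _ _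
      (algebraMap (MvPolynomial (Fin N) K) (FractionRing (MvPolynomial (Fin N) K)) (genB β k k)) := by
  apply LinearMap.ext; intro w
  exact clOp_sq _ k w

theorem genOp_anti (β : Fin N → Fin N → Fin N → K) {k l : Fin N} (h : k ≠ l) :
    genOp β k * genOp β l + genOp β l * genOp β k = algebraMap _ _
      (algebraMap (MvPolynomial (Fin N) K) (FractionRing (MvPolynomial (Fin N) K)) (genB β k l)) := by
  apply LinearMap.ext; intro w
  rcases lt_or_gt_of_ne h with h' | h'
  · exact clOp_anti _ k l h' w
  · rw [genB_symm, add_comm]; exact clOp_anti _ l k h' w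

/-- ordered products -/
def prodSpan (β : Fin N → Fin N → Fin N → K) :
    ℕ → Submodule (FractionRing (MvPolynomial (Fin N) K))
      (Module.End (FractionRing (MvPolynomial (Fin N) K))
        (Cube N → FractionRing (MvPolynomial (Fin N) K)))
  | 0 => Submodule.span _ {1}
  | m + 1 => if h : m < N then prodSpan β m ⊔ (prodSpan β m).map (LinearMap.mulLeft _ (genOp β ⟨m, h⟩))
      else prodSpan β m

set_option maxHeartbeats 400000 in
theorem prodSpan_closed (β : Fin N → Fin N → Fin N → K) : ∀ m, ∀ j : Fin N, j.1 < m →
    ∀ a ∈ prodSpan β m, genOp β j * a ∈ prodSpan β m := by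
  intro m
  induction m with
  | zero => intro j hj; omega
  | succ m ih =>
    intro j hj a ha
    by_cases h : m < N
    · simp only [prodSpan, dif_pos h] at ha ⊢
      obtain ⟨x, hx, _, ⟨y, hy, rfl⟩, rfl⟩ := Submodule.mem_sup.1 ha
      rw [mul_add]
      by_cases hjm : j.1 = m
      · have hje : j = ⟨m, h⟩ := Fin.ext hjm
        subst hje
        refine add_mem (Submodule.mem_sup_right ⟨x, hx, rfl⟩) (Submodule.mem_sup_left ?_)
        rw [LinearMap.mulLeft_apply, ← mul_assoc, genOp_sq, ← Algebra.smul_def]
        exact Submodule.smul_mem _ _ hy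
      · refine Submodule.add_mem _ (Submodule.mem_sup_left (ih j (by omega) x hx)) ?_
        have hne : j ≠ ⟨m, h⟩ := fun hh => hjm (congrArg Fin.val hh)
        rw [LinearMap.mulLeft_apply, ← mul_assoc, eq_sub_of_add_eq (genOp_anti β hne), sub_mul,
          ← Algebra.smul_def, mul_assoc]
        refine Submodule.sub_mem _ (Submodule.mem_sup_left (Submodule.smul_mem _ _ hy)) ?_
        exact Submodule.mem_sup_right (Submodule.mem_map.2
          ⟨genOp β j * y, ih j (by omega) y hy, rfl⟩)
    · simp only [prodSpan, dif_neg h] at ha ⊢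
      exact ih j (by have := j.2; omega) a ha

theorem finrank_prodSpan (β : Fin N → Fin N → Fin N → K) (m : ℕ) :
    Module.finrank (FractionRing (MvPolynomial (Fin N) K)) (prodSpan β m) ≤ 2 ^ m := by
  induction m with
  | zero =>
    rw [prodSpan, pow_zero]
    exact le_of_le_of_eq (finrank_span_le_card _) (by rw [Set.toFinset_singleton, Finset.card_singleton])
  | succ m ih =>
    by_cases h : m < N
    · rw [prodSpan, dif_pos h]
      refine le_trans (Submodule.finrank_add_le_finrank_add_finrank (prodSpan β m)
        ((prodSpan β m).map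
          (LinearMap.mulLeft (FractionRing (MvPolynomial (Fin N) K)) (genOp β ⟨m, h⟩)))) ?_
      exact le_trans (Nat.add_le_add ih (le_trans (Submodule.finrank_map_le _ _) ih))
        (by rw [pow_succ]; omega)
    · rw [prodSpan, dif_neg h]
      exact le_trans ih (Nat.pow_le_pow_right (by norm_num) (Nat.le_succ m))

theorem one_mem_prodSpan (β : Fin N → Fin N → Fin N → K) (m : ℕ) : 1 ∈ prodSpan β m := by
  induction m with
  | zero => exact Submodule.subset_span rfl
  | succ m ih =>
    simp only [prodSpan]
    split_ifs with h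
    · exact Submodule.mem_sup_left ih
    · exact ih

theorem finrank_genCliff (β : Fin N → Fin N → Fin N → K) :
    Module.finrank (FractionRing (MvPolynomial (Fin N) K)) (genCliff β) ≤ 2 ^ N := by
  have key : ∀ x ∈ genCliff β, ∀ a ∈ prodSpan β N, x * a ∈ prodSpan β N := by
    intro x hx
    induction hx using Algebra.adjoin_induction with
    | mem x hx => obtain ⟨k, rfl⟩ := hx; exact fun a ha => prodSpan_closed β N k k.2 a ha
    | algebraMap r => intro a ha; rw [← Algebra.smul_def]; exact Submodule.smul_mem _ _ ha
    | add x y _ _ hx hy => intro a ha; rw [add_mul]; exact add_mem (hx a ha) (hy a ha)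
    | mul x y _ _ hx hy => intro a ha; rw [mul_assoc]; exact hx _ (hy a ha)
  have hle : Subalgebra.toSubmodule (genCliff β) ≤ prodSpan β N := fun x hx => by
    simpa using key x hx 1 (one_mem_prodSpan β N)
  exact le_trans (Submodule.finrank_mono hle) (finrank_prodSpan β N)

/-- A small subalgebra of endomorphisms acting transitively is a domain. -/
theorem isDomain_of_transitive {F V : Type*} [Field F] [AddCommGroup V] [Module F V]
    [FiniteDimensional F V] (A : Subalgebra F (Module.End F V)) (u : V) (hu : u ≠ 0)
    (hA : Module.finrank F A ≤ Module.finrank F V)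
    (htr : ∀ v : V, v ≠ 0 → ∀ w : V, ∃ c ∈ A, c v = w) : IsDomain A := by
  have happ : ∀ v : V, v ≠ 0 → Function.Injective (fun c : A => (c : Module.End F V) v) := by
    intro v hv
    let ev : A →ₗ[F] V := (LinearMap.applyₗ v).comp A.val.toLinearMap
    have hsurj : Function.Surjective ev := fun w => by
      obtain ⟨c, hc, h⟩ := htr v hv w
      exact ⟨⟨c, hc⟩, h⟩
    have h1 : Module.finrank F A = Module.finrank F V :=
      le_antisymm hA (LinearMap.finrank_le_finrank_of_surjective hsurj)
    exact (LinearMap.injective_iff_surjective_of_finrank_eq_finrank h1).2 hsurj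
  have : Nontrivial A := ⟨⟨1, 0, fun h => hu (by
    simpa using congrArg (fun c : A => (c : Module.End F V) u) h)⟩⟩
  have : NoZeroDivisors A := ⟨fun {a b} hab => by
    by_cases hb : b = 0
    · exact Or.inr hb
    · left
      have hbv : (b : Module.End F V) u ≠ 0 := fun h => hb (happ u hu (by simpa using h))
      apply happ _ hbv
      simpa using congrArg (fun c : A => (c : Module.End F V) u) hab⟩
  exact NoZeroDivisors.to_isDomain A

theorem genCliff_noZeroDivisors (β : Fin N → Fin N → Fin N → K)
    (φ : Fin N → MvPolynomial (Fin N) K)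
    (hφ : ∀ t, φ t = ∑ k, ∑ l, β t k l • (X k * X l))
    (hhom : ∀ t, (φ t).IsHomogeneous 2)
    (hcolon : ∀ T u, φ T * u ∈ Ideal.span (φ '' {t | t ≠ T}) →
      u ∈ Ideal.span (φ '' {t | t ≠ T}))
    [FiniteDimensional K (MvPolynomial (Fin N) K ⧸ Ideal.span (Set.range φ))]
    (hdim : ∀ j, Module.finrank K (quotPiece (Ideal.span (Set.range φ)) j) = N.choose j) :
    IsDomain (genCliff β) := by
  refine isDomain_of_transitive (genCliff β) (vac N) (by simp [vac]) ?_ (fun v hv w => ?_)
  · rw [Module.finrank_pi, card_cube]; exact finrank_genCliff β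
  · have htop := irreducible β φ hφ hhom hcolon hdim
      ((Subalgebra.toSubmodule (genCliff β)).map (LinearMap.applyₗ v)) (by
        rintro k _ ⟨c, hc, rfl⟩
        exact ⟨genOp β k * c, (mul_mem (Algebra.subset_adjoin ⟨k, rfl⟩) hc : genOp β k * c ∈ genCliff β), rfl⟩) (fun h => hv (by
        have : v ∈ (Subalgebra.toSubmodule (genCliff β)).map (LinearMap.applyₗ v) :=
          ⟨1, one_mem (genCliff β), rfl⟩
        rwa [h, Submodule.mem_bot] at this))
    obtain ⟨c, hc, h⟩ : w ∈ (Subalgebra.toSubmodule (genCliff β)).map (LinearMap.applyₗ v) := by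
      rw [htop]; exact Submodule.mem_top
    exact ⟨c, hc, h⟩

end Vale.Agent.P200
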