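import Mathlib

/-!
Finite differences of eventually polynomial integer sequences.
-/

namespace Vale.Agent.P200

/-- forward difference of an integer sequence -/
def dlt (u : ℕ → ℤ) : ℕ → ℤ := fun k => u (k + 1) - u k

/-- iterated forward difference -/
def dltN : ℕ → (ℕ → ℤ) → ℕ → ℤ
  | 0, u => u
  | N + 1, u => dltN N (dlt u)

theorem dltN_add (N : ℕ) : ∀ u v : ℕ → ℤ, ∀ k, dltN N (u + v) k = dltN N u k + dltN N v k := by
  induction N with
  | zero => intro u v k; rfl
  | succ N ih =>
    intro u v k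
    have : dlt (u + v) = dlt u + dlt v := by funext i; simp only [dlt, Pi.add_apply]; ring
    simp only [dltN, this, ih]

theorem dltN_smul (N : ℕ) : ∀ (c : ℤ) (u : ℕ → ℤ) k, dltN N (c • u) k = c * dltN N u k := by
  induction N with
  | zero => intro c u k; simp [dltN]
  | succ N ih =>
    intro c u k
    have : dlt (c • u) = c • dlt u := by funext i; simp [dlt]; ring
    simp only [dltN, this, ih]

theorem dltN_sub (N : ℕ) (u v : ℕ → ℤ) (k : ℕ) :
    dltN N (u - v) k = dltN N u k - dltN N v k := by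
  have h : u - v = u + (-1 : ℤ) • v := by funext i; simp; ring
  rw [h, dltN_add, dltN_smul]; ring

theorem dltN_shift (N : ℕ) : ∀ (u : ℕ → ℤ) (c k : ℕ),
    dltN N (fun i => u (i + c)) k = dltN N u (k + c) := by
  induction N with
  | zero => intro u c k; rfl
  | succ N ih =>
    intro u c k
    have : dlt (fun i => u (i + c)) = fun i => dlt u (i + c) := by
      funext i; simp only [dlt]; congr 2; omega
    simp only [dltN, this, ih]

theorem dltN_succ (N : ℕ) : ∀ (u : ℕ → ℤ) k, dltN (N + 1) u k = dlt (dltN N u) k := by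
  induction N with
  | zero => intro u k; rfl
  | succ N ih =>
    intro u k
    show dltN (N + 1) (dlt u) k = _
    rw [ih]; rfl

theorem dltN_eq_sum (N : ℕ) : ∀ (u : ℕ → ℤ) k,
    dltN N u k = ∑ j ∈ Finset.range (N + 1), (-1 : ℤ) ^ (N - j) * (N.choose j : ℤ) * u (k + j) := by
  intro u k
  have h : ∀ (N : ℕ) (u : ℕ → ℤ) k, dltN N u k = ((fwdDiff (1 : ℕ))^[N] u) k := by
    intro N
    induction N with
    | zero => intro u k; rfl
    | succ N ih =>
      intro u k
      rw [Function.iterate_succ_apply]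
      show dltN N (dlt u) k = _
      rw [ih]; rfl
  rw [h, fwdDiff_iter_eq_sum_shift]
  simp

theorem eventually_neg (N : ℕ) : ∀ (u : ℕ → ℤ), (∃ k0, ∀ k, k0 ≤ k → dltN N u k ≤ -1) →
    ∃ k1, ∀ k, k1 ≤ k → u k ≤ -1 := by
  induction N with
  | zero => intro u h; exact h
  | succ N ih =>
    intro u h
    obtain ⟨k1, hk⟩ := ih (dlt u) h
    have h2 : ∀ i : ℕ, u (k1 + i) ≤ u k1 - i := by
      intro i
      induction i with
      | zero => simp
      | succ i ihh =>
        have := hk (k1 + i) (by omega)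
        simp only [dlt] at this
        rw [← add_assoc]; push_cast; linarith
    refine ⟨k1 + (u k1 + 1).toNat, fun k hk' => ?_⟩
    have := h2 (k - k1)
    rw [show k1 + (k - k1) = k by omega] at this
    omega

theorem const_le_of_eventually_le (N : ℕ) (u v : ℕ → ℤ) (a b : ℤ) (k0 : ℕ)
    (hu : ∀ k, k0 ≤ k → dltN N u k = a) (hv : ∀ k, k0 ≤ k → dltN N v k = b)
    (hle : ∀ k, k0 ≤ k → u k ≤ v k) : a ≤ b := by
  by_contra h
  obtain ⟨k1, hk⟩ := eventually_neg N (v - u)
    ⟨k0, fun k hk => by rw [dltN_sub, hu k hk, hv k hk]; omega⟩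
  have := hk (k0 + k1) (by omega)
  have := hle (k0 + k1) (by omega)
  simp only [Pi.sub_apply] at *
  omega

theorem dltN_double (N : ℕ) : ∀ (S : ℕ → ℤ) (e : ℤ) (t0 : ℕ),
    (∀ k, t0 ≤ k → dltN N S k = e) →
    ∀ k, t0 ≤ k → dltN N (fun i => S (2 * i)) k = 2 ^ N * e := by
  induction N with
  | zero => intro S e t0 h k hk; simpa [dltN] using h (2 * k) (by omega)
  | succ N ih =>
    intro S e t0 h k hk
    have h1 : dlt (fun i => S (2 * i)) =
        fun i => ((fun m => dlt S (m + 1)) + dlt S) (2 * i) := by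
      funext i
      simp only [dlt, Pi.add_apply]
      rw [show 2 * (i + 1) = 2 * i + 1 + 1 by omega]; ring
    have h2 : ∀ k, t0 ≤ k → dltN N ((fun m => dlt S (m + 1)) + dlt S) k = 2 * e := by
      intro k hk
      rw [dltN_add, dltN_shift]
      have a := h k hk
      have b := h (k + 1) (by omega)
      simp only [dltN] at a b
      rw [a, b]; ring
    show dltN N (dlt _) k = _
    rw [h1, ih _ _ t0 h2 k hk]; ring

theorem dltN_choose (N : ℕ) : ∀ r k : ℕ,
    dltN N (fun i => ((i + r).choose N : ℤ)) k = 1 := by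
  induction N with
  | zero => intro r k; simp [dltN]
  | succ N ih =>
    intro r k
    have : dlt (fun i => ((i + r).choose (N + 1) : ℤ)) = fun i => ((i + r).choose N : ℤ) := by
      funext i
      simp only [dlt]
      rw [show i + 1 + r = i + r + 1 by omega, Nat.choose_succ_succ']
      push_cast; ring
    show dltN N (dlt _) k = 1
    rw [this, ih]

/-- Sandwiched partial sums determine the leading difference. -/
theorem rank_eq (N : ℕ) (h : ℕ → ℤ) (ρ : ℤ) (s0 c : ℕ)
    (hΔ : ∀ s, s0 ≤ s → dltN N h s = 0)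
    (hup : ∀ k, (∑ s ∈ Finset.range (2 * k + 1), h s) ≤ ρ * ((k + N).choose N : ℤ))
    (hlo : ∀ k, ρ * ((k + N).choose N : ℤ) ≤ ∑ s ∈ Finset.range (2 * (k + c) + 1), h s) :
    ∃ e : ℤ, ρ = 2 ^ N * e := by
  set S : ℕ → ℤ := fun t => ∑ s ∈ Finset.range (t + 1), h s with hS
  have hd : ∀ k, s0 ≤ k → dltN (N + 1) S k = 0 := by
    intro k hk
    have : dlt S = fun i => h (i + 1) := by
      funext i; simp only [dlt, hS, Finset.sum_range_succ _ (i + 1)]; ring
    show dltN N (dlt S) k = 0
    rw [this, dltN_shift]; exact hΔ _ (by omega)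
  set e := dltN N S s0 with he
  have hc : ∀ i, dltN N S (s0 + i) = e := by
    intro i
    induction i with
    | zero => rfl
    | succ i ih =>
      have := hd (s0 + i) (by omega)
      rw [dltN_succ, dlt] at this
      rw [← add_assoc]; omega
  have hS2 : ∀ k, s0 ≤ k → dltN N (fun i => S (2 * i)) k = 2 ^ N * e := by
    refine dltN_double N S e s0 (fun k hk => ?_)
    have := hc (k - s0); rwa [show s0 + (k - s0) = k by omega] at this
  have hS3 : ∀ k, s0 ≤ k → dltN N (fun i => S (2 * (i + c))) k = 2 ^ N * e := by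
    intro k hk
    have := dltN_shift N (fun i => S (2 * i)) c k
    rw [this]; exact hS2 _ (by omega)
  have hg : ∀ k, dltN N (fun i => ρ * ((i + N).choose N : ℤ)) k = ρ := by
    intro k
    have : (fun i => ρ * ((i + N).choose N : ℤ)) = ρ • fun i => ((i + N).choose N : ℤ) := by
      funext i; simp
    rw [this, dltN_smul, dltN_choose, mul_one]
  refine ⟨e, le_antisymm ?_ ?_⟩
  · exact const_le_of_eventually_le N _ _ _ _ s0 (fun k _ => hg k) hS3 (fun k _ => hlo k)
  · exact const_le_of_eventually_le N _ _ _ _ s0 hS2 (fun k _ => hg k) (fun k _ => hup k)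

end Vale.Agent.P200
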