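import Vale.Agent.P200.Poly
import Vale.Agent.P200.Diff

/-!
Euler characteristic of the Clifford-linearised complex attached to a regular sequence
of quadrics.
-/

noncomputable section

namespace Vale.Agent.P200

open MvPolynomial TensorProduct

theorem sum_sum_eq_of_symm {X : Type*} [AddCommMonoid X] : ∀ {N : ℕ} (G H : Fin N → Fin N → X),
    (∀ k, G k k = H k k) → (∀ k l, k ≠ l → G k l + G l k = H k l + H l k) →
    ∑ k, ∑ l, G k l = ∑ k, ∑ l, H k l := by
  intro N
  induction N with
  | zero => intro G H _ _; simp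
  | succ N ih =>
    intro G H hd ho
    have e1 : ∀ F : Fin (N + 1) → Fin (N + 1) → X, ∑ k, ∑ l, F k l =
        F 0 0 + ∑ i : Fin N, (F 0 i.succ + F i.succ 0) +
          ∑ k : Fin N, ∑ l : Fin N, F k.succ l.succ := by
      intro F
      simp only [Fin.sum_univ_succ, Finset.sum_add_distrib]
      abel
    rw [e1 G, e1 H, hd 0, ih (fun k l => G k.succ l.succ) (fun k l => H k.succ l.succ)
      (fun k => hd _) (fun k l hkl => ho _ _ (by simpa using hkl))]
    congr 2
    exact Finset.sum_congr rfl (fun i _ => ho 0 i.succ (Fin.succ_ne_zero i).symm)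

variable {K : Type*} [Field K] {N : ℕ}

/-- Data of graded Clifford operators for the generic member of a system of quadrics. -/
structure CliffMod (K : Type*) [Field K] (N : ℕ) (β : Fin N → Fin N → Fin N → K)
    (M : Type*) [AddCommGroup M] [Module K M] [Module (MvPolynomial (Fin N) K) M]
    [IsScalarTower K (MvPolynomial (Fin N) K) M] where
  /-- the operators -/
  e : Fin N → M →ₗ[MvPolynomial (Fin N) K] M
  sq : ∀ k m, e k (e k m) = ∑ t, (β t k k • (X t : MvPolynomial (Fin N) K)) • m
  anti : ∀ k l, k ≠ l → ∀ m,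
    e k (e l m) + e l (e k m) = ∑ t, ((β t k l + β t l k) • (X t : MvPolynomial (Fin N) K)) • m
  /-- the projections to the graded pieces -/
  pr : ℕ → M →ₗ[K] M
  pr_e : ∀ s k m, pr (s + 1) (e k m) = e k (pr s m)
  pr_zero : ∀ k m, pr 0 (e k m) = 0
  pr_idem : ∀ s m, pr s (pr s m) = pr s m
  pr_bdd : ∀ m, ∃ b, ∀ s, b ≤ s → pr s m = 0
  pr_fin : ∀ s, FiniteDimensional K (LinearMap.range (pr s))

variable {β : Fin N → Fin N → Fin N → K} {M : Type*} [AddCommGroup M] [Module K M]
  [Module (MvPolynomial (Fin N) K) M] [IsScalarTower K (MvPolynomial (Fin N) K) M]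

/-- Multiplication by a polynomial on a quotient ring, as a linear map over the field. -/
def mulQ (J : Ideal (MvPolynomial (Fin N) K)) (p : MvPolynomial (Fin N) K) :
    (MvPolynomial (Fin N) K ⧸ J) →ₗ[K] (MvPolynomial (Fin N) K ⧸ J) :=
  LinearMap.mulLeft K (Ideal.Quotient.mk J p)

/-- The linearised differential. -/
def diff (C : CliffMod K N β M) (J : Ideal (MvPolynomial (Fin N) K)) :
    M ⊗[K] (MvPolynomial (Fin N) K ⧸ J) →ₗ[MvPolynomial (Fin N) K]
      M ⊗[K] (MvPolynomial (Fin N) K ⧸ J) :=
  ∑ k, TensorProduct.AlgebraTensorModule.map (C.e k) (mulQ J (X k))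

theorem diff_tmul (C : CliffMod K N β M) (J : Ideal (MvPolynomial (Fin N) K)) (m : M) (a) :
    diff C J (m ⊗ₜ a) = ∑ k, C.e k m ⊗ₜ[K] (Ideal.Quotient.mk J (X k) * a) := by
  simp [diff, mulQ]

theorem diff_diff (C : CliffMod K N β M) (J : Ideal (MvPolynomial (Fin N) K))
    (φ : Fin N → MvPolynomial (Fin N) K)
    (hφ : ∀ t, φ t = ∑ k, ∑ l, β t k l • (X k * X l)) (m : M) (a) :
    diff C J (diff C J (m ⊗ₜ a)) =
      ∑ t, ((X t : MvPolynomial (Fin N) K) • m) ⊗ₜ[K] (Ideal.Quotient.mk J (φ t) * a) := by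
  have h1 : diff C J (diff C J (m ⊗ₜ a)) =
      ∑ k, ∑ l, C.e k (C.e l m) ⊗ₜ[K] (Ideal.Quotient.mk J (X k * X l) * a) := by
    rw [diff_tmul, map_sum, Finset.sum_comm]
    refine Finset.sum_congr rfl (fun l _ => ?_)
    rw [diff_tmul]
    refine Finset.sum_congr rfl (fun k _ => ?_)
    rw [map_mul, mul_assoc]
  have h2 : ∀ k l, ((∑ t, (β t k l • (X t : MvPolynomial (Fin N) K)) • m)) ⊗ₜ[K]
        (Ideal.Quotient.mk J (X k * X l) * a) =
      ∑ t, ((X t : MvPolynomial (Fin N) K) • m) ⊗ₜ[K]
        (Ideal.Quotient.mk J (β t k l • (X k * X l)) * a) := by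
    intro k l
    rw [sum_tmul]
    refine Finset.sum_congr rfl (fun t _ => ?_)
    rw [smul_assoc, smul_tmul, ← smul_mul_assoc]
    rfl
  rw [h1, sum_sum_eq_of_symm _ (fun k l => (∑ t, (β t k l • (X t : MvPolynomial (Fin N) K)) • m)
    ⊗ₜ[K] (Ideal.Quotient.mk J (X k * X l) * a))]
  · simp only [h2]
    simp only [hφ, map_sum, Finset.sum_mul, tmul_sum]
    conv_rhs => rw [Finset.sum_comm]
    refine Finset.sum_congr rfl (fun k _ => ?_)
    rw [Finset.sum_comm]
  · intro k; rw [C.sq]
  · intro k l hkl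
    rw [mul_comm (X l) (X k), ← add_tmul, ← add_tmul, C.anti k l hkl]
    simp only [add_smul, Finset.sum_add_distrib]

theorem cycle_smul_mem_range (C : CliffMod K N β M) (φ : Fin N → MvPolynomial (Fin N) K)
    (hφ : ∀ t, φ t = ∑ k, ∑ l, β t k l • (X k * X l))
    (T : Fin N) (hT : ∀ u, φ T * u ∈ Ideal.span (φ '' {t | t ≠ T}) →
      u ∈ Ideal.span (φ '' {t | t ≠ T}))
    (z : M ⊗[K] (MvPolynomial (Fin N) K ⧸ Ideal.span (Set.range φ)))
    (hz : diff C _ z = 0) :
    (X T : MvPolynomial (Fin N) K) • z ∈ LinearMap.range (diff C (Ideal.span (Set.range φ))) := by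
  revert z
  set J := Ideal.span (Set.range φ)
  intro z hz
  set J' := Ideal.span (φ '' {t | t ≠ T})
  have hle : J' ≤ J := Ideal.span_mono (Set.image_subset_range _ _)
  set π : (MvPolynomial (Fin N) K ⧸ J') →ₗ[K] (MvPolynomial (Fin N) K ⧸ J) :=
    (Ideal.Quotient.factorₐ K hle).toLinearMap
  set μ : (MvPolynomial (Fin N) K ⧸ J') →ₗ[K] (MvPolynomial (Fin N) K ⧸ J') := mulQ J' (φ T)
  set ψ : M ⊗[K] (MvPolynomial (Fin N) K ⧸ J') →ₗ[MvPolynomial (Fin N) K]
      M ⊗[K] (MvPolynomial (Fin N) K ⧸ J) :=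
    TensorProduct.AlgebraTensorModule.map LinearMap.id π
  set χ : M ⊗[K] (MvPolynomial (Fin N) K ⧸ J') →ₗ[MvPolynomial (Fin N) K]
      M ⊗[K] (MvPolynomial (Fin N) K ⧸ J') :=
    TensorProduct.AlgebraTensorModule.map LinearMap.id μ
  have hπsurj : Function.Surjective π := Ideal.Quotient.factor_surjective hle
  have hμinj : Function.Injective μ := by
    rw [← LinearMap.ker_eq_bot, LinearMap.ker_eq_bot']
    intro a ha
    obtain ⟨u, rfl⟩ := Ideal.Quotient.mk_surjective a
    simp only [μ, mulQ, LinearMap.mulLeft_apply, ← map_mul, Ideal.Quotient.eq_zero_iff_mem] at ha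
    exact (Ideal.Quotient.eq_zero_iff_mem).2 (hT u ha)
  have hexact : Function.Exact μ π := by
    intro a
    obtain ⟨u, rfl⟩ := Ideal.Quotient.mk_surjective a
    constructor
    · intro h
      have h' : u ∈ J := (Ideal.Quotient.eq_zero_iff_mem).1 h
      have hJ : J = Ideal.span {φ T} ⊔ J' := by
        rw [← Ideal.span_union]
        show Ideal.span (Set.range φ) = _
        congr 1
        ext p
        show (∃ t, φ t = p) ↔ (p = φ T ∨ ∃ t, t ≠ T ∧ φ t = p)
        constructor
        · rintro ⟨t, rfl⟩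
          by_cases ht : t = T
          · exact Or.inl (ht ▸ rfl)
          · exact Or.inr ⟨t, ht, rfl⟩
        · rintro (rfl | ⟨t, -, rfl⟩)
          · exact ⟨T, rfl⟩
          · exact ⟨t, rfl⟩
      rw [hJ, Submodule.mem_sup] at h'
      obtain ⟨y, hy, w, hw, rfl⟩ := h'
      obtain ⟨r, rfl⟩ := Ideal.mem_span_singleton'.1 hy
      refine ⟨Ideal.Quotient.mk J' r, ?_⟩
      simp [μ, mulQ, Ideal.Quotient.eq_zero_iff_mem.2 hw, mul_comm r]
    · rintro ⟨b, hb⟩
      obtain ⟨v, rfl⟩ := Ideal.Quotient.mk_surjective b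
      rw [← hb]
      simp only [μ, mulQ, LinearMap.mulLeft_apply, ← map_mul]
      exact (Ideal.Quotient.eq_zero_iff_mem).2
        (Ideal.mul_mem_right _ _ (Ideal.subset_span ⟨T, rfl⟩))
  have hχinj : Function.Injective χ :=
    Module.Flat.lTensor_preserves_injective_linearMap (M := M) μ hμinj
  have hexT : Function.Exact χ ψ := lTensor_exact M hexact hπsurj
  have hψsurj : Function.Surjective ψ := LinearMap.lTensor_surjective M hπsurj
  have hcomm : ∀ y, ψ (diff C J' y) = diff C J (ψ y) := by
    intro y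
    induction y using TensorProduct.induction_on with
    | zero => simp
    | tmul m a => simp [ψ, π, diff_tmul, map_sum]
    | add x y hx hy => simp [hx, hy]
  have hcommχ : ∀ y, χ (diff C J' y) = diff C J' (χ y) := by
    intro y
    induction y using TensorProduct.induction_on with
    | zero => simp
    | tmul m a =>
      simp only [χ, μ, mulQ, diff_tmul, map_sum, TensorProduct.AlgebraTensorModule.map_tmul,
        LinearMap.id_apply, LinearMap.mulLeft_apply]
      exact Finset.sum_congr rfl (fun k _ => by rw [mul_left_comm])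
    | add x y hx hy => simp [hx, hy]
  have hsq : ∀ y, diff C J' (diff C J' y) = (X T : MvPolynomial (Fin N) K) • χ y := by
    intro y
    induction y using TensorProduct.induction_on with
    | zero => simp
    | tmul m a =>
      rw [diff_diff C J' φ hφ, Finset.sum_eq_single T]
      · simp [χ, μ, mulQ, TensorProduct.smul_tmul']
      · intro t _ ht
        rw [Ideal.Quotient.eq_zero_iff_mem.2 (Ideal.subset_span (Set.mem_image_of_mem φ ht)),
          zero_mul, tmul_zero]
      · simp
    | add x y hx hy => simp [hx, hy]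
  obtain ⟨z', hz'⟩ := hψsurj z
  have hc : ψ (diff C J' z') = 0 := by rw [hcomm, hz']; exact hz
  obtain ⟨u, hu⟩ := (hexT _).1 hc
  have key : (X T : MvPolynomial (Fin N) K) • z' = diff C J' u := by
    apply hχinj
    rw [map_smul, ← hsq, ← hu, hcommχ]
  exact ⟨ψ u, by rw [← hcomm, ← key, map_smul, hz']⟩

theorem cycles_le [Module.Finite (MvPolynomial (Fin N) K) M] (C : CliffMod K N β M)
    (φ : Fin N → MvPolynomial (Fin N) K)
    (hφ : ∀ t, φ t = ∑ k, ∑ l, β t k l • (X k * X l))
    (hcolon : ∀ T u, φ T * u ∈ Ideal.span (φ '' {t | t ≠ T}) →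
      u ∈ Ideal.span (φ '' {t | t ≠ T}))
    [FiniteDimensional K (MvPolynomial (Fin N) K ⧸ Ideal.span (Set.range φ))] :
    ∃ G : Finset (M ⊗[K] (MvPolynomial (Fin N) K ⧸ Ideal.span (Set.range φ))),
      ∀ z, diff C (Ideal.span (Set.range φ)) z = 0 → ∃ w, z - diff C (Ideal.span (Set.range φ)) w ∈
        Submodule.span K (G : Set (M ⊗[K] (MvPolynomial (Fin N) K ⧸ Ideal.span (Set.range φ)))) := by
  set J := Ideal.span (Set.range φ)
  have hfin : Module.Finite (MvPolynomial (Fin N) K) (M ⊗[K] (MvPolynomial (Fin N) K ⧸ J)) := by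
    obtain ⟨s, hs⟩ := Module.Finite.fg_top (R := MvPolynomial (Fin N) K) (M := M)
    let v := Module.finBasis K (MvPolynomial (Fin N) K ⧸ J)
    classical
    refine ⟨⟨(s ×ˢ Finset.univ).image (fun x => x.1 ⊗ₜ[K] v x.2), eq_top_iff.2 fun y hy => ?_⟩⟩
    clear hy
    induction y using TensorProduct.induction_on with
    | zero => exact zero_mem _
    | tmul m a =>
      rw [← v.sum_repr a, tmul_sum]
      refine sum_mem (fun i _ => ?_)
      rw [tmul_smul, ← algebraMap_smul (MvPolynomial (Fin N) K) (v.repr a i) (m ⊗ₜ[K] v i)]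
      refine Submodule.smul_mem _ _ ?_
      have hm : m ∈ Submodule.span (MvPolynomial (Fin N) K) (s : Set M) := by rw [hs]; trivial
      induction hm using Submodule.span_induction with
      | mem x hx => exact Submodule.subset_span (by
          simp only [Finset.coe_image, Finset.coe_product, Finset.coe_univ]
          exact ⟨(x, i), ⟨hx, trivial⟩, rfl⟩)
      | zero => rw [zero_tmul]; exact zero_mem _
      | add x y _ _ hx hy => rw [add_tmul]; exact add_mem hx hy
      | smul p x _ hx => rw [← smul_tmul']; exact Submodule.smul_mem _ _ hx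
    | add x y hx hy => exact add_mem hx hy
  have : IsNoetherian (MvPolynomial (Fin N) K) (M ⊗[K] (MvPolynomial (Fin N) K ⧸ J)) :=
    isNoetherian_of_isNoetherianRing_of_finite _ _
  obtain ⟨G, hG⟩ := IsNoetherian.noetherian (LinearMap.ker (diff C J))
  refine ⟨G, fun z hz => ?_⟩
  have hz' : z ∈ Submodule.span (MvPolynomial (Fin N) K) (G : Set _) := by rw [hG]; exact hz
  have hGker : ∀ x ∈ G, diff C J x = 0 := fun x hx => by
    have : x ∈ LinearMap.ker (diff C J) := by rw [← hG]; exact Submodule.subset_span hx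
    exact this
  suffices h : ∀ z ∈ Submodule.span (MvPolynomial (Fin N) K) (G : Set _),
      z ∈ (Submodule.span K (G : Set _)) ⊔ (LinearMap.range (diff C J)).restrictScalars K by
    obtain ⟨y, hy, r, ⟨w, rfl⟩, h'⟩ := Submodule.mem_sup.1 (h z hz')
    exact ⟨w, by rw [← h', add_sub_cancel_right]; exact hy⟩
  intro z hz
  induction hz using Submodule.span_induction with
  | mem x hx => exact Submodule.mem_sup_left (Submodule.subset_span hx)
  | zero => exact zero_mem _
  | add x y _ _ hx hy => exact add_mem hx hy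
  | smul p x _ hx =>
    induction p using MvPolynomial.induction_on with
    | C c =>
      rw [← algebraMap_eq, algebraMap_smul]
      exact Submodule.smul_mem _ _ hx
    | add p q hp hq => rw [add_smul]; exact add_mem hp hq
    | mul_X p t hp =>
      rw [mul_comm, mul_smul]
      refine Submodule.mem_sup_right ?_
      have hpx : diff C J (p • x) = 0 := by
        rename_i hxs
        have hk : x ∈ LinearMap.ker (diff C J) := by rw [← hG]; exact hxs
        rw [map_smul, LinearMap.mem_ker.1 hk, smul_zero]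
      exact cycle_smul_mem_range C φ hφ t (hcolon t) _ hpx

theorem euler_complex (V : ℕ → Type*) [∀ j, AddCommGroup (V j)] [∀ j, Module K (V j)]
    [∀ j, FiniteDimensional K (V j)] (d : ∀ j, V j →ₗ[K] V (j + 1))
    (h0 : LinearMap.ker (d 0) = ⊥) (hex : ∀ j, LinearMap.ker (d (j + 1)) = LinearMap.range (d j))
    (n : ℕ) (hn : Module.finrank K (V (n + 1)) = 0) :
    ∑ j ∈ Finset.range (n + 1), (-1 : ℤ) ^ j * Module.finrank K (V j) = 0 := by
  have h : ∀ m, ∑ j ∈ Finset.range (m + 1), (-1 : ℤ) ^ j * Module.finrank K (V j) =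
      (-1) ^ m * Module.finrank K (LinearMap.range (d m)) := by
    intro m
    induction m with
    | zero =>
      have := (d 0).finrank_range_add_finrank_ker
      rw [h0, finrank_bot, add_zero] at this
      simp [this]
    | succ m ih =>
      have := (d (m + 1)).finrank_range_add_finrank_ker
      rw [hex m] at this
      rw [Finset.sum_range_succ, ih, ← this, pow_succ]
      push_cast; ring
  rw [h n]
  have : Module.finrank K (LinearMap.range (d n)) = 0 :=
    Nat.le_zero.1 (hn ▸ Submodule.finrank_le _)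
  rw [this]; simp

theorem cliff_euler [Module.Finite (MvPolynomial (Fin N) K) M] (C : CliffMod K N β M)
    (φ : Fin N → MvPolynomial (Fin N) K)
    (hφ : ∀ t, φ t = ∑ k, ∑ l, β t k l • (X k * X l))
    (hhom : ∀ t, (φ t).IsHomogeneous 2)
    (hcolon : ∀ T u, φ T * u ∈ Ideal.span (φ '' {t | t ≠ T}) →
      u ∈ Ideal.span (φ '' {t | t ≠ T}))
    [FiniteDimensional K (MvPolynomial (Fin N) K ⧸ Ideal.span (Set.range φ))]
    (hdim : ∀ j, Module.finrank K (quotPiece (Ideal.span (Set.range φ)) j) = N.choose j) :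
    ∃ s0, ∀ s, s0 ≤ s →
      dltN N (fun s => (Module.finrank K (LinearMap.range (C.pr s)) : ℤ)) s = 0 := by
  set J := Ideal.span (Set.range φ)
  have hJ : IsHomIdeal J := isHomIdeal_span _ (by rintro _ ⟨t, rfl⟩; exact ⟨2, hhom t⟩)
  have := C.pr_fin
  obtain ⟨G, hG⟩ := cycles_le C φ hφ hcolon
  have hbd : ∀ x : M ⊗[K] (MvPolynomial (Fin N) K ⧸ J), ∃ b, ∀ s, b ≤ s → ∀ j,
      TensorProduct.map (C.pr s) (quotProj J hJ j) x = 0 := by
    intro x
    induction x using TensorProduct.induction_on with
    | zero => exact ⟨0, fun s _ j => map_zero _⟩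
    | tmul m a =>
      obtain ⟨b, hb⟩ := C.pr_bdd m
      exact ⟨b, fun s hs j => by rw [map_tmul, hb s hs, zero_tmul]⟩
    | add x y hx hy =>
      obtain ⟨b1, h1⟩ := hx
      obtain ⟨b2, h2⟩ := hy
      exact ⟨max b1 b2, fun s hs j => by
        rw [map_add, h1 s (le_trans (le_max_left _ _) hs) j,
          h2 s (le_trans (le_max_right _ _) hs) j, add_zero]⟩
  choose b hb using hbd
  set s0 := G.sup b
  refine ⟨s0, fun s hs => ?_⟩
  have pr_mem : ∀ s k (m : LinearMap.range (C.pr s)),
      (C.e k).restrictScalars K ((LinearMap.range (C.pr s)).subtype m)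
        ∈ LinearMap.range (C.pr (s + 1)) := by
    rintro s k ⟨_, m, rfl⟩
    exact ⟨C.e k m, C.pr_e s k m⟩
  have mul_mem : ∀ j k (a : quotPiece J j),
      mulQ J (X k) ((quotPiece J j).subtype a) ∈ quotPiece J (j + 1) := by
    rintro j k ⟨_, p, hp, rfl⟩
    refine ⟨X k * p, ?_, by simp [mulQ]⟩
    have := (isHomogeneous_X K k).mul ((mem_homogeneousSubmodule _ _).1 hp)
    rwa [add_comm] at this
  let V : ℕ → Type _ := fun j => LinearMap.range (C.pr (s + j)) ⊗[K] quotPiece J j
  let d : ∀ j, V j →ₗ[K] V (j + 1) := fun j => ∑ k, TensorProduct.map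
    (LinearMap.codRestrict (LinearMap.range (C.pr (s + j + 1)))
      ((C.e k).restrictScalars K ∘ₗ (LinearMap.range (C.pr (s + j))).subtype) (pr_mem (s + j) k))
    (LinearMap.codRestrict (quotPiece J (j + 1))
      (mulQ J (X k) ∘ₗ (quotPiece J j).subtype) (mul_mem j k))
  let ι : ∀ j, V j →ₗ[K] M ⊗[K] (MvPolynomial (Fin N) K ⧸ J) := fun j =>
    TensorProduct.map (LinearMap.range (C.pr (s + j))).subtype (quotPiece J j).subtype
  have hι : ∀ j, Function.Injective (ι j) := fun j =>
    TensorProduct.map_injective_of_flat_flat _ _ (Submodule.injective_subtype _)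
      (Submodule.injective_subtype _)
  have hιd : ∀ j y, ι (j + 1) (d j y) = diff C J (ι j y) := by
    intro j y
    induction y using TensorProduct.induction_on with
    | zero => simp
    | tmul m a =>
      show ι (j + 1) ((∑ k, _ : V j →ₗ[K] V (j + 1)) (m ⊗ₜ[K] a)) =
        diff C J ((m : M) ⊗ₜ[K] (a : MvPolynomial (Fin N) K ⧸ J))
      rw [LinearMap.sum_apply, map_sum, diff_tmul]
      exact Finset.sum_congr rfl (fun k _ => rfl)
    | add x y hx hy => simp [hx, hy]
  have hd0 : ∀ y : M ⊗[K] (MvPolynomial (Fin N) K ⧸ J),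
      TensorProduct.map (C.pr s) (quotProj J hJ 0) (diff C J y) = 0 := by
    intro y
    induction y using TensorProduct.induction_on with
    | zero => simp
    | tmul m a =>
      obtain ⟨p, rfl⟩ := Ideal.Quotient.mk_surjective a
      simp only [diff_tmul, map_sum, map_tmul, ← map_mul, quotProj_mk,
        homogeneousComponent_zero_X_mul, map_zero, tmul_zero, Finset.sum_const_zero]
    | add x y hx hy => simp [hx, hy]
  have hdj : ∀ j y, TensorProduct.map (C.pr (s + j + 1)) (quotProj J hJ (j + 1)) (diff C J y) =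
      diff C J (TensorProduct.map (C.pr (s + j)) (quotProj J hJ j) y) := by
    intro j y
    induction y using TensorProduct.induction_on with
    | zero => simp
    | tmul m a =>
      obtain ⟨p, rfl⟩ := Ideal.Quotient.mk_surjective a
      simp only [diff_tmul, map_sum, map_tmul, ← map_mul, quotProj_mk,
        homogeneousComponent_succ_X_mul, C.pr_e]
    | add x y hx hy => simp [hx, hy]
  have hπι : ∀ j y, TensorProduct.map (C.pr (s + j)) (quotProj J hJ j) (ι j y) = ι j y := by
    intro j y
    induction y using TensorProduct.induction_on with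
    | zero => simp
    | tmul m a =>
      obtain ⟨_, m', rfl⟩ := m
      show TensorProduct.map (C.pr (s + j)) (quotProj J hJ j)
          (C.pr (s + j) m' ⊗ₜ[K] (a : MvPolynomial (Fin N) K ⧸ J)) =
        C.pr (s + j) m' ⊗ₜ[K] (a : MvPolynomial (Fin N) K ⧸ J)
      rw [map_tmul, C.pr_idem, quotProj_of_mem J hJ j a.2]
    | add x y hx hy => simp [hx, hy]
  have hrange : ∀ j y, ∃ v : V j,
      ι j v = TensorProduct.map (C.pr (s + j)) (quotProj J hJ j) y := by
    intro j y
    induction y using TensorProduct.induction_on with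
    | zero => exact ⟨0, by simp⟩
    | tmul m a =>
      exact ⟨⟨C.pr (s + j) m, m, rfl⟩ ⊗ₜ ⟨quotProj J hJ j a, quotProj_mem J hJ j a⟩, rfl⟩
    | add x y hx hy =>
      obtain ⟨v1, h1⟩ := hx
      obtain ⟨v2, h2⟩ := hy
      exact ⟨v1 + v2, by simp [h1, h2]⟩
  have hkill : ∀ j y, d j y = 0 → ∃ w,
      ι j y = TensorProduct.map (C.pr (s + j)) (quotProj J hJ j) (diff C J w) := by
    intro j y hy
    have hcy : diff C J (ι j y) = 0 := by rw [← hιd, hy, map_zero]
    obtain ⟨w, hw⟩ := hG _ hcy
    refine ⟨w, ?_⟩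
    have h0 : ∀ x ∈ Submodule.span K (G : Set _),
        TensorProduct.map (C.pr (s + j)) (quotProj J hJ j) x = 0 := by
      intro x hx
      induction hx using Submodule.span_induction with
      | mem x hx => exact hb x (s + j) (le_trans (Finset.le_sup hx) (by omega)) j
      | zero => exact map_zero _
      | add x y _ _ hx hy => rw [map_add, hx, hy, add_zero]
      | smul c x _ hx => rw [map_smul, hx, smul_zero]
    have := h0 _ hw
    rw [map_sub, sub_eq_zero, hπι] at this
    exact this
  have hN : Module.finrank K (V (N + 1)) = 0 := by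
    show Module.finrank K (_ ⊗[K] _) = 0
    rw [Module.finrank_tensorProduct, hdim, Nat.choose_succ_self, mul_zero]
  have hker0 : LinearMap.ker (d 0) = ⊥ := by
    rw [LinearMap.ker_eq_bot']
    intro y hy
    obtain ⟨w, hw⟩ := hkill 0 y hy
    apply hι 0
    rw [hw, map_zero]
    exact hd0 w
  have hexj : ∀ j, LinearMap.ker (d (j + 1)) = LinearMap.range (d j) := by
    intro j
    apply le_antisymm
    · intro y hy
      obtain ⟨w, hw⟩ := hkill (j + 1) y hy
      obtain ⟨v, hv⟩ := hrange j w
      refine ⟨v, hι (j + 1) ?_⟩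
      rw [hιd, hv, hw]
      exact (hdj j w).symm
    · rintro _ ⟨v, rfl⟩
      apply hι (j + 1 + 1)
      rw [hιd, hιd, map_zero]
      have hsq : ∀ z, diff C J (diff C J z) = 0 := by
        intro z
        induction z using TensorProduct.induction_on with
        | zero => simp
        | tmul m a =>
          rw [diff_diff C J φ hφ]
          exact Finset.sum_eq_zero (fun t _ => by
            have hmem : φ t ∈ J := Ideal.subset_span ⟨t, rfl⟩
            rw [Ideal.Quotient.eq_zero_iff_mem.2 hmem, zero_mul, tmul_zero])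
        | add x y hx hy => simp [hx, hy]
      exact hsq _
  have main := euler_complex V d hker0 hexj N hN
  rw [dltN_eq_sum]
  calc ∑ j ∈ Finset.range (N + 1), (-1 : ℤ) ^ (N - j) * (N.choose j : ℤ) *
        (Module.finrank K (LinearMap.range (C.pr (s + j))) : ℤ)
      = (-1) ^ N * ∑ j ∈ Finset.range (N + 1), (-1 : ℤ) ^ j * Module.finrank K (V j) := by
        rw [Finset.mul_sum]
        refine Finset.sum_congr rfl (fun j hj => ?_)
        have hj' : j ≤ N := by simpa [Nat.lt_succ_iff] using hj
        have hV : Module.finrank K (V j) =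
            Module.finrank K (LinearMap.range (C.pr (s + j))) * N.choose j := by
          show Module.finrank K (_ ⊗[K] _) = _
          rw [Module.finrank_tensorProduct, hdim]
        rw [hV]
        have : (-1 : ℤ) ^ (N - j) = (-1) ^ N * (-1) ^ j := by
          rw [← pow_add, show N + j = N - j + 2 * j by omega, pow_add, pow_mul]; simp
        rw [this]; push_cast; ring
    _ = 0 := by rw [main, mul_zero]

end Vale.Agent.P200
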