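import Vale.Agent.P200.Base

/-!
Extension of scalars for ideals of polynomial rings over a field.
-/

noncomputable section

namespace Vale.Agent.P200

open MvPolynomial

variable {σ ι K : Type*} [Field K] {R : Type*} [CommRing R] [Algebra K R]

/-- Apply a linear functional to every coefficient. -/
def mapCoeff (l : R →ₗ[K] K) : MvPolynomial σ R →ₗ[K] MvPolynomial σ K where
  toFun p := ∑ a ∈ p.support, monomial a (l (coeff a p))
  map_add' p q := by
    classical
    ext a
    simp only [coeff_sum, coeff_monomial, coeff_add, Finset.sum_ite_eq', MvPolynomial.mem_support_iff, ne_eq]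
    split_ifs <;> simp_all [← map_add]
  map_smul' r p := by
    classical
    ext a
    simp only [coeff_sum, coeff_monomial, coeff_smul, Finset.sum_ite_eq', MvPolynomial.mem_support_iff,
      ne_eq, RingHom.id_apply]
    split_ifs <;> simp_all

theorem coeff_mapCoeff (l : R →ₗ[K] K) (p : MvPolynomial σ R) (a : σ →₀ ℕ) :
    coeff a (mapCoeff l p) = l (coeff a p) := by
  classical
  simp only [mapCoeff, LinearMap.coe_mk, AddHom.coe_mk, coeff_sum, coeff_monomial,
    Finset.sum_ite_eq', MvPolynomial.mem_support_iff, ne_eq]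
  split_ifs <;> simp_all

theorem mapCoeff_mul_map (l : R →ₗ[K] K) (p : MvPolynomial σ R) (q : MvPolynomial σ K) :
    mapCoeff l (p * map (algebraMap K R) q) = mapCoeff l p * q := by
  classical
  ext a
  rw [coeff_mapCoeff, coeff_mul, coeff_mul, map_sum]
  refine Finset.sum_congr rfl fun x _ => ?_
  rw [coeff_map, coeff_mapCoeff, mul_comm, ← Algebra.smul_def, map_smul, smul_eq_mul, mul_comm]

theorem mapCoeff_map (l : R →ₗ[K] K) (q : MvPolynomial σ K) :
    mapCoeff l (map (algebraMap K R) q) = l 1 • q := by
  ext a
  rw [coeff_mapCoeff, coeff_map, coeff_smul, smul_eq_mul, Algebra.algebraMap_eq_smul_one, map_smul,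
    smul_eq_mul, mul_comm]

theorem mapCoeff_homogeneous (l : R →ₗ[K] K) {p : MvPolynomial σ R} {d : ℕ}
    (hp : p.IsHomogeneous d) : (mapCoeff l p).IsHomogeneous d := by
  intro a ha
  rw [coeff_mapCoeff] at ha
  exact hp (fun h => ha (by rw [h, map_zero]))

/-- The extension of an ideal to a larger coefficient ring. -/
def extI (R : Type*) [CommRing R] [Algebra K R] (J : Ideal (MvPolynomial σ K)) :
    Ideal (MvPolynomial σ R) :=
  J.map (map (algebraMap K R))

theorem extI_span (s : Set (MvPolynomial σ K)) :
    extI R (Ideal.span s) = Ideal.span (map (algebraMap K R) '' s) :=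
  Ideal.map_span _ _

theorem exists_decomp (p : MvPolynomial σ R) :
    ∃ (b : Module.Basis (Module.Free.ChooseBasisIndex K R) K R) (s : Finset (Module.Free.ChooseBasisIndex K R)),
      p = ∑ i ∈ s, C (b i) * map (algebraMap K R) (mapCoeff (b.coord i) p) := by
  classical
  let b := Module.Free.chooseBasis K R
  refine ⟨b, p.support.biUnion (fun a => (b.repr (coeff a p)).support), ?_⟩
  ext a
  simp only [coeff_sum, coeff_C_mul, coeff_map, coeff_mapCoeff, Module.Basis.coord_apply]
  conv_lhs => rw [← b.linearCombination_repr (coeff a p), Finsupp.linearCombination_apply, Finsupp.sum]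
  refine (Finset.sum_congr rfl (fun i _ => ?_)).trans
    (Finset.sum_subset ?_ (fun i _ hi => ?_))
  · rw [mul_comm, ← Algebra.smul_def]
  · intro i hi
    exact Finset.mem_biUnion.2 ⟨a, MvPolynomial.mem_support_iff.2 (fun h => by simp [h] at hi), hi⟩
  · rw [Finsupp.notMem_support_iff.1 hi, map_zero, mul_zero]

theorem mem_extI {J : Ideal (MvPolynomial σ K)} {p : MvPolynomial σ R} :
    p ∈ extI R J ↔ ∀ l : R →ₗ[K] K, mapCoeff l p ∈ J := by
  constructor
  · intro hp
    suffices H : ∀ a : MvPolynomial σ R, ∀ l : R →ₗ[K] K, mapCoeff l (a * p) ∈ J by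
      intro l; simpa using H 1 l
    change p ∈ Ideal.span (map (algebraMap K R) '' (J : Set (MvPolynomial σ K))) at hp
    induction hp using Submodule.span_induction with
    | mem x hx =>
      obtain ⟨q, hq, rfl⟩ := hx
      intro a l; rw [mapCoeff_mul_map]; exact J.mul_mem_left _ hq
    | zero => intro a l; simp
    | add x y _ _ hx hy => intro a l; rw [mul_add, map_add]; exact J.add_mem (hx a l) (hy a l)
    | smul c x _ hx => intro a l; rw [smul_eq_mul, ← mul_assoc]; exact hx _ l
  · intro h
    obtain ⟨b, s, hs⟩ := exists_decomp (K := K) p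
    rw [hs]
    exact Submodule.sum_mem _ fun i _ => Ideal.mul_mem_left _ _ (Ideal.mem_map_of_mem _ (h _))

theorem StrongReg.extend {f : ι → MvPolynomial σ K} (hf : StrongReg f) :
    StrongReg (fun i => map (algebraMap K R) (f i)) := by
  intro S t ht g hg
  have e : (fun i => map (algebraMap K R) (f i)) '' S = map (algebraMap K R) '' (f '' S) := by
    rw [Set.image_image]
  rw [e, ← extI_span, mem_extI] at hg ⊢
  intro l
  refine hf S t ht _ ?_
  rw [← mapCoeff_mul_map]
  exact hg l

variable {L : Type*} [Field L] [Algebra K L]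

theorem isHomIdeal_extI {J : Ideal (MvPolynomial σ K)} (hJ : IsHomIdeal J) :
    IsHomIdeal (extI L J) := by
  intro p hp d
  rw [mem_extI] at hp ⊢
  intro l
  have e : mapCoeff l (homogeneousComponent d p) = homogeneousComponent d (mapCoeff l p) := by
    ext a
    simp only [coeff_mapCoeff, coeff_homogeneousComponent]
    split_ifs <;> simp
  rw [e]; exact hJ _ (hp l) d

theorem finrank_piece_extI [Finite σ] (J : Ideal (MvPolynomial σ K)) (d : ℕ) :
    Module.finrank L (piece (extI L J) d) = Module.finrank K (piece J d) := by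
  classical
  let bas := Module.finBasis K (piece J d)
  let v : Fin (Module.finrank K (piece J d)) → MvPolynomial σ L :=
    fun i => map (algebraMap K L) (bas i).1
  have hv : ∀ i, v i ∈ piece (extI L J) d := fun i =>
    ⟨Ideal.mem_map_of_mem _ (bas i).2.1, (bas i).2.2.map _⟩
  have hli : LinearIndependent L v := by
    rw [Fintype.linearIndependent_iff]
    intro g hg i
    refine (Module.forall_dual_apply_eq_zero_iff K (g i)).1 (fun l => ?_)
    have h := congrArg (mapCoeff l) hg
    rw [map_sum, map_zero] at h
    have h2 : ∑ i, l (g i) • bas i = 0 := by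
      apply Subtype.ext
      rw [Submodule.coe_sum, Submodule.coe_zero, ← h]
      refine Finset.sum_congr rfl fun j _ => ?_
      show l (g j) • (bas j).1 = mapCoeff l (g j • map (algebraMap K L) (bas j).1)
      rw [smul_eq_C_mul (a := g j), mapCoeff_mul_map, smul_eq_C_mul]
      congr 1
      ext a
      rw [coeff_mapCoeff, coeff_C, coeff_C]
      split_ifs <;> simp
    exact Fintype.linearIndependent_iff.1 bas.linearIndependent _ h2 i
  have hsp : piece (extI L J) d = Submodule.span L (Set.range v) := by
    refine le_antisymm (fun p hp => ?_) (Submodule.span_le.2 (by rintro _ ⟨i, rfl⟩; exact hv i))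
    obtain ⟨b, s, hs⟩ := exists_decomp (K := K) p
    rw [hs]
    refine Submodule.sum_mem _ fun j _ => ?_
    rw [← smul_eq_C_mul]
    refine Submodule.smul_mem _ _ ?_
    have hq : mapCoeff (b.coord j) p ∈ piece J d :=
      ⟨mem_extI.1 hp.1 _, mapCoeff_homogeneous _ hp.2⟩
    have := congrArg (fun z : piece J d => map (algebraMap K L) (z : MvPolynomial σ K))
      (bas.sum_repr ⟨_, hq⟩)
    simp only [Submodule.coe_sum, map_sum] at this
    rw [← this]
    refine Submodule.sum_mem _ fun i _ => ?_
    have e : map (algebraMap K L) ((bas.repr ⟨_, hq⟩ i • bas i : piece J d) : MvPolynomial σ K) =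
        algebraMap K L (bas.repr ⟨_, hq⟩ i) • v i := by
      rw [algebraMap_smul]
      show map (algebraMap K L) (bas.repr ⟨_, hq⟩ i • (bas i).1) = _ • map (algebraMap K L) (bas i).1
      ext a
      simp [coeff_map, Algebra.smul_def]
    rw [e]
    exact Submodule.smul_mem _ _ (Submodule.subset_span ⟨i, rfl⟩)
  rw [hsp, finrank_span_eq_card hli, Fintype.card_fin]

end Vale.Agent.P200
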