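import Mathlib

/-!
Pivots of subspaces over division rings and products of anticommuting square-zero elements.
-/

noncomputable section

namespace Vale.Agent.P200

section Pivot

variable {D : Type*} [DivisionRing D] {ι : Type*} (w : ι → ℕ)

/-- `i` is the position of a leading coefficient of the subspace. -/
def IsPivot (U : Submodule D (ι → D)) (i : ι) : Prop :=
  ∃ u ∈ U, u i ≠ 0 ∧ ∀ k, w k < w i → u k = 0

theorem ncard_pivot [Fintype ι] (hw : Function.Injective w) (U : Submodule D (ι → D)) :
    {i | IsPivot w U i}.ncard = Module.finrank D U := by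
  classical
  set Pv := {i | IsPivot w U i} with hPv
  rw [← Nat.card_coe_set_eq, Nat.card_eq_fintype_card]
  apply le_antisymm
  · choose u hu h1 h2 using fun i : Pv => i.2
    have hli : LinearIndependent D (fun i : Pv => (⟨u i, hu i⟩ : U)) := by
      rw [Fintype.linearIndependent_iff]
      intro g hg
      by_contra hne
      push Not at hne
      obtain ⟨i0, hi0, hmin⟩ := Finset.exists_min_image
        (Finset.univ.filter fun i : Pv => g i ≠ 0) (fun i => w i.1)
        (by obtain ⟨i, hi⟩ := hne; exact ⟨i, by simpa using hi⟩)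
      simp only [Finset.mem_filter, Finset.mem_univ, true_and] at hi0 hmin
      have h := congrFun (congrArg Subtype.val hg) i0.1
      simp only [Submodule.coe_sum, Submodule.coe_smul, Finset.sum_apply, Pi.smul_apply,
        smul_eq_mul, Submodule.coe_zero, Pi.zero_apply] at h
      rw [Finset.sum_eq_single i0] at h
      · exact hi0 ((mul_eq_zero.1 h).resolve_right (h1 i0))
      · intro i _ hi
        by_cases hg0 : g i = 0
        · rw [hg0, zero_mul]
        · have hlt : w i0.1 < w i.1 := lt_of_le_of_ne (hmin i hg0)
            (fun e => hi (Subtype.ext (hw e).symm))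
          rw [h2 i _ hlt, mul_zero]
      · simp
    exact hli.fintype_card_le_finrank
  · let g : U →ₗ[D] (Pv → D) := (LinearMap.funLeft D D (Subtype.val : Pv → ι)).comp U.subtype
    have hg : Function.Injective g := by
      rw [← LinearMap.ker_eq_bot, LinearMap.ker_eq_bot']
      intro x hx
      by_contra hne
      have : ∃ i, x.1 i ≠ 0 := by
        by_contra h
        push Not at h
        exact hne (Subtype.ext (funext h))
      obtain ⟨i0, hi0, hmin⟩ := Finset.exists_min_image
        (Finset.univ.filter fun i => x.1 i ≠ 0) w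
        (by obtain ⟨i, hi⟩ := this; exact ⟨i, by simpa using hi⟩)
      simp only [Finset.mem_filter, Finset.mem_univ, true_and] at hi0 hmin
      have hp : i0 ∈ Pv := ⟨x.1, x.2, hi0, fun k hk => by
        by_contra h; exact absurd (hmin k h) (not_le.2 hk)⟩
      exact hi0 (congrFun hx ⟨i0, hp⟩)
    have := LinearMap.finrank_le_finrank_of_injective hg
    rwa [Module.finrank_pi] at this

end Pivot

section Anti

variable {R : Type*} [Ring R]

/-- equality up to sign -/
def PM (x y : R) : Prop := x = y ∨ x = -y

theorem PM.refl (x : R) : PM x x := Or.inl rfl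

theorem PM.trans {x y z : R} (h : PM x y) (h' : PM y z) : PM x z := by
  rcases h with rfl | rfl <;> rcases h' with rfl | rfl <;> simp [PM]

theorem PM.symm {x y : R} (h : PM x y) : PM y x := by
  rcases h with rfl | rfl <;> simp [PM]

theorem PM.mul_left {x y : R} (a : R) (h : PM x y) : PM (a * x) (a * y) := by
  rcases h with rfl | rfl <;> simp [PM]

theorem PM.mul_right {x y : R} (a : R) (h : PM x y) : PM (x * a) (y * a) := by
  rcases h with rfl | rfl <;> simp [PM]

theorem PM.zero {x : R} (h : PM x 0) : x = 0 := by rcases h with h | h <;> simpa using h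

variable (L : ℕ → R)

/-- decreasing product over the members of `S` below `m` -/
def pr : ℕ → Finset ℕ → R
  | 0, _ => 1
  | m + 1, S => (if m ∈ S then L m else 1) * pr m S

theorem pr_congr : ∀ (m : ℕ) {S S' : Finset ℕ}, (∀ i < m, i ∈ S ↔ i ∈ S') →
    pr L m S = pr L m S'
  | 0, _, _, _ => rfl
  | m + 1, S, S', h => by
    simp only [pr, pr_congr m (fun i hi => h i (Nat.lt_succ_of_lt hi))]
    simp [h m (Nat.lt_succ_self m)]

variable {L} (hsq : ∀ i, L i * L i = 0) (hanti : ∀ i j, i ≠ j → L i * L j = -(L j * L i))

include hanti in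
theorem pr_comm : ∀ (m : ℕ) (S : Finset ℕ) (i : ℕ), m ≤ i → PM (pr L m S * L i) (L i * pr L m S)
  | 0, _, i, _ => by simp [pr, PM]
  | m + 1, S, i, hi => by
    simp only [pr]
    refine PM.trans (y := (if m ∈ S then L m else 1) * (L i * pr L m S)) ?_ ?_
    · rw [mul_assoc]; exact (pr_comm m S i (by omega)).mul_left _
    · rw [← mul_assoc, ← mul_assoc]
      refine PM.mul_right _ ?_
      split_ifs
      · exact Or.inr (hanti m i (by omega))
      · simp [PM]

include hsq hanti in
theorem pr_mul_L : ∀ (m : ℕ) (S : Finset ℕ) (i : ℕ), i < m →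
    (i ∈ S → pr L m S * L i = 0) ∧ (i ∉ S → PM (pr L m S * L i) (pr L m (insert i S)))
  | 0, _, i, hi => absurd hi (Nat.not_lt_zero i)
  | m + 1, S, i, hi => by
    simp only [pr]
    rcases Nat.lt_or_ge i m with h | h
    · obtain ⟨h0, h1⟩ := pr_mul_L m S i h
      refine ⟨fun hS => by rw [mul_assoc, h0 hS, mul_zero], fun hS => ?_⟩
      have hm : m ≠ i := by omega
      simp only [Finset.mem_insert, hm, false_or]
      rw [mul_assoc]
      exact (h1 hS).mul_left _
    · obtain rfl : i = m := by omega
      refine ⟨fun hS => ?_, fun hS => ?_⟩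
      · rw [if_pos hS]
        apply PM.zero
        rw [mul_assoc]
        refine ((pr_comm hanti i S i le_rfl).mul_left (L i)).trans ?_
        rw [← mul_assoc, hsq, zero_mul]
        exact PM.refl _
      · rw [if_neg hS, one_mul, if_pos (Finset.mem_insert_self i S),
          pr_congr L i (S := insert i S) (S' := S)
            (fun j hj => by simp [Finset.mem_insert, (show j ≠ i by omega)])]
        exact pr_comm hanti i S i le_rfl

include hsq hanti in
theorem pr_mul_pr : ∀ (k m : ℕ) (S T : Finset ℕ), k ≤ m →
    ((∃ i < k, i ∈ S ∧ i ∈ T) → pr L m S * pr L k T = 0) ∧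
    ((∀ i < k, i ∈ S → i ∉ T) → PM (pr L m S * pr L k T) (pr L m (S ∪ T.filter (· < k))))
  | 0, m, S, T, _ => by
    refine ⟨fun ⟨i, hi, _⟩ => absurd hi (Nat.not_lt_zero i), fun _ => ?_⟩
    simp [pr, PM]
  | k + 1, m, S, T, hk => by
    simp only [pr]
    by_cases hT : k ∈ T
    · rw [if_pos hT, ← mul_assoc]
      obtain ⟨h0, h1⟩ := pr_mul_L hsq hanti m S k (by omega)
      by_cases hS : k ∈ S
      · rw [h0 hS, zero_mul]
        exact ⟨fun _ => rfl, fun h => absurd hT (h k (Nat.lt_succ_self k) hS)⟩
      · obtain ⟨g0, g1⟩ := pr_mul_pr k m (insert k S) T (by omega)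
        refine ⟨fun ⟨i, hi, hiS, hiT⟩ => ?_, fun h => ?_⟩
        · apply PM.zero
          refine ((h1 hS).mul_right _).trans ?_
          rw [g0 ⟨i, by rcases Nat.lt_succ_iff_lt_or_eq.1 hi with h | rfl; exacts [h, absurd hiS hS],
            Finset.mem_insert_of_mem hiS, hiT⟩]
          exact PM.refl _
        · refine ((h1 hS).mul_right _).trans ((g1 fun i hi hiS => h i (by omega)
            ((Finset.mem_insert.1 hiS).resolve_left (by omega))).trans ?_)
          rw [pr_congr L m (S' := S ∪ T.filter (· < k + 1))]
          · exact PM.refl _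
          · intro i _
            simp only [Finset.mem_union, Finset.mem_insert, Finset.mem_filter]
            constructor
            · rintro ((rfl | h) | ⟨h, h'⟩)
              · exact Or.inr ⟨hT, by omega⟩
              · exact Or.inl h
              · exact Or.inr ⟨h, by omega⟩
            · rintro (h | ⟨h, h'⟩)
              · exact Or.inl (Or.inr h)
              · rcases Nat.lt_succ_iff_lt_or_eq.1 h' with h' | rfl
                · exact Or.inr ⟨h, h'⟩
                · exact Or.inl (Or.inl rfl)
    · rw [if_neg hT, one_mul]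
      obtain ⟨g0, g1⟩ := pr_mul_pr k m S T (by omega)
      refine ⟨fun ⟨i, hi, hiS, hiT⟩ => g0 ⟨i, ?_, hiS, hiT⟩, fun h => ?_⟩
      · rcases Nat.lt_succ_iff_lt_or_eq.1 hi with h | rfl
        exacts [h, absurd hiT hT]
      · refine (g1 fun i hi => h i (by omega)).trans ?_
        rw [pr_congr L m (S' := S ∪ T.filter (· < k + 1))]
        · exact PM.refl _
        · intro i _
          simp only [Finset.mem_union, Finset.mem_filter]
          constructor
          · rintro (h | ⟨h, h'⟩)
            exacts [Or.inl h, Or.inr ⟨h, by omega⟩]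
          · rintro (hs | ⟨ht, h'⟩)
            · exact Or.inl hs
            · rcases Nat.lt_succ_iff_lt_or_eq.1 h' with h' | rfl
              exacts [Or.inr ⟨ht, h'⟩, absurd ht hT]

end Anti

end Vale.Agent.P200
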