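import Vale.Agent.P200.Sys
import Vale.Agent.P200.Pivot

/-!
Leading sets of the ideals containing a full regular system of quadrics.
-/

noncomputable section

namespace Vale.Agent.P200

open MvPolynomial TensorProduct

universe u

local instance (priority := 10000) quotCommRing {K : Type u} [Field K] {n : ℕ}
    (J : Ideal (MvPolynomial (Fin n) K)) : CommRing (MvPolynomial (Fin n) K ⧸ J) :=
  Ideal.Quotient.commRing J

variable {K : Type u} [Field K] {D : Type u} [DivisionRing D] [Algebra K D] {n : ℕ}
  (J : Ideal (MvPolynomial (Fin n) K))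

/-- The quotient with coefficients in the division algebra. -/
abbrev TA (D : Type u) [DivisionRing D] [Algebra K D] (J : Ideal (MvPolynomial (Fin n) K)) : Type u :=
  D ⊗[K] (MvPolynomial (Fin n) K ⧸ J)

theorem smul_eq_tmul_mul (c : D) (z : TA D J) : c • z = (c ⊗ₜ[K] 1) * z := by
  induction z using TensorProduct.induction_on with
  | zero => rw [smul_zero, mul_zero]
  | tmul d a => rw [TensorProduct.smul_tmul', Algebra.TensorProduct.tmul_mul_tmul, one_mul, smul_eq_mul]
  | add x y hx hy => rw [smul_add, mul_add, hx, hy]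

theorem smul_mul_TA (c : D) (z z' : TA D J) : c • z * z' = c • (z * z') := by
  rw [smul_eq_tmul_mul, smul_eq_tmul_mul, mul_assoc]

/-- Apply a functional to the right factor. -/
def applyR (μ : (MvPolynomial (Fin n) K ⧸ J) →ₗ[K] K) : TA D J →ₗ[D] D where
  toFun z := TensorProduct.rid K D (LinearMap.lTensor D μ z)
  map_add' x y := by simp only [map_add]
  map_smul' c z := by
    induction z using TensorProduct.induction_on with
    | zero => simp only [smul_zero, map_zero]
    | tmul d a =>
      simp only [TensorProduct.smul_tmul', smul_eq_mul, LinearMap.lTensor_tmul,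
        TensorProduct.rid_tmul, RingHom.id_apply, Algebra.mul_smul_comm]
    | add x y hx hy => simp only [smul_add, map_add, hx, hy]

theorem applyR_tmul (μ : (MvPolynomial (Fin n) K ⧸ J) →ₗ[K] K) (d : D) (a) :
    applyR J μ (d ⊗ₜ[K] a) = μ a • d := by
  simp [applyR]

/-- The left span of a subspace of the quotient. -/
def spanT (V : Submodule K (MvPolynomial (Fin n) K ⧸ J)) : Submodule D (TA D J) :=
  Submodule.span D ((fun a => (1 : D) ⊗ₜ[K] a) '' (V : Set (MvPolynomial (Fin n) K ⧸ J)))

theorem tmul_mem_spanT {V : Submodule K (MvPolynomial (Fin n) K ⧸ J)} {a} (ha : a ∈ V) (d : D) :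
    d ⊗ₜ[K] a ∈ spanT J (D := D) V := by
  have : d ⊗ₜ[K] a = d • ((1 : D) ⊗ₜ[K] a : TA D J) := by
    rw [TensorProduct.smul_tmul', smul_eq_mul, mul_one]
  rw [this]
  exact Submodule.smul_mem _ _ (Submodule.subset_span ⟨a, ha, rfl⟩)

theorem spanT_mono {V V' : Submodule K (MvPolynomial (Fin n) K ⧸ J)} (h : V ≤ V') :
    spanT J (D := D) V ≤ spanT J V' :=
  Submodule.span_mono (Set.image_mono h)

theorem spanT_finite_finrank (V : Submodule K (MvPolynomial (Fin n) K ⧸ J)) [FiniteDimensional K V] :
    Module.Finite D (spanT J (D := D) V) ∧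
      Module.finrank D (spanT J (D := D) V) = Module.finrank K V := by
  classical
  let b := Module.finBasis K V
  let v : Fin (Module.finrank K V) → TA D J := fun i => (1 : D) ⊗ₜ[K] (b i).1
  have hsp : spanT J (D := D) V = Submodule.span D (Set.range v) := by
    refine le_antisymm (Submodule.span_le.2 ?_) (Submodule.span_le.2 ?_)
    · rintro _ ⟨a, ha, rfl⟩
      have h := congrArg Subtype.val (b.sum_repr ⟨a, ha⟩)
      rw [Submodule.coe_sum] at h
      show (1 : D) ⊗ₜ[K] a ∈ _
      simp only at h
      rw [← h, TensorProduct.tmul_sum]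
      refine Submodule.sum_mem _ fun i _ => ?_
      rw [Submodule.coe_smul, TensorProduct.tmul_smul, ← algebraMap_smul D]
      exact Submodule.smul_mem _ _ (Submodule.subset_span ⟨i, rfl⟩)
    · rintro _ ⟨i, rfl⟩; exact tmul_mem_spanT J (b i).2 1
  have hli : LinearIndependent D v := by
    rw [Fintype.linearIndependent_iff]
    intro g hg i
    obtain ⟨μ, hμ⟩ := LinearMap.exists_extend (b.coord i)
    have h := congrArg (applyR J μ) hg
    rw [map_sum, map_zero, Finset.sum_eq_single i] at h
    · rw [map_smul, applyR_tmul] at h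
      have e : μ (b i).1 = 1 := by
        have := LinearMap.congr_fun hμ (b i)
        simpa using this
      rw [e, one_smul, smul_eq_mul, mul_one] at h
      exact h
    · intro j _ hj
      rw [map_smul, applyR_tmul]
      have e : μ (b j).1 = 0 := by
        have := LinearMap.congr_fun hμ (b j)
        simpa [Finsupp.single_eq_of_ne (Ne.symm hj)] using this
      rw [e, zero_smul, smul_zero]
    · simp
  rw [hsp]
  exact ⟨Module.Finite.span_of_finite D (Set.finite_range v),
    by rw [finrank_span_eq_card hli, Fintype.card_fin]⟩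

/-- Image of an ideal in a graded piece of the quotient. -/
def imgPiece (I : Ideal (MvPolynomial (Fin n) K)) (j : ℕ) :
    Submodule K (MvPolynomial (Fin n) K ⧸ J) :=
  (piece I j).map (Ideal.Quotient.mkₐ K J).toLinearMap

theorem finrank_imgPiece {I : Ideal (MvPolynomial (Fin n) K)} (hJI : J ≤ I) (j : ℕ) :
    Module.finrank K (imgPiece J I j) + Module.finrank K (piece J j) =
      Module.finrank K (piece I j) := by
  set L := (Ideal.Quotient.mkₐ K J).toLinearMap ∘ₗ (piece I j).subtype
  have h1 : LinearMap.range L = imgPiece J I j := by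
    rw [LinearMap.range_comp, Submodule.range_subtype]; rfl
  have h2 : (LinearMap.ker L).map (piece I j).subtype = piece J j := by
    ext p
    constructor
    · rintro ⟨q, hq, rfl⟩
      exact ⟨Ideal.Quotient.eq_zero_iff_mem.1 hq, q.2.2⟩
    · rintro ⟨hp, hp'⟩
      exact ⟨⟨p, hJI hp, hp'⟩, Ideal.Quotient.eq_zero_iff_mem.2 hp, rfl⟩
  rw [← L.finrank_range_add_finrank_ker, h1, ← h2, Submodule.finrank_map_subtype_eq]

/-- The linear forms with coefficients in the division algebra. -/
def ell (e : Fin n → Fin n → D) (i : ℕ) : TA D J :=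
  if h : i < n then ∑ v, e ⟨i, h⟩ v ⊗ₜ[K] Ideal.Quotient.mk J (X v) else 0

theorem mul_ell_mem {I : Ideal (MvPolynomial (Fin n) K)} (e : Fin n → Fin n → D) (i j : ℕ)
    {z : TA D J} (hz : z ∈ spanT J (imgPiece J I j)) :
    z * ell J e i ∈ spanT J (imgPiece J I (j + 1)) := by
  induction hz using Submodule.span_induction with
  | mem x hx =>
    obtain ⟨_, ⟨p, hp, rfl⟩, rfl⟩ := hx
    unfold ell
    split_ifs with h
    · rw [Finset.mul_sum]
      refine Submodule.sum_mem _ fun v _ => ?_
      rw [Algebra.TensorProduct.tmul_mul_tmul, one_mul]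
      refine tmul_mem_spanT J (V := imgPiece J I (j + 1))
        ⟨p * X v, ⟨I.mul_mem_right _ hp.1, hp.2.mul (isHomogeneous_X K v)⟩, ?_⟩ _
      simp
    · rw [mul_zero]; exact zero_mem _
  | zero => rw [zero_mul]; exact zero_mem _
  | add x y _ _ hx hy => rw [add_mul]; exact add_mem hx hy
  | smul c x _ hx => rw [smul_mul_TA]; exact Submodule.smul_mem _ _ hx

/-- Binary weight. -/
def bw (S : Finset (Fin n)) : ℕ := ∑ i ∈ S, 2 ^ (i : ℕ)

theorem bw_injective : Function.Injective (bw (n := n)) := by
  intro S T h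
  apply Finset.map_injective Fin.valEmbedding
  apply Finset.geomSum_injective (le_refl 2)
  simpa [bw, Finset.sum_map] using h

/-- A graded independent family fills up a subspace of the same dimension in each degree. -/
theorem graded_fill {D M : Type*} [DivisionRing D] [AddCommGroup M] [Module D M] {n : ℕ}
    (P : Finset (Fin n) → M) (hinj : Function.Injective (Fintype.linearCombination D P)) (j : ℕ)
    (W : Submodule D M) [Module.Finite D W] (hW : Module.finrank D W = n.choose j)
    (hP : ∀ S : Finset (Fin n), S.card = j → P S ∈ W) :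
    W ≤ LinearMap.range (Fintype.linearCombination D P) ∧
      ∀ c, Fintype.linearCombination D P c ∈ W → ∀ S : Finset (Fin n), c S ≠ 0 → S.card = j := by
  classical
  let emb : ({S : Finset (Fin n) // S.card = j} → D) →ₗ[D] (Finset (Fin n) → D) :=
    { toFun := fun c S => if h : S.card = j then c ⟨S, h⟩ else 0
      map_add' := fun a b => by funext S; by_cases h : S.card = j <;> simp [h]
      map_smul' := fun r a => by funext S; by_cases h : S.card = j <;> simp [h] }
  have hemb : Function.Injective emb := fun a b hab => by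
    funext S
    have := congrFun hab S.1
    simpa [emb, S.2] using this
  let g := (Fintype.linearCombination D P).comp emb
  have hg : LinearMap.range g ≤ W := by
    rintro _ ⟨c, rfl⟩
    show Fintype.linearCombination D P (emb c) ∈ W
    rw [Fintype.linearCombination_apply]
    refine Submodule.sum_mem _ fun S _ => ?_
    by_cases h : S.card = j
    · exact Submodule.smul_mem _ _ (hP S h)
    · have : emb c S = 0 := dif_neg h
      rw [this, zero_smul]; exact zero_mem _
  have heq : LinearMap.range g = W := by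
    refine Submodule.eq_of_le_of_finrank_le hg (le_of_eq ?_)
    have hginj : Function.Injective g := fun a b hab => hemb (hinj hab)
    rw [LinearMap.finrank_range_of_inj hginj, Module.finrank_pi,
      Fintype.card_finset_len, Fintype.card_fin, hW]
  refine ⟨fun z hz => ?_, fun c hc S hS => ?_⟩
  · rw [← heq] at hz
    obtain ⟨c, rfl⟩ := hz
    exact ⟨emb c, rfl⟩
  · rw [← heq] at hc
    obtain ⟨c', hc'⟩ := hc
    obtain rfl : emb c' = c := hinj hc'
    by_contra h
    exact hS (dif_neg h)

/-- Counting pivots of the pullback of a subspace. -/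
theorem ncard_pivot_comap {D M : Type*} [DivisionRing D] [AddCommGroup M] [Module D M] {n : ℕ}
    (P : Finset (Fin n) → M) (hinj : Function.Injective (Fintype.linearCombination D P)) (j : ℕ)
    (U : Finset (Fin n) → Submodule D M) (V : Submodule D M)
    (hU : ∀ S, S.card = j → U S = V)
    (hV : V ≤ LinearMap.range (Fintype.linearCombination D P))
    (hsupp : ∀ c, Fintype.linearCombination D P c ∈ V → ∀ S : Finset (Fin n), c S ≠ 0 → S.card = j) :
    {S ∈ {S : Finset (Fin n) | IsPivot bw ((U S).comap (Fintype.linearCombination D P)) S} |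
      S.card = j}.ncard = Module.finrank D V := by
  have eset : {S ∈ {S : Finset (Fin n) | IsPivot bw ((U S).comap (Fintype.linearCombination D P)) S} |
      S.card = j} = {S | IsPivot bw (V.comap (Fintype.linearCombination D P)) S} := by
    ext S
    constructor
    · rintro ⟨⟨c, hc, h1, h2⟩, hj⟩
      rw [hU S hj] at hc
      exact ⟨c, hc, h1, h2⟩
    · rintro ⟨c, hc, h1, h2⟩
      have hj := hsupp c hc S h1
      refine ⟨⟨c, ?_, h1, h2⟩, hj⟩
      rw [hU S hj]
      exact hc
  rw [eset, ncard_pivot bw bw_injective,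
    (Submodule.equivMapOfInjective (Fintype.linearCombination D P) hinj _).finrank_eq,
    Submodule.map_comap_eq_of_le hV]

/-- Pivots move along an operator inserting an element. -/
theorem pivot_insert {D M : Type*} [DivisionRing D] [AddCommGroup M] [Module D M] {n : ℕ}
    (P : Finset (Fin n) → M) (φ : M →ₗ[D] M) (i : Fin n)
    (h0 : ∀ T, i ∈ T → φ (P T) = 0)
    (h1 : ∀ T, i ∉ T → ∃ ε : D, ε ≠ 0 ∧ φ (P T) = ε • P (insert i T))
    (U U' : Submodule D M) (hU : ∀ z ∈ U, φ z ∈ U') {S : Finset (Fin n)} (hiS : i ∉ S)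
    (h : IsPivot bw (U.comap (Fintype.linearCombination D P)) S) :
    IsPivot bw (U'.comap (Fintype.linearCombination D P)) (insert i S) := by
  classical
  obtain ⟨c, hc, hcS, hmin⟩ := h
  choose ε hε0 hε using h1
  let c' : Finset (Fin n) → D := fun T =>
    if i ∈ T then c (T.erase i) * ε (T.erase i) (Finset.notMem_erase i T) else 0
  have hmap : φ (Fintype.linearCombination D P c) = Fintype.linearCombination D P c' := by
    simp only [Fintype.linearCombination_apply, map_sum, map_smul]
    rw [← Finset.sum_filter_of_ne (p := fun T => i ∉ T) (fun T _ hT hiT => hT (by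
        rw [h0 T hiT, smul_zero])),
      ← Finset.sum_filter_of_ne (p := fun T => i ∈ T) (f := fun T => c' T • P T) (fun T _ hT => by
        by_contra hiT
        exact hT (by simp [c', hiT]))]
    refine Finset.sum_nbij' (fun T => insert i T) (fun T => T.erase i) ?_ ?_ ?_ ?_ ?_
    · intro T _; simp
    · intro T _; simp
    · intro T hT
      exact Finset.erase_insert (by simpa using hT)
    · intro T hT
      exact Finset.insert_erase (by simpa using hT)
    · intro T hT
      simp only [Finset.mem_filter, Finset.mem_univ, true_and] at hT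
      simp only [c', Finset.mem_insert_self, if_true, Finset.erase_insert hT]
      rw [hε T hT, smul_smul]
  refine ⟨c', ?_, ?_, ?_⟩
  · show Fintype.linearCombination D P c' ∈ U'
    rw [← hmap]
    exact hU _ hc
  · simp only [c', Finset.mem_insert_self, if_true, Finset.erase_insert hiS]
    exact mul_ne_zero hcS (hε0 S hiS)
  · intro T hT
    simp only [c']
    split_ifs with hiT
    · have hw1 : bw T = bw (T.erase i) + 2 ^ (i : ℕ) := (Finset.sum_erase_add _ _ hiT).symm
      have hw2 : bw (insert i S) = bw S + 2 ^ (i : ℕ) := by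
        rw [bw, Finset.sum_insert hiS, add_comm]; rfl
      rw [hmin _ (by omega), zero_mul]
    · rfl

/-- The product of the linear forms indexed by a set. -/
def prodL (e : Fin n → Fin n → D) (S : Finset (Fin n)) : TA D J :=
  pr (ell J e) n (S.map Fin.valEmbedding)

theorem ell_apply (e : Fin n → Fin n → D) {i : ℕ} (h : i < n) :
    ell J e i = ∑ v, e ⟨i, h⟩ v ⊗ₜ[K] Ideal.Quotient.mk J (X v) := dif_pos h

theorem ell_sq (f : Fin n → MvPolynomial (Fin n) K) (hfJ : ∀ t, f t ∈ J)
    (β : Fin n → Fin n → Fin n → K) (hβ : ∀ t, f t = ∑ v, ∑ w, β t v w • (X v * X w))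
    (e g : Fin n → Fin n → D) (esq : ∀ i v, e i v * e i v = ∑ t, β t v v • g i t)
    (ein : ∀ i v w, v ≠ w → e i v * e i w + e i w * e i v = ∑ t, (β t v w + β t w v) • g i t)
    (i : ℕ) : ell J e i * ell J e i = 0 := by
  by_cases h : i < n
  · rw [ell_apply J e h, Finset.sum_mul_sum]
    simp only [Algebra.TensorProduct.tmul_mul_tmul]
    rw [sum_sum_eq_of_symm _ (fun v w => (∑ t, β t v w • g ⟨i, h⟩ t) ⊗ₜ[K]
      (Ideal.Quotient.mk J (X v) * Ideal.Quotient.mk J (X w)))
      (fun v => by rw [esq]) (fun v w hvw => by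
        rw [mul_comm (Ideal.Quotient.mk J (X w)), ← add_tmul, ← add_tmul, ein _ v w hvw,
          ← Finset.sum_add_distrib]
        congr 1
        exact Finset.sum_congr rfl fun t _ => add_smul _ _ _)]
    have e0 : ∀ t, ∑ v, ∑ w, g ⟨i, h⟩ t ⊗ₜ[K] (β t v w •
        (Ideal.Quotient.mk J (X v) * Ideal.Quotient.mk J (X w))) = (0 : TA D J) := by
      intro t
      simp only [← TensorProduct.tmul_sum]
      have : ∑ v, ∑ w, β t v w • (Ideal.Quotient.mk J (X v) * Ideal.Quotient.mk J (X w)) =
          Ideal.Quotient.mk J (f t) := by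
        rw [hβ t]
        simp only [map_sum, ← map_mul]
        rfl
      rw [this, (Ideal.Quotient.eq_zero_iff_mem (I := J) (a := f t)).2 (hfJ t), tmul_zero]
    simp only [sum_tmul, TensorProduct.smul_tmul]
    rw [Finset.sum_congr rfl fun v _ => Finset.sum_comm, Finset.sum_comm]
    exact Finset.sum_eq_zero fun t _ => e0 t
  · simp [ell, h]

theorem ell_anti (e : Fin n → Fin n → D)
    (eout : ∀ i j v w, i ≠ j → e i v * e j w + e j w * e i v = 0) (i j : ℕ) (hij : i ≠ j) :
    ell J e i * ell J e j = -(ell J e j * ell J e i) := by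
  by_cases hi : i < n
  · by_cases hj : j < n
    · rw [← add_eq_zero_iff_eq_neg]
      rw [ell_apply J e hi, ell_apply J e hj, Finset.sum_mul_sum, Finset.sum_mul_sum]
      rw [Finset.sum_comm (f := fun v w => (e ⟨j, hj⟩ v ⊗ₜ[K] Ideal.Quotient.mk J (X v)) *
        (e ⟨i, hi⟩ w ⊗ₜ[K] Ideal.Quotient.mk J (X w))), ← Finset.sum_add_distrib]
      refine Finset.sum_eq_zero fun v _ => ?_
      rw [← Finset.sum_add_distrib]
      refine Finset.sum_eq_zero fun w _ => ?_
      rw [Algebra.TensorProduct.tmul_mul_tmul, Algebra.TensorProduct.tmul_mul_tmul,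
        mul_comm (Ideal.Quotient.mk J (X w)), ← add_tmul,
        eout _ _ v w (fun hh => hij (congrArg Fin.val hh)), zero_tmul]
    · simp [ell, hj]
  · simp [ell, hi]

theorem pr_range_expand (e : Fin n → Fin n → D) : ∀ m, ∀ hm : m ≤ n,
    pr (ell J e) m (Finset.range n) =
      ∑ v : Fin m → Fin n, (List.ofFn fun i => e (Fin.castLE hm i) (v i)).reverse.prod ⊗ₜ[K]
        Ideal.Quotient.mk J (∏ i, X (v i)) := by
  intro m
  induction m with
  | zero => intro hm; simp [pr, Algebra.TensorProduct.one_def]
  | succ m ih =>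
    intro hm
    rw [pr, if_pos (Finset.mem_range.2 hm), ih (Nat.le_of_succ_le hm),
      ell_apply J e (show m < n from hm),
      Finset.sum_mul_sum, ← (Fin.snocEquiv fun _ => Fin n).sum_comp, Fintype.sum_prod_type]
    refine Finset.sum_congr rfl fun w _ => Finset.sum_congr rfl fun v _ => ?_
    rw [Algebra.TensorProduct.tmul_mul_tmul, ← map_mul]
    congr 1
    · rw [List.ofFn_succ', List.concat_eq_append, List.reverse_append, List.reverse_singleton,
        List.singleton_append, List.prod_cons]
      simp [Fin.snocEquiv, Fin.castLE]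
    · simp [Fin.snocEquiv, Fin.prod_univ_castSucc, mul_comm]

theorem prodL_univ (e : Fin n → Fin n → D) :
    prodL J e Finset.univ = pr (ell J e) n (Finset.range n) :=
  pr_congr (ell J e) n fun i hi => by
    simp only [Finset.mem_map, Finset.mem_univ, true_and, Fin.valEmbedding_apply, Finset.mem_range, hi, iff_true]
    exact ⟨⟨i, hi⟩, rfl⟩

theorem prodL_mul_ell (e : Fin n → Fin n → D) (hsq : ∀ i, ell J e i * ell J e i = 0)
    (hanti : ∀ i j, i ≠ j → ell J e i * ell J e j = -(ell J e j * ell J e i))
    (S : Finset (Fin n)) (i : Fin n) :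
    (i ∈ S → prodL J e S * ell J e i = 0) ∧
      (i ∉ S → PM (prodL J e S * ell J e i) (prodL J e (insert i S))) := by
  obtain ⟨h0, h1⟩ := pr_mul_L hsq hanti n (S.map Fin.valEmbedding) i i.2
  refine ⟨fun h => h0 (Finset.mem_map_of_mem _ h), fun h => ?_⟩
  have := h1 (by simpa [Fin.val_inj] using h)
  simp only [prodL, Finset.map_insert]
  exact this

theorem prodL_injective (e : Fin n → Fin n → D) (hsq : ∀ i, ell J e i * ell J e i = 0)
    (hanti : ∀ i j, i ≠ j → ell J e i * ell J e j = -(ell J e j * ell J e i))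
    (hkill : ∀ c : D, c • prodL J e Finset.univ = 0 → c = 0) :
    Function.Injective (Fintype.linearCombination D (prodL J e)) := by
  classical
  rw [← LinearMap.ker_eq_bot, LinearMap.ker_eq_bot']
  intro c hc
  by_contra hne
  obtain ⟨S, hS⟩ := Function.ne_iff.1 hne
  obtain ⟨S0, hS0, hmin⟩ := Finset.exists_min_image
    (Finset.univ.filter fun S => c S ≠ 0) Finset.card ⟨S, by simpa using hS⟩
  simp only [Finset.mem_filter, Finset.mem_univ, true_and] at hS0 hmin
  set T0 := (S0ᶜ).map Fin.valEmbedding
  have h := congrArg (· * pr (ell J e) n T0) hc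
  simp only [Fintype.linearCombination_apply, zero_mul, Finset.sum_mul, smul_mul_TA] at h
  rw [Finset.sum_eq_single S0] at h
  · obtain ⟨-, h1⟩ := pr_mul_pr hsq hanti n n (S0.map Fin.valEmbedding) T0 le_rfl
    have h2 : PM (prodL J e S0 * pr (ell J e) n T0) (prodL J e Finset.univ) := by
      have h1' := h1 (fun i _ hi hi' => by
        simp only [T0, Finset.mem_map, Finset.mem_compl, Fin.valEmbedding_apply] at hi hi'
        obtain ⟨a, ha, rfl⟩ := hi
        obtain ⟨b, hb, hab⟩ := hi'
        exact hb (Fin.ext hab ▸ ha))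
      refine h1'.trans (Or.inl (pr_congr (ell J e) n fun i hi => ?_))
      simp only [Finset.mem_union, Finset.mem_filter, Finset.mem_map, Finset.mem_univ, true_and,
        Fin.valEmbedding_apply, hi, and_true, T0, Finset.mem_compl]
      by_cases hm : (⟨i, hi⟩ : Fin n) ∈ S0
      · exact ⟨fun _ => ⟨⟨i, hi⟩, rfl⟩, fun _ => Or.inl ⟨_, hm, rfl⟩⟩
      · exact ⟨fun _ => ⟨⟨i, hi⟩, rfl⟩, fun _ => Or.inr ⟨_, hm, rfl⟩⟩
    rcases h2 with h2 | h2 <;> rw [h2] at h
    · exact hS0 (hkill _ h)
    · rw [smul_neg, neg_eq_zero] at h; exact hS0 (hkill _ h)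
  · intro T _ hT
    by_cases hcT : c T = 0
    · rw [hcT, zero_smul]
    · obtain ⟨h0, -⟩ := pr_mul_pr hsq hanti n n (T.map Fin.valEmbedding) T0 le_rfl
      have hex : ∃ a ∈ T, a ∉ S0 := by
        by_contra hh
        push Not at hh
        exact hT (Finset.eq_of_subset_of_card_le hh (hmin T hcT))
      obtain ⟨a, ha, ha'⟩ := hex
      have h00 : prodL J e T * pr (ell J e) n T0 = 0 := h0 ⟨a, a.2, Finset.mem_map_of_mem _ ha,
        Finset.mem_map_of_mem _ (Finset.mem_compl.2 ha')⟩
      rw [h00, smul_zero]
  · simp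

theorem prodL_mem (e : Fin n → Fin n → D) (hsq : ∀ i, ell J e i * ell J e i = 0)
    (hanti : ∀ i j, i ≠ j → ell J e i * ell J e j = -(ell J e j * ell J e i))
    (S : Finset (Fin n)) : prodL J e S ∈ spanT J (imgPiece J ⊤ S.card) := by
  induction S using Finset.induction with
  | empty =>
    have : prodL J e ∅ = (1 : D) ⊗ₜ[K] Ideal.Quotient.mk J 1 := by
      have h : ∀ m, pr (ell J e) m ∅ = 1 := by
        intro m; induction m with
        | zero => rfl
        | succ m ih => simp [pr, ih]
      simp only [prodL, Finset.map_empty, h]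
      rfl
    rw [this, Finset.card_empty]
    exact tmul_mem_spanT J (V := imgPiece J ⊤ 0) ⟨1, ⟨trivial, isHomogeneous_one _ _⟩, rfl⟩ 1
  | insert i S hi ih =>
    rw [Finset.card_insert_of_notMem hi]
    have h := mul_ell_mem J e i _ ih
    rcases (prodL_mul_ell J e hsq hanti S i).2 hi with h' | h'
    · rwa [← h']
    · have : prodL J e (insert i S) = -(prodL J e S * ell J e i) := by rw [h', neg_neg]
      rw [this]; exact neg_mem h

theorem leading_core (e : Fin n → Fin n → D)
    (hdim : ∀ j, Module.finrank K (quotPiece J j) = n.choose j)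
    (hinj : Function.Injective (Fintype.linearCombination D (prodL J e)))
    (hmulL : ∀ (S : Finset (Fin n)) (i : Fin n), (i ∈ S → prodL J e S * ell J e i = 0) ∧
      (i ∉ S → PM (prodL J e S * ell J e i) (prodL J e (insert i S))))
    (hPmem : ∀ S, prodL J e S ∈ spanT J (imgPiece J ⊤ S.card)) :
    ∃ fam : Ideal (MvPolynomial (Fin n) K) → Set (Finset (Fin n)),
      (∀ I I', I ≤ I' → fam I ⊆ fam I') ∧
      ∀ I, J ≤ I →
        (∀ S ∈ fam I, ∀ i, insert i S ∈ fam I) ∧
        (∀ j, {S ∈ fam I | S.card = j}.ncard +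
          Module.finrank K (piece J j) = Module.finrank K (piece I j)) := by
  classical
  have hfinI : ∀ I j, Module.Finite D (spanT J (D := D) (imgPiece J I j)) ∧
      Module.finrank D (spanT J (D := D) (imgPiece J I j)) = Module.finrank K (imgPiece J I j) := by
    intro I j
    have : FiniteDimensional K (imgPiece J I j) := Module.Finite.map _ _
    exact spanT_finite_finrank J _
  have hfill : ∀ j, spanT J (imgPiece J ⊤ j) ≤ LinearMap.range (Fintype.linearCombination D (prodL J e)) ∧
      ∀ c, (Fintype.linearCombination D (prodL J e)) c ∈ spanT J (imgPiece J ⊤ j) → ∀ S : Finset (Fin n), c S ≠ 0 → S.card = j := by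
    intro j
    have := (hfinI ⊤ j).1
    have eimg : imgPiece J ⊤ j = quotPiece J j := by
      rw [imgPiece, quotPiece, piece, Submodule.restrictScalars_top, top_inf_eq]
    exact graded_fill (prodL J e) hinj j (spanT J (imgPiece J ⊤ j))
      ((hfinI ⊤ j).2.trans (by rw [eimg, hdim j])) (fun S hS => hS ▸ hPmem S)
  have hle : ∀ I j, spanT J (D := D) (imgPiece J I j) ≤ spanT J (imgPiece J ⊤ j) := fun I j =>
    spanT_mono J (Submodule.map_mono (piece_mono le_top j))
  refine ⟨fun I => {S | IsPivot bw ((spanT J (imgPiece J I S.card)).comap (Fintype.linearCombination D (prodL J e))) S}, ?_, ?_⟩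
  · rintro I I' hII S ⟨c, hc, h1, h2⟩
    exact ⟨c, spanT_mono J (Submodule.map_mono (piece_mono hII _)) hc, h1, h2⟩
  · intro I hJI
    refine ⟨fun S hS i => ?_, fun j => ?_⟩
    · by_cases hiS : i ∈ S
      · rwa [Finset.insert_eq_of_mem hiS]
      · let φ : TA D J →ₗ[D] TA D J :=
          { toFun := fun z => z * ell J e i
            map_add' := fun x y => add_mul x y (ell J e i)
            map_smul' := fun c z => smul_mul_TA J c z (ell J e i) }
        show IsPivot bw _ (insert i S)
        rw [Finset.card_insert_of_notMem hiS]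
        refine pivot_insert (prodL J e) φ i (fun T hT => (hmulL T i).1 hT) (fun T hT => ?_) _ _
          (fun z hz => mul_ell_mem J e i _ hz) hiS hS
        rcases (hmulL T i).2 hT with h | h
        · exact ⟨1, one_ne_zero, h.trans (one_smul D (prodL J e (insert i T))).symm⟩
        · exact ⟨-1, neg_ne_zero.2 one_ne_zero, h.trans (neg_one_smul D (prodL J e (insert i T))).symm⟩
    · have h1 := ncard_pivot_comap (prodL J e) hinj j (fun S => spanT J (imgPiece J I S.card))
        (spanT J (imgPiece J I j)) (fun S hS => hS ▸ rfl)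
        (le_trans (hle I j) (hfill j).1) (fun c hc S hS => (hfill j).2 c (hle I j hc) S hS)
      exact (congrArg (· + Module.finrank K (piece J j)) (h1.trans (hfinI I j).2)).trans
        (finrank_imgPiece J hJI j)

theorem exists_leading (f : Fin n → MvPolynomial (Fin n) K) (hf : ∀ t, (f t).IsHomogeneous 2)
    (hreg : StrongReg f) :
    ∃ fam : Ideal (MvPolynomial (Fin n) K) → Set (Finset (Fin n)),
      (∀ I I', I ≤ I' → fam I ⊆ fam I') ∧
      ∀ I, (∀ t, f t ∈ I) →
        (∀ S ∈ fam I, ∀ i, insert i S ∈ fam I) ∧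
        (∀ j, {S ∈ fam I | S.card = j}.ncard +
          Module.finrank K (piece (Ideal.span (Set.range f)) j) = Module.finrank K (piece I j)) := by
  classical
  have hβ : ∀ t, ∃ β : Fin n → Fin n → K, f t = ∑ v, ∑ w, β v w • (X v * X w) := by
    intro t
    have h := homogeneous_le_span_prod 2 ((mem_homogeneousSubmodule _ _).2 (hf t))
    obtain ⟨c, hc⟩ := (Submodule.mem_span_range_iff_exists_fun K).1 h
    refine ⟨fun v w => c ![v, w], ?_⟩
    rw [← hc, ← Equiv.sum_comp (finTwoArrowEquiv (Fin n)).symm, Fintype.sum_prod_type]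
    refine Finset.sum_congr rfl fun v _ => Finset.sum_congr rfl fun w _ => ?_
    simp [Fin.prod_univ_two]
  choose β hβ using hβ
  obtain ⟨D, instD, instA, e, g, esq, ein, eout, hnd⟩ := exists_sys f hf hreg β hβ
  set J := Ideal.span (Set.range f) with hJdef
  have hfJ : ∀ t, f t ∈ J := fun t => Ideal.subset_span ⟨t, rfl⟩
  have hsq := ell_sq J f hfJ β hβ e g esq ein
  have hanti := ell_anti J e eout
  have hdim : ∀ j, Module.finrank K (quotPiece J j) = n.choose j :=
    finrank_quotPiece_full (Fintype.card_fin n) hf hreg.ne_zero hreg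
  have hkill : ∀ c : D, c • prodL J e Finset.univ = 0 → c = 0 := by
    intro c hc
    by_contra hc0
    have hne : quotPiece J n ≠ ⊥ := by
      intro h
      have := hdim n
      rw [h, finrank_bot, Nat.choose_self] at this
      omega
    obtain ⟨a, ha, ha0⟩ := (Submodule.ne_bot_iff _).1 hne
    obtain ⟨lam, hlam⟩ := not_forall.1 (mt (Module.forall_dual_apply_eq_zero_iff K a).1 ha0)
    have h := congrArg (applyR J lam) hc
    rw [map_smul, map_zero, smul_eq_mul, mul_eq_zero] at h
    have h := h.resolve_left hc0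
    rw [prodL_univ, pr_range_expand J e n le_rfl, map_sum] at h
    simp only [applyR_tmul, Fin.castLE_rfl, id_eq] at h
    have hμ := hnd _ h
    apply hlam
    obtain ⟨p, hp, rfl⟩ := ha
    have h' := homogeneous_le_span_prod n hp
    have hker : Submodule.span K (Set.range fun v : Fin n → Fin n => ∏ i, (X (v i) :
        MvPolynomial (Fin n) K)) ≤ LinearMap.ker (lam ∘ₗ (Ideal.Quotient.mkₐ K J).toLinearMap) :=
      Submodule.span_le.2 (by rintro _ ⟨v, rfl⟩; exact congrFun hμ v)
    exact hker h'
  have hinj := prodL_injective J e hsq hanti hkill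
  have hmulL := prodL_mul_ell J e hsq hanti
  have hPmem := prodL_mem J e hsq hanti
  obtain ⟨fam, hmono, hfam⟩ := leading_core J e hdim hinj hmulL hPmem
  exact ⟨fam, hmono, fun I hfI => hfam I (Ideal.span_le.2 (by rintro _ ⟨t, rfl⟩; exact hfI t))⟩

end Vale.Agent.P200
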