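import Vale.Agent.P200.Socle
import Vale.Agent.P200.Leading

/-!
Hilbert functions of ideals containing a regular sequence of quadrics, by layers of one variable.
-/

noncomputable section

namespace Vale.Agent.P200

open MvPolynomial

universe u

variable {K : Type u} [Field K]

/-! ### Layers -/

/-- The colon ideal by a power of the first variable. -/
def colonX {m : ℕ} (I : Ideal (MvPolynomial (Fin (m + 1)) K)) (b : ℕ) :
    Ideal (MvPolynomial (Fin (m + 1)) K) :=
  Submodule.comap
    (LinearMap.mulLeft (MvPolynomial (Fin (m + 1)) K) ((X 0 : MvPolynomial (Fin (m + 1)) K) ^ b)) I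

theorem mem_colonX {m : ℕ} {I : Ideal (MvPolynomial (Fin (m + 1)) K)} {b : ℕ}
    {p : MvPolynomial (Fin (m + 1)) K} : p ∈ colonX I b ↔ X 0 ^ b * p ∈ I := Iff.rfl

theorem res0_surjective (m : ℕ) : Function.Surjective (res0 m (K := K)) :=
  fun q => ⟨rename Fin.succ q, res0_rename m q⟩

/-- The layer of exponent `b` in the first variable. -/
def layer {m : ℕ} (I : Ideal (MvPolynomial (Fin (m + 1)) K)) (b : ℕ) :
    Ideal (MvPolynomial (Fin m) K) :=
  (colonX I b).map (res0 m)

theorem mem_layer {m : ℕ} {I : Ideal (MvPolynomial (Fin (m + 1)) K)} {b : ℕ}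
    {q : MvPolynomial (Fin m) K} :
    q ∈ layer I b ↔ ∃ p, X 0 ^ b * p ∈ I ∧ res0 m p = q := by
  rw [layer, Ideal.mem_map_iff_of_surjective _ (res0_surjective m)]
  rfl

theorem layer_mono {m : ℕ} {I I' : Ideal (MvPolynomial (Fin (m + 1)) K)} (h : I ≤ I') {b b' : ℕ}
    (hb : b ≤ b') : layer I b ≤ layer I' b' := by
  intro q hq
  obtain ⟨p, hp, rfl⟩ := mem_layer.1 hq
  refine mem_layer.2 ⟨p, h ?_, rfl⟩
  obtain ⟨k, rfl⟩ := Nat.exists_eq_add_of_le hb
  rw [add_comm b k, pow_add, mul_assoc]
  exact I.mul_mem_left _ hp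

theorem isHomIdeal_colonX {m : ℕ} {I : Ideal (MvPolynomial (Fin (m + 1)) K)} (hI : IsHomIdeal I)
    (b : ℕ) : IsHomIdeal (colonX I b) := by
  intro p hp d
  have hz : ((X 0 : MvPolynomial (Fin (m + 1)) K) ^ b).IsHomogeneous b := isHomogeneous_X_pow 0 b
  have h := hI _ hp (d + b)
  rw [LinearMap.mulLeft_apply, mul_comm, homogeneousComponent_mul_homog p hz,
    if_pos (Nat.le_add_left b d), Nat.add_sub_cancel, mul_comm] at h
  exact h

theorem isHomIdeal_layer {m : ℕ} {I : Ideal (MvPolynomial (Fin (m + 1)) K)} (hI : IsHomIdeal I)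
    (b : ℕ) : IsHomIdeal (layer I b) := by
  intro q hq d
  obtain ⟨p, hp, rfl⟩ := mem_layer.1 hq
  rw [homogeneousComponent_res0]
  exact mem_layer.2 ⟨_, isHomIdeal_colonX hI b p hp d, rfl⟩

theorem finrank_colonX {m : ℕ} {I : Ideal (MvPolynomial (Fin (m + 1)) K)} (hI : IsHomIdeal I)
    (b e : ℕ) : Module.finrank K (piece (colonX I b) (e + 1)) =
      Module.finrank K (piece (layer I b) (e + 1)) + Module.finrank K (piece (colonX I (b + 1)) e) := by
  set L : piece (colonX I b) (e + 1) →ₗ[K] MvPolynomial (Fin m) K :=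
    (res0 m).toLinearMap ∘ₗ (piece (colonX I b) (e + 1)).subtype
  have h1 : LinearMap.range L = piece (layer I b) (e + 1) := by
    apply le_antisymm
    · rintro _ ⟨p, rfl⟩
      exact ⟨mem_layer.2 ⟨p.1, p.2.1, rfl⟩, res0_homogeneous p.2.2⟩
    · rintro q ⟨hq, hq'⟩
      obtain ⟨p, hp, rfl⟩ := mem_layer.1 hq
      refine ⟨⟨homogeneousComponent (e + 1) p, isHomIdeal_colonX hI b p hp _,
        homogeneousComponent_isHomogeneous _ _⟩, ?_⟩
      show res0 m (homogeneousComponent (e + 1) p) = res0 m p
      rw [← homogeneousComponent_res0]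
      exact homogeneousComponent_eq_self hq'
  set mu : MvPolynomial (Fin (m + 1)) K →ₗ[K] MvPolynomial (Fin (m + 1)) K :=
    LinearMap.mulRight K (X 0)
  have hmu : Function.Injective mu := fun p q h => mul_right_cancel₀ (X_ne_zero _) h
  have h2 : (LinearMap.ker L).map (piece (colonX I b) (e + 1)).subtype =
      (piece (colonX I (b + 1)) e).map mu := by
    apply le_antisymm
    · rintro _ ⟨p, hp, rfl⟩
      have h := sub_res0_mem m p.1
      rw [show res0 m p.1 = 0 from hp, map_zero, sub_zero] at h
      obtain ⟨r, hr⟩ := Ideal.mem_span_singleton'.1 h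
      have hc := congrArg (homogeneousComponent (e + 1)) hr
      rw [homogeneousComponent_mul_homog r (isHomogeneous_X K (0 : Fin (m + 1))),
        if_pos (Nat.le_add_left 1 e), Nat.add_sub_cancel, homogeneousComponent_eq_self p.2.2] at hc
      refine ⟨homogeneousComponent e r, ⟨?_, homogeneousComponent_isHomogeneous _ _⟩, hc⟩
      show X 0 ^ (b + 1) * homogeneousComponent e r ∈ I
      have h3 : X 0 ^ b * p.1 ∈ I := p.2.1
      rw [← hc] at h3
      rw [pow_succ, mul_assoc, mul_comm (X 0)]
      exact h3
    · rintro _ ⟨r, ⟨hr, hr'⟩, rfl⟩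
      have hmem : r * X 0 ∈ piece (colonX I b) (e + 1) := by
        refine ⟨?_, hr'.mul (isHomogeneous_X K 0)⟩
        show X 0 ^ b * (r * X 0) ∈ I
        have h3 : X 0 ^ (b + 1) * r ∈ I := hr
        rw [pow_succ, mul_assoc, mul_comm (X 0)] at h3
        exact h3
      refine ⟨⟨r * X 0, hmem⟩, LinearMap.mem_ker.2 ?_, ?_⟩
      · simp [L, res0]
      · simp [mu]
  have h3 := L.finrank_range_add_finrank_ker
  rw [h1, ← Submodule.finrank_map_subtype_eq (piece (colonX I b) (e + 1)) (LinearMap.ker L), h2,
    ← (Submodule.equivMapOfInjective mu hmu _).finrank_eq] at h3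
  exact h3.symm

theorem finrank_colonX_zero {m : ℕ} {I : Ideal (MvPolynomial (Fin (m + 1)) K)} (hI : IsHomIdeal I)
    (b : ℕ) : Module.finrank K (piece (colonX I b) 0) = Module.finrank K (piece (layer I b) 0) := by
  set L : piece (colonX I b) 0 →ₗ[K] MvPolynomial (Fin m) K :=
    (res0 m).toLinearMap ∘ₗ (piece (colonX I b) 0).subtype
  have h1 : LinearMap.range L = piece (layer I b) 0 := by
    apply le_antisymm
    · rintro _ ⟨p, rfl⟩
      exact ⟨mem_layer.2 ⟨p.1, p.2.1, rfl⟩, res0_homogeneous p.2.2⟩
    · rintro q ⟨hq, hq'⟩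
      obtain ⟨p, hp, rfl⟩ := mem_layer.1 hq
      refine ⟨⟨homogeneousComponent 0 p, isHomIdeal_colonX hI b p hp _,
        homogeneousComponent_isHomogeneous _ _⟩, ?_⟩
      show res0 m (homogeneousComponent 0 p) = res0 m p
      rw [← homogeneousComponent_res0]
      exact homogeneousComponent_eq_self hq'
  have h2 : Function.Injective L := by
    rw [← LinearMap.ker_eq_bot, LinearMap.ker_eq_bot']
    intro p hp
    apply Subtype.ext
    have h0 : homogeneousComponent 0 p.1 = p.1 := homogeneousComponent_eq_self p.2.2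
    rw [homogeneousComponent_zero] at h0
    have hp' : res0 m p.1 = 0 := hp
    rw [← h0, ← algebraMap_eq, AlgHom.commutes, algebraMap_eq, C_eq_zero] at hp'
    rw [← h0, hp', map_zero]
    rfl
  rw [← h1, LinearMap.finrank_range_of_inj h2]

theorem finrank_colonX_sum {m : ℕ} {I : Ideal (MvPolynomial (Fin (m + 1)) K)} (hI : IsHomIdeal I) :
    ∀ (e b : ℕ), Module.finrank K (piece (colonX I b) e) =
      ∑ i ∈ Finset.range (e + 1), Module.finrank K (piece (layer I (b + i)) (e - i)) := by
  intro e
  induction e with
  | zero => intro b; simp [finrank_colonX_zero hI b]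
  | succ e ih =>
    intro b
    rw [finrank_colonX hI, ih, Finset.sum_range_succ' _ (e + 1), add_comm]
    congr 1
    refine Finset.sum_congr rfl fun i _ => ?_
    rw [show b + 1 + i = b + (i + 1) by omega, show e + 1 - (i + 1) = e - i by omega]

theorem colonX_zero {m : ℕ} (I : Ideal (MvPolynomial (Fin (m + 1)) K)) : colonX I 0 = I := by
  ext p; rw [mem_colonX, pow_zero, one_mul]

/-! ### Monomial models -/

/-- The exponent vectors of degree `d`. -/
def degSet (n d : ℕ) : Finset (Fin n →₀ ℕ) := Finset.univ.finsuppAntidiag d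

theorem mem_degSet {n d : ℕ} {a : Fin n →₀ ℕ} : a ∈ degSet n d ↔ a.degree = d := by
  simp [degSet, Finsupp.degree_eq_sum]

theorem degree_cons {m : ℕ} (i : ℕ) (a : Fin m →₀ ℕ) :
    (Finsupp.cons i a).degree = i + a.degree := by
  simp [Finsupp.degree_eq_sum, Fin.sum_univ_succ]

theorem card_layers {m : ℕ} (U : ℕ → Set (Fin m →₀ ℕ)) (d : ℕ) [DecidablePred fun a : Fin (m + 1) →₀ ℕ =>
      Finsupp.tail a ∈ U (a 0)] [∀ i, DecidablePred (· ∈ U i)] :
    ((degSet (m + 1) d).filter fun a => Finsupp.tail a ∈ U (a 0)).card =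
      ∑ i ∈ Finset.range (d + 1), ((degSet m (d - i)).filter (· ∈ U i)).card := by
  rw [Finset.card_eq_sum_card_fiberwise (f := fun a : Fin (m + 1) →₀ ℕ => a 0)
    (t := Finset.range (d + 1))]
  · refine Finset.sum_congr rfl fun i hi => ?_
    rw [Finset.mem_range] at hi
    refine Finset.card_nbij' Finsupp.tail (Finsupp.cons i) ?_ ?_ ?_ ?_
    · intro a ha
      simp only [Finset.coe_filter, Finset.mem_filter, mem_degSet, Set.mem_ofPred_eq] at ha ⊢
      obtain ⟨⟨h1, h2⟩, rfl⟩ := ha
      rw [← Finsupp.cons_tail a, degree_cons] at h1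
      exact ⟨by omega, h2⟩
    · intro a ha
      simp only [Finset.coe_filter, Finset.mem_filter, mem_degSet, Set.mem_ofPred_eq] at ha ⊢
      rw [degree_cons, Finsupp.cons_zero, Finsupp.tail_cons]
      exact ⟨⟨by omega, ha.2⟩, rfl⟩
    · intro a ha
      simp only [Finset.coe_filter, Finset.mem_filter, Set.mem_ofPred_eq] at ha
      rw [← ha.2, Finsupp.cons_tail]
    · intro a _
      exact Finsupp.tail_cons _ _
  · intro a ha
    simp only [Finset.coe_filter, Finset.coe_range, mem_degSet, Set.mem_ofPred_eq, Set.mem_Iio] at ha ⊢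
    rw [← Finsupp.cons_tail a, degree_cons] at ha
    omega

theorem piece_map {σ : Type*} (E : MvPolynomial σ K ≃ₐ[K] MvPolynomial σ K)
    (hE : ∀ p d, p.IsHomogeneous d → (E p).IsHomogeneous d)
    (hE' : ∀ p d, p.IsHomogeneous d → (E.symm p).IsHomogeneous d)
    (I : Ideal (MvPolynomial σ K)) (d : ℕ) :
    piece (I.map (E : MvPolynomial σ K →ₐ[K] MvPolynomial σ K)) d =
      (piece I d).map E.toLinearMap := by
  apply le_antisymm
  · rintro q ⟨hq, hq'⟩
    obtain ⟨p, hp, rfl⟩ := (Ideal.mem_map_iff_of_surjective _ E.surjective).1 hq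
    refine ⟨p, ⟨hp, ?_⟩, rfl⟩
    have := hE' _ _ hq'
    rwa [E.symm_apply_apply] at this
  · rintro _ ⟨p, ⟨hp, hp'⟩, rfl⟩
    exact ⟨Ideal.mem_map_of_mem _ hp, hE _ _ hp'⟩

theorem isHomIdeal_map {σ : Type*} (E : MvPolynomial σ K ≃ₐ[K] MvPolynomial σ K)
    (hE : ∀ p d, p.IsHomogeneous d → (E p).IsHomogeneous d)
    {I : Ideal (MvPolynomial σ K)} (hI : IsHomIdeal I) :
    IsHomIdeal (I.map (E : MvPolynomial σ K →ₐ[K] MvPolynomial σ K)) := by
  intro q hq d
  obtain ⟨p, hp, rfl⟩ := (Ideal.mem_map_iff_of_surjective _ E.surjective).1 hq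
  have e : homogeneousComponent d (E p) = E (homogeneousComponent d p) := by
    conv_lhs => rw [← sum_homogeneousComponent p, map_sum, map_sum]
    by_cases hd : d ∈ Finset.range (p.totalDegree + 1)
    · rw [Finset.sum_eq_single d]
      · exact homogeneousComponent_eq_self (hE _ _ (homogeneousComponent_isHomogeneous d p))
      · intro j _ hj
        rw [homogeneousComponent_of_mem (hE _ _ (homogeneousComponent_isHomogeneous j p)),
          if_neg (Ne.symm hj)]
      · intro h; exact absurd hd h
    · rw [homogeneousComponent_eq_zero d p (by simpa using hd), map_zero]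
      exact Finset.sum_eq_zero fun j hj => by
        rw [homogeneousComponent_of_mem (hE _ _ (homogeneousComponent_isHomogeneous j p)),
          if_neg (fun h : d = j => hd (h ▸ hj))]
  show homogeneousComponent d (E p) ∈ _
  rw [e]
  exact Ideal.mem_map_of_mem _ (hI p hp d)

/-- Monomial models for all homogeneous ideals containing a fixed regular sequence of quadrics. -/
theorem exists_model [Infinite K] : ∀ (n c : ℕ), c ≤ n → ∀ f : Fin c → MvPolynomial (Fin n) K,
    (∀ i, (f i).IsHomogeneous 2) → StrongReg f →
    ∃ Ψ : Ideal (MvPolynomial (Fin n) K) → Set (Fin n →₀ ℕ),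
      (∀ I I', I ≤ I' → Ψ I ⊆ Ψ I') ∧
      ∀ I, IsHomIdeal I → (∀ i, f i ∈ I) →
        (∀ a ∈ Ψ I, ∀ b, a ≤ b → b ∈ Ψ I) ∧
        (∀ v : Fin n, n ≤ c + v → Finsupp.single v 2 ∈ Ψ I) ∧
        (∀ d, {a ∈ Ψ I | a.degree = d}.ncard = Module.finrank K (piece I d)) := by
  classical
  intro n
  induction n with
  | zero =>
    intro c hc f hf hreg
    obtain rfl : c = 0 := by omega
    obtain ⟨fam, hmono, hfam⟩ := exists_leading f hf hreg
    refine ⟨fun I => {a | a.support ∈ fam I}, fun I I' h a ha => hmono I I' h ha,
      fun I hI hfI => ⟨fun a ha b _ => ?_, fun v => v.elim0, fun d => ?_⟩⟩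
    · rwa [Subsingleton.elim b a]
    · have h := (hfam I hfI).2 d
      have hJ : Module.finrank K (piece (Ideal.span (Set.range f)) d) = 0 := by
        rw [show Set.range f = ∅ from Set.range_eq_empty f, Ideal.span_empty]
        rw [show piece (⊥ : Ideal (MvPolynomial (Fin 0) K)) d = ⊥ by simp [piece], finrank_bot]
      rw [hJ, add_zero] at h
      rw [← h]
      refine Set.ncard_congr (fun a _ => a.support) ?_ ?_ ?_
      · rintro a ⟨ha, hd⟩
        refine ⟨ha, ?_⟩
        rw [← hd, Subsingleton.elim a 0]
        simp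
      · intro a b _ _ _; exact Subsingleton.elim a b
      · rintro S ⟨hS, hd⟩
        refine ⟨0, ⟨?_, ?_⟩, Subsingleton.elim _ _⟩
        · show (0 : Fin 0 →₀ ℕ).support ∈ fam I
          rwa [Subsingleton.elim (0 : Fin 0 →₀ ℕ).support S]
        · rw [← hd, Subsingleton.elim S ∅]; simp
  | succ m ih =>
    intro c hc f hf hreg
    rcases Nat.lt_or_ge c (m + 1) with hcm | hcm
    · obtain ⟨E, hE, hE', hreg'⟩ := exists_good_coord (by omega : c ≤ m) f hf hreg
      set f' : Fin c → MvPolynomial (Fin m) K := fun i => res0 m (E (f i))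
      obtain ⟨Ψ', hmono', hΨ'⟩ := ih c (by omega) f'
        (fun i => res0_homogeneous (hE _ _ (hf i))) hreg'
      let T : Ideal (MvPolynomial (Fin (m + 1)) K) → Ideal (MvPolynomial (Fin (m + 1)) K) :=
        fun I => I.map (E : MvPolynomial (Fin (m + 1)) K →ₐ[K] MvPolynomial (Fin (m + 1)) K)
      refine ⟨fun I => {a | Finsupp.tail a ∈ Ψ' (layer (T I) (a 0))}, fun I I' h a ha =>
        hmono' _ _ (layer_mono (Ideal.map_mono h) le_rfl) ha, fun I hI hfI => ?_⟩
      have hTI : IsHomIdeal (T I) := isHomIdeal_map E hE hI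
      have hlay : ∀ b, ∀ i, f' i ∈ layer (T I) b := by
        intro b i
        exact mem_layer.2 ⟨E (f i), Ideal.mul_mem_left _ _ (Ideal.mem_map_of_mem _ (hfI i)), rfl⟩
      have hH := fun b => hΨ' (layer (T I) b) (isHomIdeal_layer hTI b) (hlay b)
      refine ⟨fun a ha b hab => ?_, fun v hv => ?_, fun d => ?_⟩
      · refine hmono' _ _ (layer_mono le_rfl (hab 0)) ?_
        exact (hH (a 0)).1 _ ha _ (fun j => hab j.succ)
      · obtain ⟨v', rfl⟩ : ∃ v' : Fin m, v = v'.succ :=
          ⟨v.pred (fun h => by subst h; simp at hv; omega), (Fin.succ_pred _ _).symm⟩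
        show Finsupp.tail (Finsupp.single v'.succ 2) ∈ Ψ' (layer (T I) (Finsupp.single v'.succ 2 0))
        have e : Finsupp.tail (Finsupp.single v'.succ 2 : Fin (m + 1) →₀ ℕ) = Finsupp.single v' 2 := by
          ext j; simp [Finsupp.tail_apply, Finsupp.single_apply]
        rw [e]
        exact (hH _).2.1 v' (by simp at hv; omega)
      · have e1 : {a ∈ {a : Fin (m + 1) →₀ ℕ | Finsupp.tail a ∈ Ψ' (layer (T I) (a 0))} |
              a.degree = d} = ((degSet (m + 1) d).filter
                fun a => Finsupp.tail a ∈ Ψ' (layer (T I) (a 0)) : Finset _) := by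
          ext a; simp [mem_degSet, and_comm]
        rw [e1, Set.ncard_coe_finset, card_layers (fun i => Ψ' (layer (T I) i)) d]
        have h3 : Module.finrank K (piece I d) = Module.finrank K (piece (T I) d) := by
          rw [piece_map E hE hE']
          exact (Submodule.equivMapOfInjective E.toLinearMap E.injective _).finrank_eq
        rw [h3, ← colonX_zero (T I), finrank_colonX_sum hTI, colonX_zero]
        refine Finset.sum_congr rfl fun i _ => ?_
        rw [zero_add, ← (hH i).2.2 (d - i), ← Set.ncard_coe_finset]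
        congr 1
        ext a; simp [mem_degSet, and_comm]
    · obtain rfl : c = m + 1 := by omega
      obtain ⟨fam, hmono, hfam⟩ := exists_leading f hf hreg
      refine ⟨fun I => {a | (∃ v, 2 ≤ a v) ∨ a.support ∈ fam I}, fun I I' h a ha =>
        ha.imp id (fun h' => hmono I I' h h'), fun I hI hfI => ?_⟩
      obtain ⟨hup, hcount⟩ := hfam I hfI
      refine ⟨fun a ha b hab => ?_, fun v _ => Or.inl ⟨v, by simp⟩, fun d => ?_⟩
      · rcases ha with ⟨v, hv⟩ | ha
        · exact Or.inl ⟨v, le_trans hv (hab v)⟩
        · right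
          have hins : ∀ T : Finset (Fin (m + 1)), a.support ∪ T ∈ fam I := by
            intro T
            induction T using Finset.induction with
            | empty => rwa [Finset.union_empty]
            | insert i T _ ihT => rw [Finset.union_insert]; exact hup _ ihT i
          have hsub : a.support ⊆ b.support := Finsupp.support_mono hab
          rw [← Finset.union_eq_right.2 hsub]
          exact hins _
      · set J := Ideal.span (Set.range f)
        have h := hcount d
        have hJd : (degSet (m + 1) d).card =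
            Module.finrank K (piece J d) + (m + 1).choose d := by
          have h1 := finrank_quotPiece_add J d
          rw [finrank_quotPiece_full (Fintype.card_fin _) hf hreg.ne_zero hreg,
            finrank_homogeneous] at h1
          rw [degSet, Finset.card_finsuppAntidiag_nat_eq_multichoose, Finset.card_univ,
            Fintype.card_fin]
          omega
        set big := (degSet (m + 1) d).filter fun a => ∃ v, 2 ≤ a v
        set sq := (degSet (m + 1) d).filter fun a => ¬ ∃ v, 2 ≤ a v
        have hsum : big.card + sq.card = (degSet (m + 1) d).card :=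
          Finset.card_filter_add_card_filter_not _
        have hfib : ∀ P : Finset (Fin (m + 1)) → Prop,
            (sq.filter fun a => P a.support).card =
              {S : Finset (Fin (m + 1)) | P S ∧ S.card = d}.ncard := by
          intro P
          rw [← Set.ncard_coe_finset]
          refine Set.ncard_congr (fun a _ => a.support) ?_ ?_ ?_
          · intro a ha
            simp only [Finset.coe_filter, Set.mem_ofPred_eq, sq, Finset.mem_filter, mem_degSet,
              not_exists, not_le] at ha
            refine ⟨ha.2, ?_⟩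
            rw [← ha.1.1, Finsupp.degree_apply, Finset.card_eq_sum_ones]
            refine Finset.sum_congr rfl fun v hv => ?_
            have := ha.1.2 v
            have := Finsupp.mem_support_iff.1 hv
            omega
          · intro a b ha hb hab
            simp only [Finset.coe_filter, Set.mem_ofPred_eq, sq, Finset.mem_filter, not_exists,
              not_le] at ha hb
            ext v
            have h1 := ha.1.2 v
            have h2 := hb.1.2 v
            have h3 : v ∈ a.support ↔ v ∈ b.support := by rw [hab]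
            simp only [Finsupp.mem_support_iff] at h3
            omega
          · rintro S ⟨hS, hd⟩
            refine ⟨∑ v ∈ S, Finsupp.single v 1, ?_, ?_⟩
            · simp only [Finset.coe_filter, Set.mem_ofPred_eq, sq, Finset.mem_filter, mem_degSet,
                not_exists, not_le]
              have hval : ∀ v, (∑ w ∈ S, Finsupp.single w 1 : Fin (m + 1) →₀ ℕ) v =
                  if v ∈ S then 1 else 0 := fun v => by
                simp [Finsupp.single_apply, Finset.sum_ite_eq']
              refine ⟨⟨?_, fun v => ?_⟩, ?_⟩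
              · simp [map_sum, hd]
              · rw [hval]; split_ifs <;> omega
              · convert hS
                ext v
                rw [Finsupp.mem_support_iff, hval]
                split_ifs with hv <;> simp [hv]
            · ext v
              simp [Finsupp.single_apply, Finset.sum_ite_eq']
        have hall := hfib fun _ => True
        simp only [Finset.filter_true] at hall
        have hchoose : {S : Finset (Fin (m + 1)) | True ∧ S.card = d}.ncard = (m + 1).choose d := by
          rw [show {S : Finset (Fin (m + 1)) | True ∧ S.card = d} =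
            ((Finset.univ : Finset (Fin (m + 1))).powersetCard d : Finset _) by
              ext S; simp [Finset.mem_powersetCard]]
          rw [Set.ncard_coe_finset, Finset.card_powersetCard, Finset.card_univ, Fintype.card_fin]
        rw [hchoose] at hall
        have hfamd := hfib fun S => S ∈ fam I
        have e1 : {a ∈ {a : Fin (m + 1) →₀ ℕ | (∃ v, 2 ≤ a v) ∨ a.support ∈ fam I} | a.degree = d} =
            ((big ∪ sq.filter fun a => a.support ∈ fam I : Finset _) : Set (Fin (m + 1) →₀ ℕ)) := by
          ext a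
          simp only [Set.mem_ofPred_eq, Finset.coe_union, Set.mem_union, Finset.coe_filter,
            Finset.mem_filter, big, sq, mem_degSet]
          constructor
          · rintro ⟨h1 | h1, h2⟩
            · exact Or.inl ⟨h2, h1⟩
            · by_cases h3 : ∃ v, 2 ≤ a v
              · exact Or.inl ⟨h2, h3⟩
              · exact Or.inr ⟨⟨h2, h3⟩, h1⟩
          · rintro (⟨h1, h2⟩ | ⟨⟨h1, -⟩, h3⟩)
            · exact ⟨Or.inl h2, h1⟩
            · exact ⟨Or.inr h3, h1⟩
        refine (congrArg Set.ncard e1).trans ?_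
        have hdisj : Disjoint big (sq.filter fun a => a.support ∈ fam I) := by
          rw [Finset.disjoint_left]
          intro a ha hb
          simp only [big, sq, Finset.mem_filter] at ha hb
          exact hb.1.2 ha.2
        rw [Set.ncard_coe_finset, Finset.card_union_of_disjoint hdisj, hfamd]
        omega

end Vale.Agent.P200
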