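import Vale.Agent.P200.Main
import Vale.Agent.P200.CL

/-!
The Eisenbud-Green-Harris statement for regular sequences of quadrics, in every number of
variables and over every field: the lex-plus-powers space is an ideal.
-/

noncomputable section

namespace Vale.Agent.P200.Literal

open MvPolynomial Vale.Agent.P200

variable {K : Type*} [Field K] {n : ℕ}

/-- The monomial with exponent `a` lies in the ideal of the squares of the first `c` variables. -/
def inP (c : ℕ) (a : Fin n →₀ ℕ) : Prop := ∃ i : Fin n, (i : ℕ) < c ∧ 2 ≤ a i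

/-- The number of monomials outside the squares that are to be added in degree `d`. -/
def addCount (c : ℕ) (I : Ideal (MvPolynomial (Fin n) K)) (d : ℕ) : ℕ :=
  Module.finrank K ↥(I.restrictScalars K ⊓ homogeneousSubmodule (Fin n) K d) -
    {a : Fin n →₀ ℕ | a.degree = d ∧ inP c a}.ncard

/-- Exponents of the squares, or among the greatest ones outside them. -/
def inJ (c : ℕ) (I : Ideal (MvPolynomial (Fin n) K)) (a : Fin n →₀ ℕ) : Prop :=
  inP c a ∨ {b : Fin n →₀ ℕ | b.degree = a.degree ∧ ¬ inP c b ∧ toLex a < toLex b}.ncard <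
    addCount c I a.degree

/-- The lex-plus-powers space. -/
def lexPP (c : ℕ) (I : Ideal (MvPolynomial (Fin n) K)) : Submodule K (MvPolynomial (Fin n) K) :=
  Submodule.span K ((fun a => monomial a (1 : K)) '' {a | inJ c I a})

theorem seg_eq_top {κ : Fin n → ℕ} {d : ℕ} {L : Finset (Fin n → ℕ)} (hL : CL.IsSeg κ d L)
    {a : Fin n → ℕ} (ha : a ∈ CL.box κ d) :
    a ∈ L ↔ {b | b ∈ CL.box κ d ∧ CL.gtL b a}.ncard < L.card := by
  classical
  have e : {b | b ∈ CL.box κ d ∧ CL.gtL b a} =
      (((CL.box κ d).filter fun b => CL.gtL b a : Finset _) : Set (Fin n → ℕ)) := by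
    ext b; simp
  rw [e, Set.ncard_coe_finset]
  constructor
  · intro h
    refine Finset.card_lt_card ⟨fun b hb => ?_, fun hsub => ?_⟩
    · obtain ⟨hb, hba⟩ := Finset.mem_filter.1 hb
      exact hL.2 a h b hb hba
    · exact CL.gtL_irrefl a (Finset.mem_filter.1 (hsub h)).2
  · intro h
    by_contra hn
    refine absurd (Finset.card_le_card fun b hb => ?_) (not_le.2 h)
    refine Finset.mem_filter.2 ⟨hL.1 hb, ?_⟩
    rcases CL.gtL_total (show b ≠ a from fun e => hn (e ▸ hb)) with h' | h'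
    · exact h'
    · exact absurd (hL.2 b hb a ha h') hn

theorem gtL_coe {a b : Fin n →₀ ℕ} : CL.gtL ⇑b ⇑a ↔ toLex a < toLex b := by
  rw [CL.gtL_iff]
  exact Iff.rfl

/-- Bounds describing the exponents outside the squares up to degree `D`. -/
def cap (c D : ℕ) : Fin n → ℕ := fun i => if (i : ℕ) < c then 2 else D + 2

theorem cap_mono (c D : ℕ) : Monotone (cap (n := n) c D) := by
  intro i j hij
  have : (i : ℕ) ≤ (j : ℕ) := hij
  simp only [cap]
  split_ifs <;> omega

theorem mem_box_cap {c D d : ℕ} (hd : d ≤ D + 1) {a : Fin n →₀ ℕ} :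
    ⇑a ∈ CL.box (cap c D) d ↔ a.degree = d ∧ ¬ inP c a := by
  rw [CL.mem_box, Finsupp.degree_eq_sum]
  refine and_congr_right fun hs => ?_
  simp only [inP, cap, not_exists, not_and, not_le]
  refine forall_congr' fun i => ?_
  have : a i ≤ ∑ j, a j :=
    Finset.single_le_sum (f := fun j => a j) (fun j _ => Nat.zero_le _) (Finset.mem_univ i)
  split_ifs with h <;> simp only [h, forall_const, false_implies, iff_true] <;> omega

theorem image_box {c D d : ℕ} (hd : d ≤ D + 1) (T : Set (Fin n → ℕ)) :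
    (fun a : Fin n →₀ ℕ => ⇑a) '' {a | a.degree = d ∧ ¬ inP c a ∧ ⇑a ∈ T} =
      {b | b ∈ CL.box (cap c D) d ∧ b ∈ T} := by
  ext b
  constructor
  · rintro ⟨a, ⟨h1, h2, h3⟩, rfl⟩
    exact ⟨(mem_box_cap hd).2 ⟨h1, h2⟩, h3⟩
  · rintro ⟨h1, h2⟩
    refine ⟨Finsupp.equivFunOnFinite.symm b, ?_, Finsupp.coe_equivFunOnFinite_symm b⟩
    have e : ⇑(Finsupp.equivFunOnFinite.symm b) = b := Finsupp.coe_equivFunOnFinite_symm b
    have := (mem_box_cap hd (a := Finsupp.equivFunOnFinite.symm b)).1 (by rw [e]; exact h1)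
    exact ⟨this.1, this.2, by rw [e]; exact h2⟩

/-- For every homogeneous ideal containing a regular sequence of `c` quadrics the
lex-plus-powers space is an ideal, and it has the same Hilbert function. -/
theorem result {K : Type*} [Field K] {n c : ℕ} (hc : c ≤ n)
    (f : Fin c → MvPolynomial (Fin n) K) (hf : ∀ i, (f i).IsHomogeneous 2)
    (hreg : ∀ i g, g * f i ∈ Ideal.span (f '' Set.Iio i) → g ∈ Ideal.span (f '' Set.Iio i))
    (I : Ideal (MvPolynomial (Fin n) K)) (hI : ∀ p ∈ I, ∀ d, homogeneousComponent d p ∈ I)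
    (hfI : ∀ i, f i ∈ I) :
    (∀ g, ∀ p ∈ lexPP c I, g * p ∈ lexPP c I) ∧
      ∀ d, Module.finrank K ↥(lexPP c I ⊓ homogeneousSubmodule (Fin n) K d) =
        Module.finrank K ↥(I.restrictScalars K ⊓ homogeneousSubmodule (Fin n) K d) := by
  classical
  obtain ⟨U, hUup, hUsq, hUcount⟩ := exists_upset hc f hf hreg I hI hfI
  have hfin : ∀ (d : ℕ) (Q : (Fin n →₀ ℕ) → Prop), {a : Fin n →₀ ℕ | a.degree = d ∧ Q a}.Finite :=
    fun d Q => (degSet n d).finite_toSet.subset fun a ha => mem_degSet.2 ha.1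
  have hPU : ∀ a, inP c a → a ∈ U := by
    rintro a ⟨i, hi, hai⟩
    refine hUup _ (hUsq ⟨i, hi⟩) _ ?_
    intro j
    rw [show Fin.castLE hc ⟨i, hi⟩ = i from Fin.ext rfl, Finsupp.single_apply]
    split_ifs with h
    · exact h ▸ hai
    · exact Nat.zero_le _
  set q := fun d => {a : Fin n →₀ ℕ | a.degree = d ∧ ¬ inP c a ∧ a ∈ U}.ncard with hq
  have hqc : ∀ d, addCount c I d = q d ∧ q d + {a : Fin n →₀ ℕ | a.degree = d ∧ inP c a}.ncard =
      Module.finrank K (piece I d) := by
    intro d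
    have h := hUcount d
    rw [show {a ∈ U | a.degree = d} = {a : Fin n →₀ ℕ | a.degree = d ∧ ¬ inP c a ∧ a ∈ U} ∪
        {a | a.degree = d ∧ inP c a} by
      ext a
      simp only [Set.mem_ofPred_eq, Set.mem_union]
      constructor
      · intro h; by_cases h' : inP c a <;> tauto
      · rintro (h | h)
        · exact ⟨h.2.2, h.1⟩
        · exact ⟨hPU a h.2, h.1⟩,
      Set.ncard_union_eq (Set.disjoint_left.2 fun a ha hb => ha.2.1 hb.2) (hfin d _) (hfin d _)] at h
    refine ⟨?_, h⟩
    show Module.finrank K (piece I d) - _ = _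
    rw [← h]
    exact Nat.add_sub_cancel _ _
  -- segments of the required sizes
  have hcount : ∀ D d, d ≤ D + 1 → ∀ Q : (Fin n →₀ ℕ) → Prop, ∀ T : Set (Fin n → ℕ),
      (∀ a : Fin n →₀ ℕ, Q a ↔ ⇑a ∈ T) →
      {a : Fin n →₀ ℕ | a.degree = d ∧ ¬ inP c a ∧ Q a}.ncard =
        {b | b ∈ CL.box (cap c D) d ∧ b ∈ T}.ncard := by
    intro D d hd Q T hQT
    rw [← image_box hd T, Set.ncard_image_of_injective _ (fun a b h => DFunLike.coe_injective h)]
    simp only [hQT]
  have hA : ∀ D d, d ≤ D + 1 → ∃ A : Finset (Fin n → ℕ), A ⊆ CL.box (cap c D) d ∧ A.card = q d ∧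
      ∀ b, b ∈ A ↔ b ∈ CL.box (cap c D) d ∧ Finsupp.equivFunOnFinite.symm b ∈ U := by
    intro D d hd
    refine ⟨(CL.box (cap c D) d).filter fun b => Finsupp.equivFunOnFinite.symm b ∈ U,
      Finset.filter_subset _ _, ?_, fun b => Finset.mem_filter⟩
    rw [← Set.ncard_coe_finset, Finset.coe_filter]
    refine (hcount D d hd (fun a => a ∈ U) {b | Finsupp.equivFunOnFinite.symm b ∈ U}
      fun a => ?_).symm
    simp only [Set.mem_ofPred_eq, Finsupp.equivFunOnFinite_symm_coe]
  have hmemJ : ∀ D d, d ≤ D + 1 → ∀ L, CL.IsSeg (cap c D) d L → L.card = q d →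
      ∀ a : Fin n →₀ ℕ, a.degree = d → ¬ inP c a → (inJ c I a ↔ ⇑a ∈ L) := by
    intro D d hd L hL hLc a had haP
    rw [seg_eq_top hL ((mem_box_cap hd).2 ⟨had, haP⟩), hLc, inJ, or_iff_right haP, had, (hqc d).1,
      hcount D d hd (fun b => toLex a < toLex b) {b | CL.gtL b ⇑a} fun b => gtL_coe.symm]
    rfl
  have hstep : ∀ a : Fin n →₀ ℕ, inJ c I a → ∀ i, inJ c I (a + Finsupp.single i 1) := by
    intro a ha i
    by_cases haP : inP c a
    · obtain ⟨v, hv, hva⟩ := haP
      exact Or.inl ⟨v, hv, by simp only [Finsupp.add_apply]; omega⟩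
    by_cases hbP : inP c (a + Finsupp.single i 1)
    · exact Or.inl hbP
    set D := a.degree
    obtain ⟨A, hAb, hAc, hAm⟩ := hA D D (Nat.le_succ D)
    obtain ⟨A', hA'b, hA'c, hA'm⟩ := hA D (D + 1) le_rfl
    obtain ⟨L, hL, hLc⟩ := CL.exists_seg _ _ _ (Finset.card_le_card hAb)
    obtain ⟨L', hL', hL'c⟩ := CL.exists_seg _ _ _ (Finset.card_le_card hA'b)
    rw [hAc] at hLc
    rw [hA'c] at hL'c
    have hshA : CL.sh (cap c D) D A ⊆ A' := by
      intro b hb
      obtain ⟨hbB, j, hj, hjA⟩ := CL.mem_sh.1 hb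
      refine (hA'm b).2 ⟨hbB, hUup _ ((hAm _).1 hjA).2 _ fun v => ?_⟩
      simp
    have hle : (CL.sh (cap c D) D L).card ≤ L'.card := by
      refine le_trans (CL.clements_lindstrom (cap_mono c D) D A L hAb hL (by omega)) ?_
      exact le_of_le_of_eq (Finset.card_le_card hshA) (by omega)
    have hsub := hL.sh.subset_of_card_le hL' hle
    have hdeg : (a + Finsupp.single i 1).degree = D + 1 := by simp [D]
    have haL := (hmemJ D D (Nat.le_succ D) L hL hLc a rfl haP).1 ha
    refine (hmemJ D (D + 1) le_rfl L' hL' hL'c _ hdeg hbP).2 (hsub (CL.mem_sh.2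
      ⟨(mem_box_cap le_rfl).2 ⟨hdeg, hbP⟩, i, by simp, ?_⟩))
    convert haL using 1
    funext v
    simp [Pi.single_apply, Finsupp.single_apply, eq_comm]
  refine ⟨fun g p hp => ?_, fun d => ?_⟩
  · have hX : ∀ (i : Fin n), ∀ r ∈ lexPP c I, r * X i ∈ lexPP c I := by
      intro i r hr
      induction hr using Submodule.span_induction with
      | mem x hx =>
        obtain ⟨a, ha, rfl⟩ := hx
        refine Submodule.subset_span ⟨a + Finsupp.single i 1, hstep a ha i, ?_⟩
        simp [X, monomial_mul]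
      | zero => rw [zero_mul]; exact zero_mem _
      | add x y _ _ hx hy => rw [add_mul]; exact add_mem hx hy
      | smul r x _ hx => rw [smul_mul_assoc]; exact Submodule.smul_mem _ _ hx
    induction g using MvPolynomial.induction_on generalizing p with
    | C r => rw [C_mul']; exact Submodule.smul_mem _ _ hp
    | add g h hg hh => rw [add_mul]; exact add_mem (hg p hp) (hh p hp)
    | mul_X g i hg => rw [mul_assoc, mul_comm (X i)]; exact hg _ (hX i p hp)
  · have e : lexPP c I ⊓ homogeneousSubmodule (Fin n) K d =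
        restrictSupport K {a | inJ c I a ∧ a.degree = d} := by
      have h1 : lexPP c I = restrictSupport K {a | inJ c I a} :=
        (restrictSupport_eq_span K _).symm
      ext p
      simp only [h1, Submodule.mem_inf, mem_restrictSupport_iff, mem_homogeneousSubmodule,
        Set.subset_def, Finset.mem_coe, Set.mem_ofPred_eq]
      constructor
      · rintro ⟨h2, h3⟩ a ha
        refine ⟨h2 a ha, ?_⟩
        by_contra hne
        exact MvPolynomial.mem_support_iff.1 ha (h3.coeff_eq_zero hne)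
      · intro h
        refine ⟨fun a ha => (h a ha).1, fun a ha => ?_⟩
        have hd := (h a (MvPolynomial.mem_support_iff.2 ha)).2
        rwa [Finsupp.degree_eq_weight_one] at hd
    rw [e, Module.finrank_eq_nat_card_basis (basisRestrictSupport K _), Nat.card_coe_set_eq]
    obtain ⟨A, hAb, hAc, hAm⟩ := hA d d (Nat.le_succ d)
    obtain ⟨L, hL, hLc⟩ := CL.exists_seg _ _ _ (Finset.card_le_card hAb)
    rw [hAc] at hLc
    rw [show {a | inJ c I a ∧ a.degree = d} =
        {a : Fin n →₀ ℕ | a.degree = d ∧ ¬ inP c a ∧ ⇑a ∈ (L : Set (Fin n → ℕ))} ∪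
          {a | a.degree = d ∧ inP c a} by
      ext a
      simp only [Set.mem_ofPred_eq, Set.mem_union, Finset.mem_coe]
      by_cases haP : inP c a
      · simp only [haP, not_true_eq_false, false_and, and_false, false_or, and_true]
        exact ⟨fun h => h.2, fun h => ⟨Or.inl haP, h⟩⟩
      · by_cases had : a.degree = d
        · rw [hmemJ d d (Nat.le_succ d) L hL hLc a had haP]
          simp [haP, had]
        · simp [had],
      Set.ncard_union_eq (Set.disjoint_left.2 fun a ha hb => ha.2.1 hb.2) (hfin d _) (hfin d _),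
      hcount d d (Nat.le_succ d) (fun a => ⇑a ∈ (L : Set (Fin n → ℕ))) L (fun a => Iff.rfl)]
    rw [show {b | b ∈ CL.box (cap c d) d ∧ b ∈ (L : Set (Fin n → ℕ))} = (L : Set (Fin n → ℕ)) by
      ext b; exact ⟨fun h => h.2, fun h => ⟨hL.1 h, h⟩⟩, Set.ncard_coe_finset, hLc]
    exact (hqc d).2

end Vale.Agent.P200.Literal
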