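import Vale.Agent.P200.Levels

/-!
Monomial models over an arbitrary field for ideals containing a regular sequence of quadrics.
-/

noncomputable section

namespace Vale.Agent.P200

open MvPolynomial

/-- Upward closed exponent sets with the Hilbert function of a given ideal. -/
theorem exists_upset {K : Type*} [Field K] {n c : ℕ} (hc : c ≤ n)
    (f : Fin c → MvPolynomial (Fin n) K) (hf : ∀ i, (f i).IsHomogeneous 2)
    (hreg : IsRegSeq f) (I : Ideal (MvPolynomial (Fin n) K)) (hI : IsHomIdeal I)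
    (hfI : ∀ i, f i ∈ I) :
    ∃ U : Set (Fin n →₀ ℕ), (∀ a ∈ U, ∀ b, a ≤ b → b ∈ U) ∧
      (∀ i : Fin c, Finsupp.single (Fin.castLE hc i) 2 ∈ U) ∧
      ∀ d, {a ∈ U | a.degree = d}.ncard = Module.finrank K (piece I d) := by
  have hs : StrongReg f :=
    strongReg_of_isRegSeq f (fun _ => 2) (fun _ => Nat.two_pos) hf hreg
  let fL : Fin c → MvPolynomial (Fin n) (RatFunc K) :=
    fun i => map (algebraMap K (RatFunc K)) (f i)
  have : Infinite (RatFunc K) :=
    Infinite.of_injective _ (IsFractionRing.injective (Polynomial K) (RatFunc K))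
  obtain ⟨Ψ, -, hΨ⟩ := exists_model n c hc fL (fun i => (hf i).map _) hs.extend
  obtain ⟨hup, hsq, hcount⟩ := hΨ (extI (RatFunc K) I) (isHomIdeal_extI hI)
    (fun i => Ideal.mem_map_of_mem _ (hfI i))
  set Ω : Set (Fin n →₀ ℕ) := Ψ (extI (RatFunc K) I)
  refine ⟨{a | Finsupp.equivMapDomain Fin.revPerm a ∈ Ω}, fun a ha b hab => hup _ ha _ fun v => by
    simp only [Finsupp.equivMapDomain_apply]
    exact hab _, fun i => ?_, fun d => ?_⟩
  · show Finsupp.equivMapDomain Fin.revPerm (Finsupp.single (Fin.castLE hc i) 2) ∈ Ω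
    rw [Finsupp.equivMapDomain_single]
    refine hsq _ ?_
    have := i.2
    simp only [Fin.revPerm_apply, Fin.val_rev, Fin.val_castLE]
    omega
  · refine (Eq.trans ?_ (hcount d)).trans (finrank_piece_extI I d)
    refine Set.ncard_congr (fun a _ => Finsupp.equivMapDomain Fin.revPerm a) ?_ ?_ ?_
    · rintro a ⟨ha, hd⟩
      refine ⟨ha, ?_⟩
      rw [Finsupp.equivMapDomain_eq_mapDomain, Finsupp.degree_mapDomain]
      exact hd
    · intro a b _ _ h
      exact (Finsupp.domCongr Fin.revPerm).injective h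
    · rintro b ⟨hb, hd⟩
      refine ⟨Finsupp.equivMapDomain Fin.revPerm b, ⟨?_, ?_⟩, ?_⟩
      · show Finsupp.equivMapDomain Fin.revPerm (Finsupp.equivMapDomain Fin.revPerm b) ∈ Ω
        convert hb
        ext v; simp [Finsupp.equivMapDomain_apply]
      · rw [Finsupp.equivMapDomain_eq_mapDomain, Finsupp.degree_mapDomain]
        exact hd
      · ext v; simp [Finsupp.equivMapDomain_apply]

end Vale.Agent.P200
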