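import Mathlib

/-!
Generalities on homogeneous ideals of polynomial rings and their graded quotients.
-/

noncomputable section

namespace Vale.Agent.P200

open MvPolynomial

variable {σ K : Type*} [Field K]

/-- An ideal closed under taking homogeneous components. -/
def IsHomIdeal (I : Ideal (MvPolynomial σ K)) : Prop :=
  ∀ p ∈ I, ∀ d, homogeneousComponent d p ∈ I

theorem isHomIdeal_span (s : Set (MvPolynomial σ K))
    (hs : ∀ p ∈ s, ∃ d, p.IsHomogeneous d) : IsHomIdeal (Ideal.span s) := by
  let : GradedAlgebra (homogeneousSubmodule σ K) := MvPolynomial.gradedAlgebra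
  have h : (Ideal.span s).IsHomogeneous (homogeneousSubmodule σ K) :=
    Ideal.homogeneous_span _ s (fun p hp => by
      obtain ⟨d, hd⟩ := hs p hp
      exact ⟨d, hd⟩)
  exact fun p hp d => homogeneousComponent_mem_of_mem h hp d

theorem homogeneousComponent_succ_X_mul (k : σ) (p : MvPolynomial σ K) (n : ℕ) :
    homogeneousComponent (n + 1) (X k * p) = X k * homogeneousComponent n p := by
  induction p using MvPolynomial.induction_on' with
  | monomial d c =>
    rw [X, monomial_mul, homogeneousComponent_of_mem (isHomogeneous_monomial _ rfl),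
      homogeneousComponent_of_mem (isHomogeneous_monomial _ rfl)]
    have : (Finsupp.single k 1 + d).degree = d.degree + 1 := by
      rw [map_add, Finsupp.degree_single, add_comm]
    rw [this]
    by_cases h : n = d.degree
    · subst h; simp [monomial_mul]
    · simp [h]
  | add p q hp hq => simp only [mul_add, map_add, hp, hq]

theorem homogeneousComponent_zero_X_mul (k : σ) (p : MvPolynomial σ K) :
    homogeneousComponent 0 (X k * p) = 0 := by
  classical
  rw [homogeneousComponent_zero, coeff_X_mul']
  simp

variable (I : Ideal (MvPolynomial σ K))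

/-- The degree `d` piece of the quotient by an ideal. -/
def quotPiece (d : ℕ) : Submodule K (MvPolynomial σ K ⧸ I) :=
  (homogeneousSubmodule σ K d).map (Ideal.Quotient.mkₐ K I).toLinearMap

instance quotPiece_finite [Fintype σ] (d : ℕ) : FiniteDimensional K (quotPiece I d) := by
  have : FiniteDimensional K (homogeneousSubmodule σ K d) :=
    Module.Finite.iff_fg.2 (homogeneousSubmodule_fg σ K d)
  exact Module.Finite.map _ _

/-- Projection of the quotient by a homogeneous ideal onto its degree `d` piece. -/
def quotProj (hI : IsHomIdeal I) (d : ℕ) :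
    (MvPolynomial σ K ⧸ I) →ₗ[K] (MvPolynomial σ K ⧸ I) :=
  ((I.restrictScalars K).liftQ
      ((Ideal.Quotient.mkₐ K I).toLinearMap ∘ₗ homogeneousComponent d)
      (fun p hp => by
        simp only [LinearMap.mem_ker, LinearMap.comp_apply, AlgHom.toLinearMap_apply,
          Ideal.Quotient.mkₐ_eq_mk, Ideal.Quotient.eq_zero_iff_mem]
        exact hI p hp d)) ∘ₗ
    (Submodule.Quotient.restrictScalarsEquiv K I).symm.toLinearMap

theorem quotProj_mk (hI : IsHomIdeal I) (d : ℕ) (p : MvPolynomial σ K) :
    quotProj I hI d (Ideal.Quotient.mk I p) = Ideal.Quotient.mk I (homogeneousComponent d p) :=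
  rfl

theorem quotProj_mem (hI : IsHomIdeal I) (d : ℕ) (a : MvPolynomial σ K ⧸ I) :
    quotProj I hI d a ∈ quotPiece I d := by
  obtain ⟨p, rfl⟩ := Ideal.Quotient.mk_surjective a
  exact ⟨homogeneousComponent d p, homogeneousComponent_mem d p, rfl⟩

theorem quotProj_of_mem (hI : IsHomIdeal I) (d : ℕ) {a : MvPolynomial σ K ⧸ I}
    (ha : a ∈ quotPiece I d) : quotProj I hI d a = a := by
  obtain ⟨p, hp, rfl⟩ := ha
  show Ideal.Quotient.mk I (homogeneousComponent d p) = Ideal.Quotient.mk I p
  congr 1
  exact homogeneousComponent_eq_self ((mem_homogeneousSubmodule _ _).1 hp)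

theorem sum_quotProj (hI : IsHomIdeal I) (a : MvPolynomial σ K ⧸ I) :
    ∃ D, a = ∑ d ∈ Finset.range D, quotProj I hI d a := by
  obtain ⟨p, rfl⟩ := Ideal.Quotient.mk_surjective a
  refine ⟨p.totalDegree + 1, ?_⟩
  simp only [quotProj_mk, ← map_sum, sum_homogeneousComponent]

end Vale.Agent.P200
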