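import Vale.Agent.P200.Base

/-!
General linear forms modulo regular sequences shorter than the number of variables.
-/

noncomputable section

namespace Vale.Agent.P200

open MvPolynomial

universe u

variable {K : Type u} [Field K]

theorem StrongReg.mapEquiv {σ τ ι : Type*} {f : ι → MvPolynomial σ K} (hf : StrongReg f)
    (E : MvPolynomial σ K ≃ₐ[K] MvPolynomial τ K) : StrongReg (fun i => E (f i)) := by
  intro S t ht g hg
  have h1 : E.symm g * f t ∈ Ideal.span (f '' S) := by
    have h := Ideal.mem_map_of_mem (E.symm : MvPolynomial τ K →ₐ[K] MvPolynomial σ K) hg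
    rw [Ideal.map_span, Set.image_image] at h
    simpa using h
  have h2 := Ideal.mem_map_of_mem (E : MvPolynomial σ K →ₐ[K] MvPolynomial τ K) (hf S t ht _ h1)
  rw [Ideal.map_span, Set.image_image] at h2
  simpa using h2

/-- Setting the first variable to zero. -/
def res0 (m : ℕ) : MvPolynomial (Fin (m + 1)) K →ₐ[K] MvPolynomial (Fin m) K :=
  aeval (Fin.cases 0 X)

theorem res0_rename (m : ℕ) (q : MvPolynomial (Fin m) K) : res0 m (rename Fin.succ q) = q := by
  have : (res0 m).comp (rename Fin.succ) = AlgHom.id K (MvPolynomial (Fin m) K) := by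
    ext v; simp [res0]
  exact AlgHom.congr_fun this q

theorem sub_res0_mem (m : ℕ) (p : MvPolynomial (Fin (m + 1)) K) :
    p - rename Fin.succ (res0 m p) ∈ Ideal.span {(X 0 : MvPolynomial (Fin (m + 1)) K)} := by
  induction p using MvPolynomial.induction_on with
  | C r => simp [res0]
  | add p q hp hq =>
    rw [map_add, map_add, add_sub_add_comm]
    exact Ideal.add_mem _ hp hq
  | mul_X p v hp =>
    refine Fin.cases ?_ (fun j => ?_) v
    · have : res0 m (p * X 0) = 0 := by simp [res0]
      rw [this, map_zero, sub_zero]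
      exact Ideal.mul_mem_left _ _ (Ideal.subset_span rfl)
    · have : rename Fin.succ (res0 m (p * X j.succ)) =
          rename Fin.succ (res0 m p) * (X j.succ : MvPolynomial (Fin (m + 1)) K) := by
        simp [res0]
      rw [this, ← sub_mul]
      exact Ideal.mul_mem_right _ _ hp

theorem res0_homogeneous {m d : ℕ} {p : MvPolynomial (Fin (m + 1)) K} (hp : p.IsHomogeneous d) :
    (res0 m p).IsHomogeneous d := by
  have h := hp.aeval (Fin.cases 0 X : Fin (m + 1) → MvPolynomial (Fin m) K) (n := 1)
    (fun v => Fin.cases (isHomogeneous_zero _ _ _) (fun j => isHomogeneous_X K j) v)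
  rwa [one_mul] at h

theorem homogeneousComponent_res0 {m : ℕ} (p : MvPolynomial (Fin (m + 1)) K) (d : ℕ) :
    homogeneousComponent d (res0 m p) = res0 m (homogeneousComponent d p) := by
  conv_lhs => rw [← sum_homogeneousComponent p, map_sum, map_sum]
  by_cases hd : d ∈ Finset.range (p.totalDegree + 1)
  · rw [Finset.sum_eq_single d]
    · rw [homogeneousComponent_eq_self (res0_homogeneous (homogeneousComponent_isHomogeneous d p))]
    · intro j _ hj
      rw [homogeneousComponent_of_mem (res0_homogeneous (homogeneousComponent_isHomogeneous j p)),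
        if_neg (Ne.symm hj)]
    · intro h; exact absurd hd h
  · rw [homogeneousComponent_eq_zero d p (by simpa using hd), map_zero]
    exact Finset.sum_eq_zero fun j hj => by
      rw [homogeneousComponent_of_mem (res0_homogeneous (homogeneousComponent_isHomogeneous j p)),
        if_neg (fun h : d = j => hd (h ▸ hj))]

/-- Regular sequences stay regular modulo a variable which is regular modulo all of them. -/
theorem strongReg_res0 {m c : ℕ} {g : Fin c → MvPolynomial (Fin (m + 1)) K}
    (hg : ∀ i, (g i).IsHomogeneous 2) (hreg : StrongReg g)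
    (hX : ∀ p, p * X 0 ∈ Ideal.span (Set.range g) → p ∈ Ideal.span (Set.range g)) :
    StrongReg (fun i => res0 m (g i)) := by
  set gx : Fin (c + 1) → MvPolynomial (Fin (m + 1)) K := Fin.snoc g (X 0) with hgx
  have hgX : ∀ i : Fin c, gx i.castSucc = g i := fun i => by simp [hgx]
  have himg : ∀ T : Set (Fin c), gx '' (Fin.castSucc '' T) = g '' T := fun T => by
    rw [Set.image_image]; simp only [hgX]
  have hs : StrongReg gx := by
    refine strongReg_of_isRegSeq gx (Fin.snoc (fun _ => 2) 1) (fun i => ?_) (fun i => ?_) ?_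
    · refine Fin.lastCases ?_ (fun j => ?_) i <;> simp
    · refine Fin.lastCases ?_ (fun j => ?_) i
      · simpa [hgx] using isHomogeneous_X K (0 : Fin (m + 1))
      · simpa [hgx] using hg j
    · intro i
      refine Fin.lastCases ?_ (fun j => ?_) i
      · intro p hp
        have e : gx '' Set.Iio (Fin.last c) = Set.range g := by
          rw [← Set.image_univ, ← himg]
          congr 1
          ext k
          refine Fin.lastCases ?_ (fun j => ?_) k
          · simp [Fin.castSucc_ne_last]
          · simp [Fin.castSucc_lt_last]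
        rw [e] at hp ⊢
        refine hX p ?_
        simpa [hgx] using hp
      · intro p hp
        rw [← Fin.image_castSucc_Iio, himg] at hp ⊢
        rw [hgX] at hp
        exact hreg.isRegSeq j p hp
  intro S t ht h hh
  set T : Set (Fin (c + 1)) := insert (Fin.last c) (Fin.castSucc '' S)
  have hT : Ideal.span (gx '' T) = Ideal.span {X 0} ⊔ Ideal.span (g '' S) := by
    rw [Set.image_insert_eq, himg, Ideal.span_insert]
    simp [hgx]
  have htT : t.castSucc ∉ T := by
    rintro (h | ⟨s, hs, h⟩)
    · exact absurd h (Fin.castSucc_ne_last t)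
    · exact ht ((Fin.castSucc_injective _ h) ▸ hs)
  have hlift : ∀ q ∈ Ideal.span ((fun i => res0 m (g i)) '' S),
      rename Fin.succ q ∈ Ideal.span (gx '' T) := by
    intro q hq
    have h0 := Ideal.mem_map_of_mem (rename Fin.succ : MvPolynomial (Fin m) K →ₐ[K] _) hq
    rw [Ideal.map_span, Set.image_image] at h0
    refine (Ideal.span_le.2 ?_) h0
    rintro _ ⟨s, hs', rfl⟩
    have e : rename Fin.succ (res0 m (g s)) = g s - (g s - rename Fin.succ (res0 m (g s))) := by
      rw [sub_sub_cancel]
    show rename Fin.succ (res0 m (g s)) ∈ _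
    rw [e, hT]
    exact Ideal.sub_mem _ (Submodule.mem_sup_right (Ideal.subset_span ⟨s, hs', rfl⟩))
      (Submodule.mem_sup_left (sub_res0_mem m (g s)))
  have h1 : rename Fin.succ h * gx t.castSucc ∈ Ideal.span (gx '' T) := by
    rw [hgX]
    have e : rename Fin.succ h * g t = rename Fin.succ (h * res0 m (g t)) +
        rename Fin.succ h * (g t - rename Fin.succ (res0 m (g t))) := by
      rw [map_mul]; ring
    rw [e]
    refine Ideal.add_mem _ (hlift _ hh) ?_
    rw [hT]
    exact Submodule.mem_sup_left (Ideal.mul_mem_left _ _ (sub_res0_mem m (g t)))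
  have h2 := hs T _ htT _ h1
  rw [hT] at h2
  have h3 := Ideal.mem_map_of_mem (res0 m (K := K)) h2
  rw [Ideal.map_sup, Ideal.map_span, Ideal.map_span, Set.image_singleton, res0_rename,
    Set.image_image] at h3
  simpa [res0] using h3

/-- A linear change of variables. -/
theorem exists_change {m : ℕ} (a : Fin (m + 1) → K) (ha : a ≠ 0) :
    ∃ E : MvPolynomial (Fin (m + 1)) K ≃ₐ[K] MvPolynomial (Fin (m + 1)) K,
      E (∑ j, a j • X j) = X 0 ∧ (∀ p d, p.IsHomogeneous d → (E p).IsHomogeneous d) ∧
      (∀ p d, p.IsHomogeneous d → (E.symm p).IsHomogeneous d) := by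
  obtain ⟨p, hp⟩ := Function.ne_iff.1 ha
  set σ := Equiv.swap 0 p
  let b : Fin (m + 1) → K := fun j => a (σ j)
  have hb : b 0 ≠ 0 := by simpa [b, σ] using hp
  let T : MvPolynomial (Fin (m + 1)) K →ₐ[K] MvPolynomial (Fin (m + 1)) K :=
    aeval (Fin.cases (b 0 • X 0 + ∑ j : Fin m, b j.succ • X j.succ) (fun j => X j.succ))
  let T' : MvPolynomial (Fin (m + 1)) K →ₐ[K] MvPolynomial (Fin (m + 1)) K :=
    aeval (Fin.cases ((b 0)⁻¹ • (X 0 - ∑ j : Fin m, b j.succ • X j.succ)) (fun j => X j.succ))
  have h1 : T.comp T' = AlgHom.id K _ := by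
    ext v
    refine Fin.cases ?_ (fun j => ?_) v
    · simp [T, T', smul_smul, hb]
    · simp [T, T']
  have h2 : T'.comp T = AlgHom.id K _ := by
    ext v
    refine Fin.cases ?_ (fun j => ?_) v
    · simp [T, T', smul_smul, hb]
    · simp [T, T']
  let E0 := AlgEquiv.ofAlgHom T' T h2 h1
  refine ⟨(renameEquiv K σ).trans E0, ?_, fun q d hq => ?_, fun q d hq => ?_⟩
  · have e : rename σ (∑ j, a j • (X j : MvPolynomial (Fin (m + 1)) K)) = T (X 0) := by
      simp only [map_sum, map_smul, rename_X, T, aeval_X, Fin.cases_zero]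
      rw [← Equiv.sum_comp σ, Fin.sum_univ_succ]
      simp [b, σ]
    show T' (rename σ (∑ j, a j • X j)) = X 0
    rw [e]
    exact AlgHom.congr_fun h2 (X 0)
  · show (T' (rename σ q)).IsHomogeneous d
    have h := (hq.rename_isHomogeneous (f := σ)).aeval
      (Fin.cases ((b 0)⁻¹ • ((X 0 : MvPolynomial (Fin (m + 1)) K) - ∑ j : Fin m, b j.succ • X j.succ))
        (fun j => X j.succ))
      (n := 1) (fun v => by
        refine Fin.cases ?_ (fun j => isHomogeneous_X K j.succ) v
        rw [Fin.cases_zero, ← mem_homogeneousSubmodule]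
        exact Submodule.smul_mem _ _ (Submodule.sub_mem _ ((mem_homogeneousSubmodule _ _).2 (isHomogeneous_X K (0 : Fin (m + 1))))
          (Submodule.sum_mem _ fun j _ => Submodule.smul_mem _ _ ((mem_homogeneousSubmodule _ _).2 (isHomogeneous_X K _)))))
    rwa [one_mul] at h
  · show (rename σ.symm (T q)).IsHomogeneous d
    refine IsHomogeneous.rename_isHomogeneous ?_
    have h := hq.aeval
      (Fin.cases (b 0 • (X 0 : MvPolynomial (Fin (m + 1)) K) + ∑ j : Fin m, b j.succ • X j.succ)
        (fun j => X j.succ))
      (n := 1) (fun v => by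
        refine Fin.cases ?_ (fun j => isHomogeneous_X K j.succ) v
        rw [Fin.cases_zero, ← mem_homogeneousSubmodule]
        exact Submodule.add_mem _ (Submodule.smul_mem _ _ ((mem_homogeneousSubmodule _ _).2 (isHomogeneous_X K (0 : Fin (m + 1)))))
          (Submodule.sum_mem _ fun j _ => Submodule.smul_mem _ _ ((mem_homogeneousSubmodule _ _).2 (isHomogeneous_X K _))))
    rwa [one_mul] at h

/-- A linear form regular modulo an ideal without socle. -/
theorem exists_regular_form [Infinite K] {n : ℕ} (hn : 0 < n)
    (J : Ideal (MvPolynomial (Fin n) K))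
    (hsoc : ∀ z, (∀ j, z * X j ∈ J) → z ∈ J) :
    ∃ a : Fin n → K, a ≠ 0 ∧ ∀ p, p * (∑ j, a j • X j) ∈ J → p ∈ J := by
  classical
  let φ : (Fin n → K) →ₗ[K] MvPolynomial (Fin n) K := Fintype.linearCombination K X
  let H : Ideal (MvPolynomial (Fin n) K) → Submodule K (Fin n → K) :=
    fun P => (P.restrictScalars K).comap φ
  set Q := MvPolynomial (Fin n) K ⧸ J
  let s : Set (Submodule K (Fin n → K)) :=
    insert ⊥ (H '' associatedPrimes (MvPolynomial (Fin n) K) Q)
  have hfin : s.Finite := ((associatedPrimes.finite _ _).image H).insert _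
  have : Nonempty (Fin n) := ⟨⟨0, hn⟩⟩
  have htop : ⊤ ∉ hfin.toFinset := by
    rw [Set.Finite.mem_toFinset]
    rintro (h | ⟨P, hP, h⟩)
    · exact top_ne_bot h
    · obtain ⟨hprime, z, hz⟩ := isAssociatedPrime_iff.1 hP
      obtain ⟨w, rfl⟩ := Ideal.Quotient.mk_surjective z
      have hw : w ∈ J := by
        refine hsoc w fun j => ?_
        have hX : (X j : MvPolynomial (Fin n) K) ∈ P := by
          have : (Pi.single j 1 : Fin n → K) ∈ H P := h ▸ Submodule.mem_top
          simpa [H, φ, Fintype.linearCombination_apply_single] using this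
        rw [hz, Submodule.mem_colon_singleton, Submodule.mem_bot] at hX
        rw [← Ideal.Quotient.eq_zero_iff_mem, ← hX, mul_comm]
        rfl
      apply hprime.ne_top
      rw [hz, Ideal.eq_top_iff_one, Submodule.mem_colon_singleton, Submodule.mem_bot,
        Ideal.Quotient.eq_zero_iff_mem.2 hw, smul_zero]
  have hne := Subspace.biUnion_ne_univ_of_top_notMem htop
  obtain ⟨a, ha⟩ := (Set.ne_univ_iff_exists_notMem _).1 hne
  simp only [Set.mem_iUnion, SetLike.mem_coe, Set.Finite.mem_toFinset, not_exists] at ha
  refine ⟨a, fun h0 => ha ⊥ (Set.mem_insert _ _) (by simp [h0]), fun p hp => ?_⟩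
  by_contra hpJ
  have hmem : φ a ∈ ⋃ P ∈ associatedPrimes (MvPolynomial (Fin n) K) Q, (P : Set _) := by
    rw [biUnion_associatedPrimes_eq_zero_divisors]
    refine ⟨Ideal.Quotient.mk J p, fun h => hpJ (Ideal.Quotient.eq_zero_iff_mem.1 h), ?_⟩
    show Ideal.Quotient.mk J (φ a * p) = 0
    rw [Ideal.Quotient.eq_zero_iff_mem, mul_comm]
    exact hp
  simp only [Set.mem_iUnion] at hmem
  obtain ⟨P, hP, hPa⟩ := hmem
  exact ha (H P) (Set.mem_insert_of_mem _ ⟨P, hP, rfl⟩) hPa

/-- No socle modulo a regular sequence shorter than the number of variables. -/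
theorem socle_free [Infinite K] : ∀ (n k : ℕ), k < n → ∀ f : Fin k → MvPolynomial (Fin n) K,
    (∀ i, (f i).IsHomogeneous 2) → StrongReg f →
    ∀ z, (∀ j, z * X j ∈ Ideal.span (Set.range f)) → z ∈ Ideal.span (Set.range f) := by
  intro n
  induction n with
  | zero => intro k hk; exact absurd hk (Nat.not_lt_zero k)
  | succ m ihn =>
    intro k
    induction k with
    | zero =>
      intro _ f _ _ z hz
      have h := hz 0
      rw [show Set.range f = ∅ from Set.range_eq_empty f, Ideal.span_empty, Submodule.mem_bot,
        mul_eq_zero] at h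
      rcases h with h | h
      · rw [h]; exact zero_mem _
      · exact absurd h (X_ne_zero 0)
    | succ k ihk =>
      intro hk f hf hreg z hz
      set f' := f ∘ Fin.castSucc with hf'
      have hf2 : ∀ i, (f' i).IsHomogeneous 2 := fun i => hf _
      have hreg' : StrongReg f' := hreg.comp _ (Fin.castSucc_injective _)
      obtain ⟨a, ha, hal⟩ := exists_regular_form (Nat.succ_pos m) _ (ihk (by omega) f' hf2 hreg')
      set l : MvPolynomial (Fin (m + 1)) K := ∑ j, a j • X j
      set J := Ideal.span (Set.range f') with hJ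
      set F := f (Fin.last k) with hF
      have hJF : Ideal.span (Set.range f) = Ideal.span {F} ⊔ J := by
        rw [hJ, hf', Set.range_comp, ← Ideal.span_insert, hF, ← Set.image_insert_eq]
        congr 1
        rw [← Set.image_univ]
        congr 1
        ext i
        refine Fin.lastCases ?_ (fun j => ?_) i <;> simp
      have hFreg : ∀ g, g * F ∈ J → g ∈ J := by
        intro g hg
        have e : Set.range f' = f '' Set.range Fin.castSucc := Set.range_comp _ _
        rw [hJ, e] at hg ⊢
        exact hreg _ _ (by simp [Fin.castSucc_ne_last]) g hg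
      rw [hJF] at hz ⊢
      -- the exchanged element
      have hlz : z * l ∈ Ideal.span {F} ⊔ J := by
        simp only [l, Finset.mul_sum, smul_eq_C_mul, mul_left_comm z]
        exact Ideal.sum_mem _ fun j _ => Ideal.mul_mem_left _ _ (hz j)
      obtain ⟨_, hw, q, hq, hwq⟩ := Submodule.mem_sup.1 hlz
      obtain ⟨w, rfl⟩ := Ideal.mem_span_singleton'.1 hw
      have hwx : ∀ j, w * X j ∈ Ideal.span {l} ⊔ J := by
        intro j
        obtain ⟨_, hu, r, hr, hur⟩ := Submodule.mem_sup.1 (hz j)
        obtain ⟨u, rfl⟩ := Ideal.mem_span_singleton'.1 hu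
        have h1 : (w * X j - u * l) * F ∈ J := by
          have : (w * X j - u * l) * F = r * l - q * X j := by
            calc (w * X j - u * l) * F = (w * F + q) * X j - (u * F + r) * l + (r * l - q * X j) := by
                  ring
              _ = r * l - q * X j := by rw [hwq, hur]; ring
          rw [this]
          exact Ideal.sub_mem _ (Ideal.mul_mem_right _ _ hr) (Ideal.mul_mem_right _ _ hq)
        have h2 := hFreg _ h1
        rw [show w * X j = u * l + (w * X j - u * l) by ring]
        exact Submodule.add_mem_sup (Ideal.mem_span_singleton'.2 ⟨u, rfl⟩) h2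
      -- change coordinates and drop the first variable
      obtain ⟨E, hE, hEh, hEh'⟩ := exists_change a ha
      set g := fun i => E (f' i)
      have hg2 : ∀ i, (g i).IsHomogeneous 2 := fun i => hEh _ _ (hf2 i)
      have hEJ : ∀ p, p ∈ J ↔ E p ∈ Ideal.span (Set.range g) := by
        intro p
        have e : Ideal.span (Set.range g) =
            J.map (E : MvPolynomial (Fin (m + 1)) K →ₐ[K] MvPolynomial (Fin (m + 1)) K) := by
          rw [hJ, Ideal.map_span, ← Set.range_comp]; rfl
        rw [e]
        constructor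
        · exact fun h => Ideal.mem_map_of_mem _ h
        · intro h
          rw [Ideal.map_span, Set.image_univ.symm.trans rfl] at e
          have h' := Ideal.mem_map_of_mem
            (E.symm : MvPolynomial (Fin (m + 1)) K →ₐ[K] MvPolynomial (Fin (m + 1)) K) h
          rw [hJ, Ideal.map_span, Ideal.map_span, Set.image_image] at h'
          simpa using h'
      have hX : ∀ p, p * X 0 ∈ Ideal.span (Set.range g) → p ∈ Ideal.span (Set.range g) := by
        intro p hp
        have h : E.symm p * l ∈ J := by
          rw [hEJ, map_mul, AlgEquiv.apply_symm_apply, hE]; exact hp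
        have := (hEJ _).1 (hal _ h)
        rwa [AlgEquiv.apply_symm_apply] at this
      have hres := strongReg_res0 hg2 (hreg'.mapEquiv E) hX
      have hw0 := ihn k (by omega) (fun i => res0 m (g i)) (fun i => res0_homogeneous (hg2 i)) hres
        (res0 m (E w)) (fun j => by
          obtain ⟨j', hj'⟩ : ∃ j', j' = (X j.succ : MvPolynomial (Fin (m + 1)) K) := ⟨_, rfl⟩
          have hlin : ∀ y : MvPolynomial (Fin (m + 1)) K, y.IsHomogeneous 1 →
              w * y ∈ Ideal.span {l} ⊔ J := by
            intro y hy
            rw [← mem_homogeneousSubmodule, homogeneousSubmodule_one_eq_span_X] at hy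
            induction hy using Submodule.span_induction with
            | mem x hx => obtain ⟨i, rfl⟩ := hx; exact hwx i
            | zero => simp
            | add x y _ _ hx hy => rw [mul_add]; exact Submodule.add_mem _ hx hy
            | smul r x _ hx => rw [mul_smul_comm, smul_eq_C_mul]; exact Ideal.mul_mem_left _ _ hx
          have h := hlin (E.symm (X j.succ)) (hEh' _ _ (isHomogeneous_X K _))
          obtain ⟨_, hv, r, hr, hvr⟩ := Submodule.mem_sup.1 h
          obtain ⟨v, rfl⟩ := Ideal.mem_span_singleton'.1 hv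
          have h2 := congrArg (fun p => res0 m (E p)) hvr
          have hEl : E l = X 0 := hE
          simp only [map_add, map_mul, hEl, AlgEquiv.apply_symm_apply] at h2
          have hx0 : res0 m (X 0 : MvPolynomial (Fin (m + 1)) K) = 0 := by simp [res0]
          have hxj : res0 m (X j.succ : MvPolynomial (Fin (m + 1)) K) = X j := by simp [res0]
          rw [hx0, hxj, mul_zero, zero_add] at h2
          rw [← h2]
          have h3 := Ideal.mem_map_of_mem (res0 m (K := K)) ((hEJ r).1 hr)
          rw [Ideal.map_span, ← Set.range_comp] at h3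
          exact h3)
      have hEw : E w ∈ Ideal.span {X 0} ⊔ Ideal.span (Set.range g) := by
        rw [show E w = (E w - rename Fin.succ (res0 m (E w))) + rename Fin.succ (res0 m (E w)) by ring]
        refine Submodule.add_mem _ (Submodule.mem_sup_left (sub_res0_mem m _)) ?_
        have h := Ideal.mem_map_of_mem (rename Fin.succ : MvPolynomial (Fin m) K →ₐ[K] _) hw0
        rw [Ideal.map_span, ← Set.range_comp] at h
        refine (Ideal.span_le.2 ?_) h
        rintro _ ⟨i, rfl⟩
        show rename Fin.succ (res0 m (g i)) ∈ _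
        rw [show rename Fin.succ (res0 m (g i)) = g i - (g i - rename Fin.succ (res0 m (g i))) by ring]
        exact Submodule.sub_mem _ (Submodule.mem_sup_right (Ideal.subset_span ⟨i, rfl⟩))
          (Submodule.mem_sup_left (sub_res0_mem m _))
      obtain ⟨_, hv, r, hr, hvr⟩ := Submodule.mem_sup.1 hEw
      obtain ⟨v, rfl⟩ := Ideal.mem_span_singleton'.1 hv
      have hr' : E.symm r ∈ J := by rw [hEJ, AlgEquiv.apply_symm_apply]; exact hr
      have hw' : w = E.symm v * l + E.symm r := by
        apply E.injective
        have hEl : E l = X 0 := hE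
        simp [hEl, hvr]
      have h4 : (z - E.symm v * F) * l ∈ J := by
        have : (z - E.symm v * F) * l = E.symm r * F + q := by
          rw [sub_mul, ← hwq, hw']; ring
        rw [this]
        exact Ideal.add_mem _ (Ideal.mul_mem_right _ _ hr') hq
      rw [show z = E.symm v * F + (z - E.symm v * F) by ring]
      exact Submodule.add_mem_sup (Ideal.mem_span_singleton'.2 ⟨_, rfl⟩) (hal _ h4)

/-- Good coordinates for a short regular sequence. -/
theorem exists_good_coord [Infinite K] {m c : ℕ} (hc : c ≤ m)
    (f : Fin c → MvPolynomial (Fin (m + 1)) K) (hf : ∀ i, (f i).IsHomogeneous 2) (hreg : StrongReg f) :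
    ∃ E : MvPolynomial (Fin (m + 1)) K ≃ₐ[K] MvPolynomial (Fin (m + 1)) K,
      (∀ p d, p.IsHomogeneous d → (E p).IsHomogeneous d) ∧
      (∀ p d, p.IsHomogeneous d → (E.symm p).IsHomogeneous d) ∧
      StrongReg (fun i => res0 m (E (f i))) := by
  obtain ⟨a, ha, hal⟩ := exists_regular_form (Nat.succ_pos m) _
    (socle_free (m + 1) c (by omega) f hf hreg)
  obtain ⟨E, hE, hEh, hEh'⟩ := exists_change a ha
  refine ⟨E, hEh, hEh', strongReg_res0 (fun i => hEh _ _ (hf i)) (hreg.mapEquiv E) fun p hp => ?_⟩
  have h := Ideal.mem_map_of_mem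
    (E.symm : MvPolynomial (Fin (m + 1)) K →ₐ[K] MvPolynomial (Fin (m + 1)) K) hp
  rw [Ideal.map_span, ← Set.range_comp] at h
  have e : (⇑(E.symm : MvPolynomial (Fin (m + 1)) K →ₐ[K] MvPolynomial (Fin (m + 1)) K) ∘
      fun i => E (f i)) = f := funext fun i => E.symm_apply_apply (f i)
  rw [e, map_mul] at h
  have hl : E.symm (X 0) = ∑ j, a j • X j := by rw [← hE, E.symm_apply_apply]
  have h1 : E.symm p ∈ Ideal.span (Set.range f) := hal _ (by rw [← hl]; exact h)
  have h2 := Ideal.mem_map_of_mem
    (E : MvPolynomial (Fin (m + 1)) K →ₐ[K] MvPolynomial (Fin (m + 1)) K) h1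
  rw [Ideal.map_span, ← Set.range_comp] at h2
  simpa [Function.comp_def] using h2

end Vale.Agent.P200
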