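import Vale.Agent.P200.Cliff
import Vale.Agent.P200.Block

/-!
The division algebra attached to a regular system of quadrics.
-/

noncomputable section

namespace Vale.Agent.P200

open MvPolynomial

universe u

theorem StrongReg.ne_zero {σ ι K : Type*} [Field K] {f : ι → MvPolynomial σ K}
    (hf : StrongReg f) (t : ι) : f t ≠ 0 := by
  intro h
  have := hf ∅ t (Set.notMem_empty t) 1 (by simp [h])
  simp at this

theorem StrongReg.renameEquiv {σ τ ι K : Type*} [Field K] {f : ι → MvPolynomial σ K}
    (hf : StrongReg f) (e : σ ≃ τ) : StrongReg (fun i => rename e (f i)) := by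
  intro S t ht g hg
  have hback : ∀ x, rename e.symm (rename e x : MvPolynomial τ K) = (x : MvPolynomial σ K) := by
    intro x; simp [rename_rename]
  have hforth : ∀ x, rename e (rename e.symm x : MvPolynomial σ K) = (x : MvPolynomial τ K) := by
    intro x; simp [rename_rename]
  have h1 : rename e.symm g * f t ∈ Ideal.span (f '' S) := by
    have h := Ideal.mem_map_of_mem (rename e.symm : MvPolynomial τ K →ₐ[K] MvPolynomial σ K) hg
    rw [Ideal.map_span, Set.image_image, map_mul, hback] at h
    simpa only [hback] using h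
  have h2 := Ideal.mem_map_of_mem (rename e : MvPolynomial σ K →ₐ[K] MvPolynomial τ K)
    (hf S t ht _ h1)
  rw [Ideal.map_span, Set.image_image, hforth] at h2
  exact h2

/-- The position of a variable of a block. -/
def bpos (n : ℕ) : Fin n × Fin n ≃ Fin (n * n) := finProdFinEquiv

/-- Point of the cube attached to a choice of one variable in each of the first blocks. -/
def cubeOf {n m : ℕ} (h : m ≤ n) (v : Fin m → Fin n) : Cube (n * n) :=
  fun k => decide (∃ i, bpos n (Fin.castLE h i, v i) = k)

theorem cubeOf_injective {n : ℕ} : Function.Injective (cubeOf (n := n) (le_refl n)) := by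
  intro v w h
  funext i
  have := congrFun h (bpos n (i, v i))
  simp only [cubeOf, Fin.castLE_rfl, id_eq, decide_eq_decide] at this
  obtain ⟨j, hj⟩ := this.1 ⟨i, rfl⟩
  have := (bpos n).injective hj
  simp only [Prod.mk.injEq] at this
  obtain ⟨rfl, h2⟩ := this
  exact h2.symm

theorem cubeOf_false {n m : ℕ} (h : m < n) (v : Fin m → Fin n) (w : Fin n) (k : Fin (n * n))
    (hk : bpos n (⟨m, h⟩, w) ≤ k) : cubeOf h.le v k = false := by
  simp only [cubeOf, decide_eq_false_iff_not, not_exists]
  intro i hi
  subst hi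
  have h1 : (bpos n (⟨m, h⟩, w)).1 / n ≤ (bpos n (Fin.castLE h.le i, v i)).1 / n :=
    Nat.div_le_div_right hk
  have e : ∀ (a b : Fin n), (bpos n (a, b)).1 / n = a.1 := by
    intro a b
    have := a.2
    simp [bpos, Nat.add_mul_div_left _ _ (show 0 < n by omega), Nat.div_eq_of_lt b.2]
  rw [e, e] at h1
  have := i.2
  simp at h1
  omega

theorem cubeOf_snoc {n m : ℕ} (h : m < n) (v : Fin m → Fin n) (w : Fin n) :
    cubeOf (Nat.succ_le_of_lt h) (Fin.snoc v w : Fin (m + 1) → Fin n) =
      Function.update (cubeOf h.le v) (bpos n (⟨m, h⟩, w)) true := by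
  funext k
  simp only [cubeOf, Function.update_apply, Fin.exists_fin_succ', Fin.snoc_castSucc, Fin.snoc_last]
  by_cases hk : k = bpos n (⟨m, h⟩, w)
  · subst hk
    simp only [if_true, decide_eq_true_eq]
    exact Or.inr rfl
  · simp only [if_neg hk, decide_eq_decide]
    constructor
    · rintro (h' | h')
      · exact h'
      · exact absurd h'.symm hk
    · exact Or.inl

/-- The matrix of the block copies of a quadric with coefficients `β`. -/
def blockB {K : Type u} [Field K] {n : ℕ} (β : Fin n → Fin n → Fin n → K) :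
    Fin (n * n) → Fin (n * n) → Fin (n * n) → K := fun T k l =>
  if ((bpos n).symm k).1 = ((bpos n).symm T).1 ∧ ((bpos n).symm l).1 = ((bpos n).symm T).1 then
    β ((bpos n).symm T).2 ((bpos n).symm k).2 ((bpos n).symm l).2 else 0

theorem genB_blockB {K : Type u} [Field K] {n : ℕ} (β : Fin n → Fin n → Fin n → K) (i v j w) :
    genB (blockB β) (bpos n (i, v)) (bpos n (j, w)) =
      if i = j then ∑ t, (if v = w then β t v v else β t v w + β t w v) •
        (X (bpos n (i, t)) : MvPolynomial (Fin (n * n)) K) else 0 := by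
  classical
  rw [genB, ← (bpos n).sum_comp, Fintype.sum_prod_type]
  by_cases hij : i = j
  · subst hij
    rw [if_pos rfl]
    rw [Finset.sum_eq_single i]
    · simp [blockB]
    · intro k _ hk; exact Finset.sum_eq_zero fun t _ => by simp [blockB, Ne.symm hk]
    · simp
  · rw [if_neg hij]
    refine Finset.sum_eq_zero fun k _ => Finset.sum_eq_zero fun t _ => ?_
    have hne' : bpos n (i, v) ≠ bpos n (j, w) := fun h => hij (congrArg Prod.fst ((bpos n).injective h))
    simp only [blockB, if_neg hne', Equiv.symm_apply_apply]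
    by_cases hk : i = k
    · subst hk; simp [Ne.symm hij]
    · simp [hk]

theorem sys_rel {K : Type u} [Field K] {n : ℕ} (β : Fin n → Fin n → Fin n → K) {A : Type*}
    [Ring A] [Algebra K A] (ψ : MvPolynomial (Fin (n * n)) K →+* A)
    (hψ : ∀ (c : K) x, ψ (c • x) = c • ψ x) (E : Fin (n * n) → A)
    (hsq : ∀ k, E k * E k = ψ (genB (blockB β) k k))
    (hanti : ∀ k l, k ≠ l → E k * E l + E l * E k = ψ (genB (blockB β) k l)) :
    (∀ i v, E (bpos n (i, v)) * E (bpos n (i, v)) = ∑ t, β t v v • ψ (X (bpos n (i, t)))) ∧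
    (∀ i v w, v ≠ w → E (bpos n (i, v)) * E (bpos n (i, w)) + E (bpos n (i, w)) * E (bpos n (i, v)) =
      ∑ t, (β t v w + β t w v) • ψ (X (bpos n (i, t)))) ∧
    (∀ i j v w, i ≠ j →
      E (bpos n (i, v)) * E (bpos n (j, w)) + E (bpos n (j, w)) * E (bpos n (i, v)) = 0) := by
  have inj := (bpos n).injective
  refine ⟨fun i v => ?_, fun i v w h => ?_, fun i j v w h => ?_⟩
  · simp [hsq, genB_blockB, hψ]
  · rw [hanti _ _ (fun h' => h (congrArg Prod.snd (inj h'))), genB_blockB, if_pos rfl, map_sum]
    simp [h, hψ]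
  · rw [hanti _ _ (fun h' => h (congrArg Prod.fst (inj h'))), genB_blockB, if_neg h, map_zero]

theorem sys_nondeg {K : Type u} [Field K] {n : ℕ} (β : Fin n → Fin n → Fin n → K) {A : Type*}
    [Ring A] [Algebra K A] (E : Fin (n * n) → A)
    (ρ : A →+* Module.End (FractionRing (MvPolynomial (Fin (n * n)) K))
      (Cube (n * n) → FractionRing (MvPolynomial (Fin (n * n)) K)))
    (hρ : ∀ (c : K) a, ρ (c • a) =
      algebraMap K (FractionRing (MvPolynomial (Fin (n * n)) K)) c • ρ a)
    (hE : ∀ k, ρ (E k) = genOp (blockB β) k) (μ : (Fin n → Fin n) → K)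
    (hμ : ∑ v : Fin n → Fin n, μ v • (List.ofFn fun i => E (bpos n (i, v i))).reverse.prod = 0) :
    μ = 0 := by
  classical
  set F := FractionRing (MvPolynomial (Fin (n * n)) K)
  set p := bpos n
  have key : ∀ m, ∀ (hm : m ≤ n), ∀ v : Fin m → Fin n, ∃ c : F, c ≠ 0 ∧
      ρ ((List.ofFn fun i => E (p (Fin.castLE hm i, v i))).reverse.prod) (vac (n * n)) =
        c • Pi.single (cubeOf hm v) 1 := by
    intro m
    induction m with
    | zero =>
      intro hm v
      refine ⟨1, one_ne_zero, ?_⟩
      have : cubeOf hm v = fun _ => false := by funext k; simp [cubeOf]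
      simp [vac, this]
    | succ m ih =>
      intro hm v
      obtain ⟨v, w, rfl⟩ : ∃ (v' : Fin m → Fin n) (w : Fin n), v = Fin.snoc v' w :=
        ⟨Fin.init v, v (Fin.last m), (Fin.snoc_init_self v).symm⟩
      obtain ⟨c, hc, h⟩ := ih (Nat.le_of_succ_le hm) v
      obtain ⟨c', hc', h'⟩ := clOp_single
        (fun i i' => algebraMap (MvPolynomial (Fin (n * n)) K) F (genB (blockB β) i i'))
        (p (⟨m, hm⟩, w)) (cubeOf (Nat.le_of_succ_le hm) v) (fun k hk => cubeOf_false hm v w k hk)
      refine ⟨c * c', mul_ne_zero hc (left_ne_zero_of_mul (hc'.trans_ne one_ne_zero)), ?_⟩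
      have e1 : (List.ofFn fun i =>
          E (p (Fin.castLE hm i, (Fin.snoc v w : Fin (m + 1) → Fin n) i))) =
          (List.ofFn fun i => E (p (Fin.castLE (Nat.le_of_succ_le hm) i, v i))).concat
            (E (p (⟨m, hm⟩, w))) := by
        rw [List.ofFn_succ']
        congr 1
        · congr 1; funext i; simp only [Fin.snoc_castSucc]; rfl
        · simp only [Fin.snoc_last]; rfl
      rw [e1, List.concat_eq_append, List.reverse_append, List.reverse_singleton,
        List.singleton_append, List.prod_cons, map_mul, hE, Module.End.mul_apply, h, map_smul,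
        cubeOf_snoc (show m < n from hm) v w, mul_smul, ← h']
      rfl
  funext v₀
  obtain ⟨c, hc, h⟩ := key n le_rfl v₀
  simp only [Fin.castLE_rfl, id_eq] at h
  have h0 := congrFun (congrArg (fun a => ρ a (vac (n * n))) hμ) (cubeOf le_rfl v₀)
  simp only [map_sum, map_zero, hρ, LinearMap.sum_apply, LinearMap.smul_apply, LinearMap.zero_apply,
    Finset.sum_apply, Pi.smul_apply, Pi.zero_apply, smul_eq_mul] at h0
  rw [Finset.sum_eq_single v₀] at h0
  · rw [h] at h0
    simp only [Pi.smul_apply, Pi.single_eq_same, smul_eq_mul, mul_one] at h0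
    exact (map_eq_zero (algebraMap K F)).1 ((mul_eq_zero.1 h0).resolve_right hc)
  · intro v _ hv
    obtain ⟨c', -, h'⟩ := key n le_rfl v
    simp only [Fin.castLE_rfl, id_eq] at h'
    rw [h']
    simp [Pi.single_eq_of_ne (fun hh => hv (cubeOf_injective hh).symm)]
  · simp

theorem exists_sys {K : Type u} [Field K] {n : ℕ} (f : Fin n → MvPolynomial (Fin n) K)
    (hf : ∀ t, (f t).IsHomogeneous 2) (hreg : StrongReg f)
    (β : Fin n → Fin n → Fin n → K) (hβ : ∀ t, f t = ∑ v, ∑ w, β t v w • (X v * X w)) :
    ∃ (D : Type u) (_ : DivisionRing D) (_ : Algebra K D) (e g : Fin n → Fin n → D),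
      (∀ i v, e i v * e i v = ∑ t, β t v v • g i t) ∧
      (∀ i v w, v ≠ w → e i v * e i w + e i w * e i v = ∑ t, (β t v w + β t w v) • g i t) ∧
      (∀ i j v w, i ≠ j → e i v * e j w + e j w * e i v = 0) ∧
      (∀ μ : (Fin n → Fin n) → K,
        ∑ v : Fin n → Fin n, μ v • (List.ofFn fun i => e i (v i)).reverse.prod = 0 → μ = 0) := by
  classical
  set p := bpos n
  let φ : Fin (n * n) → MvPolynomial (Fin (n * n)) K :=
    fun T => rename p (blockSys f (p.symm T))
  let B : Fin (n * n) → Fin (n * n) → Fin (n * n) → K := blockB β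
  have hhom : ∀ T, (φ T).IsHomogeneous 2 := fun T => (hf _).rename_isHomogeneous.rename_isHomogeneous
  have hφ : ∀ T, φ T = ∑ k, ∑ l, B T k l • (X k * X l) := by
    intro T
    obtain ⟨⟨i, t⟩, rfl⟩ := p.surjective T
    rw [← p.sum_comp, Fintype.sum_prod_type, Finset.sum_eq_single i]
    · simp only [φ, blockSys, Equiv.symm_apply_apply, hβ t, map_sum, map_smul, map_mul, rename_X]
      refine Finset.sum_congr rfl fun v _ => ?_
      conv_rhs => rw [← p.sum_comp, Fintype.sum_prod_type]
      rw [Finset.sum_eq_single (s := (Finset.univ : Finset (Fin n))) (f := fun j => ∑ w : Fin n,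
        B (p (i, t)) (p (i, v)) (p (j, w)) •
          ((X (p (i, v)) : MvPolynomial (Fin (n * n)) K) * X (p (j, w)))) i]
      · exact Finset.sum_congr rfl fun w _ => by simp [B, blockB, p]
      · intro j _ hj; exact Finset.sum_eq_zero fun w _ => by simp [B, blockB, p, hj]
      · simp
    · intro j _ hj
      exact Finset.sum_eq_zero fun v _ => Finset.sum_eq_zero fun l _ => by simp [B, blockB, p, hj]
    · simp
  have hsr : StrongReg φ :=
    ((hreg.block (β := Fin n)).comp p.symm p.symm.injective).renameEquiv p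
  have hne : ∀ T, φ T ≠ 0 := hsr.ne_zero
  have hdim : ∀ j, Module.finrank K (quotPiece (Ideal.span (Set.range φ)) j) = (n * n).choose j :=
    finrank_quotPiece_full (Fintype.card_fin _) hhom hne hsr
  have : FiniteDimensional K (MvPolynomial (Fin (n * n)) K ⧸ Ideal.span (Set.range φ)) := by
    refine finite_quot _ (isHomIdeal_span _ (by rintro _ ⟨T, rfl⟩; exact ⟨2, hhom T⟩)) (n * n)
      fun d hd => Submodule.finrank_eq_zero.1 ?_
    rw [hdim, Nat.choose_eq_zero_of_lt hd]
  have hcolon : ∀ T u, φ T * u ∈ Ideal.span (φ '' {t | t ≠ T}) →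
      u ∈ Ideal.span (φ '' {t | t ≠ T}) := fun T u h =>
    hsr _ T (by simp) u ((mul_comm (φ T) u) ▸ h)
  let F := FractionRing (MvPolynomial (Fin (n * n)) K)
  let V := Cube (n * n) → F
  let A : Subalgebra F (Module.End F V) := genCliff B
  have hdom : IsDomain A := genCliff_noZeroDivisors B φ hφ hhom hcolon hdim
  have hfin : FiniteDimensional F A :=
    Module.Finite.of_injective A.val.toLinearMap Subtype.val_injective
  let inst1 : DivisionRing A := divisionRingOfFiniteDimensional F A
  let inst2 : Algebra K A := Algebra.compHom A (algebraMap K F)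
  let E : Fin (n * n) → A := fun k => ⟨genOp B k, Algebra.subset_adjoin ⟨k, rfl⟩⟩
  let ψ : MvPolynomial (Fin (n * n)) K →+* A :=
    (algebraMap F A).comp (algebraMap (MvPolynomial (Fin (n * n)) K) F)
  have hψ : ∀ (c : K) x, ψ (c • x) = c • ψ x := by
    intro c x
    have e : algebraMap (MvPolynomial (Fin (n * n)) K) F (c • x) =
        algebraMap K F c * algebraMap (MvPolynomial (Fin (n * n)) K) F x := by
      rw [MvPolynomial.smul_eq_C_mul, map_mul]; rfl
    apply Subtype.ext
    apply LinearMap.ext
    intro z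
    show algebraMap (MvPolynomial (Fin (n * n)) K) F (c • x) • z =
      algebraMap K F c • (algebraMap (MvPolynomial (Fin (n * n)) K) F x • z)
    rw [e, mul_smul]
  have h3 := @sys_rel K _ n β A inst1.toRing inst2 ψ hψ E
    (fun k => Subtype.ext (genOp_sq B k)) (fun k l h => Subtype.ext (genOp_anti B h))
  have h4 := @sys_nondeg K _ n β A inst1.toRing inst2 E A.val.toRingHom
    (fun c a => rfl) (fun k => rfl)
  exact ⟨A, inst1, inst2, fun i v => E (p (i, v)), fun i t => ψ (X (p (i, t))),
    h3.1, h3.2.1, h3.2.2, h4⟩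

end Vale.Agent.P200
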